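import Vale.Agent.P032.H240.W.MdW

/-!
# P032: the wild model, joint colourings on the letter sequence

`MdJ M` : over `M : MdW K NP NW nb`: for every tick `t`, side `sd` and `io` (`0` inside, `1` outside) one colouring
`JE t sd io` of all points, by the pure colours at the displacement `dir (a t + τ) - dir (a t)` and a small step inside
(`io = 0`) / outside (`io = 1`) of the circles about the points `x - dir (a t)`.
-/

namespace Vale.Agent.P032.H993

open Vale.Agent.P032.H820.K (df ad hcell gk gt)
open Vale.Agent.P032.H240.W (scell vcell MdW)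

/-- joint colourings on the letter sequence -/
structure MdJ {K NP NW : ℕ} {nb : ℕ → ℕ → ℕ} (M : MdW K NP NW nb) where
  /-- the colour of the point `x` -/
  JE : ℕ → ℕ → ℕ → ℕ → ℕ
  jlt : ∀ {t sd io x}, t < 6 * K → sd < 2 → io < 2 → x < NP → JE t sd io x < 6
  /-- unit pairs have different colours -/
  jne : ∀ {t sd io x s}, t < 6 * K → sd < 2 → io < 2 → x < NP → s < 6 * K → nb x s < NP →
    JE t sd io x ≠ JE t sd io (nb x s)
  /-- the colour is in the zone of the ray at `x` -/
  jv : ∀ {t sd io x}, t < 6 * K → sd < 2 → io < 2 → x < NP → M.V (gk sd io) x (gt K sd t) (JE t sd io x)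
  /-- the colour of the letter points -/
  jl : ∀ {t sd io x}, t < 6 * K → sd < 2 → io < 2 → x < NW → nb x t < NP → M.LT x t sd io (JE t sd io (nb x t))
  /-- the colour of a word point is not in its letter -/
  jn : ∀ {t sd io x}, t < 6 * K → sd < 2 → io < 2 → x < NW → ¬ M.LU x t sd (JE t sd io x)
  /-- the colours of the neighbours of the letter point are not in the letter -/
  jx : ∀ {t sd io x r}, t < 6 * K → sd < 2 → io < 2 → x < NW → r < 6 * K → nb x t < NP → nb (nb x t) r < NP →
    ¬ M.LU x t sd (JE t sd io (nb (nb x t) r))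

end Vale.Agent.P032.H993
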