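import Vale.Agent.P032.H240.W.MdW

/-!
# P032: the wild model, partner rule and ends of the sectors

`MdP M`, over `M : MdW K NP NW nb`:

* `part` : every colour `q` (in `T x` or not) has a partner `y` of the hard point `x` with `q` in `Pal y`, and the cells of
  `x` on one side of the line through `x` orthogonal to `y - x` are not solid `q`;
* `z1a`, `z1b` : the cells at the ends of a sector; `aro`, `alo` : one sided accumulation of directions.
-/

namespace Vale.Agent.P032.H993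

open Vale.Agent.P032.H820.K (df ad hcell gk gt)
open Vale.Agent.P032.H240.W (scell vcell MdW)

/-- cells towards all directions between the ticks `s` and `s + 1` (without the cut sector `s`) -/
def gcell (K k j s : ℕ) : Bool :=
  bif Nat.beq k 0 then Nat.ble (Nat.mul 3 K) (df K j s) else
    Nat.beq (df K j s) 0 || Nat.ble (Nat.succ (Nat.mul 3 K)) (df K j s)

/-- partner rule and ends of the sectors -/
structure MdP {K NP NW : ℕ} {nb : ℕ → ℕ → ℕ} (M : MdW K NP NW nb) : Prop where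
  /-- the partner rule -/
  part : ∀ {x q}, x < NP → q < 6 → M.X x →
    (∃ s < 6 * K,
      (∀ k < 4, ∀ j < 6 * K, hcell K k j s = true → ∃ r < 6, r ≠ q ∧ M.V k x j r) ∧
      (nb x s < NP → M.P (nb x s) q ∧
        ∃ k < 4, ∃ j < 6 * K, hcell K k j (ad K s (3 * K)) = false ∧ M.PV k (nb x s) j q) ∧
      (∃ r < 6, r ≠ q ∧ (M.V 1 x s r ∨ M.V 2 x s r)) ∧
      ∃ r < 6, r ≠ q ∧ (M.V 3 x (ad K s (3 * K)) r ∨ M.V 2 x (ad K s (3 * K)) r)) ∨
    (∃ s < 6 * K,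
      (∀ k < 4, ∀ j < 6 * K, hcell K k j s = false → ∃ r < 6, r ≠ q ∧ M.V k x j r) ∧
      (nb x s < NP → M.P (nb x s) q ∧
        ∃ k < 4, ∃ j < 6 * K, hcell K k j (ad K s (3 * K)) = true ∧ M.PV k (nb x s) j q) ∧
      (∃ r < 6, r ≠ q ∧ (M.V 1 x s r ∨ M.V 2 x s r)) ∧
      ∃ r < 6, r ≠ q ∧ (M.V 3 x (ad K s (3 * K)) r ∨ M.V 2 x (ad K s (3 * K)) r)) ∨
    ∃ s < 6 * K,
      (∀ k < 4, ∀ j < 6 * K, gcell K k j s = true → ∃ r < 6, r ≠ q ∧ M.V k x j r) ∧
      (∃ r < 6, r ≠ q ∧ M.V 0 x s r) ∧ ∃ r < 6, r ≠ q ∧ M.V 0 x (ad K s (3 * K)) r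
  /-- end of a sector -/
  z1a : ∀ {x j}, x < NP → j < 6 * K → ∃ q < 6, M.V 0 x j q ∧ M.V 1 x (ad K j 1) q
  /-- start of a sector -/
  z1b : ∀ {x j}, x < NP → j < 6 * K → ∃ q < 6, M.V 3 x j q ∧ M.V 0 x j q
  aro : ∀ {c m}, K = 2 → c < NP → m < 6 → ∃ q < 6, M.AR c m q
  alo : ∀ {c m}, K = 2 → c < NP → m < 6 → ∃ q < 6, M.AL c m q

end Vale.Agent.P032.H993
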