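import Vale.Agent.P032.H240.W.MdW

/-!
# P032: the wild model, second structure

`MdE M` : further rules of the letters and of the graphs of pairs, over `M : MdW K NP NW nb`.  Free bits of `M`:
`M.B x i 4 j` = some point of the unit circle about `x` has the palette `{i, j}`;
`M.B x i 5 j` = no point of the unit circle about `x` has its palette inside `{i, j}`.
-/

namespace Vale.Agent.P032.H993

open Vale.Agent.P032.H820.K (df ad hcell gk gt)
open Vale.Agent.P032.H240.W (scell vcell MdW)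

/-- further rules -/
structure MdE {K NP NW : ℕ} {nb : ℕ → ℕ → ℕ} (M : MdW K NP NW nb) : Prop where
  /-- equal chosen letters: the letter has one colour -/
  weq : ∀ {x t sd q}, x < NW → t < 6 * K → sd < 2 → q < 6 → M.W x t sd 0 = M.W x t sd 1 → q ≠ M.W x t sd 0 →
    ¬ M.LT x t sd 0 q ∧ ¬ M.LT x t sd 1 q
  /-- no overlap: a letter with at least two colours: the outer colours are in `Pal x` -/
  noov : ∀ {x t sd p q}, x < NW → t < 6 * K → sd < 2 → p < 6 → q < 6 → p ≠ q → M.LU x t sd p →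
    M.LT x t sd 1 q → M.P x q
  /-- a letter with at least two colours is hard -/
  lX : ∀ {x t sd p q}, x < NW → t < 6 * K → sd < 2 → p < 6 → q < 6 → p ≠ q → nb x t < NP → M.LU x t sd p →
    M.LU x t sd q → M.X (nb x t)
  /-- at most three colours in a letter -/
  l3 : ∀ {x t sd} (S : Finset ℕ), x < NW → t < 6 * K → sd < 2 → (∀ q ∈ S, q < 6 ∧ M.LU x t sd q) → S.card ≤ 3
  /-- a palette on the circle about the point of the letter is not inside the letter -/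
  w2l : ∀ {x t sd s}, x < NW → t < 6 * K → sd < 2 → s < 6 * K → nb x t < NP → nb (nb x t) s < NP →
    ∃ q < 6, M.T (nb (nb x t) s) q ∧ ¬ M.LU x t sd q
  /-- nor a letter of this circle -/
  w2ll : ∀ {x t sd s sd'}, x < NW → t < 6 * K → sd < 2 → s < 6 * K → sd' < 2 → nb x t < NW →
    ∃ q < 6, M.LU (nb x t) s sd' q ∧ ¬ M.LU x t sd q
  -- the graph of the pairs
  esym : ∀ {x i j}, x < NP → i < 6 → j < 6 → M.B x i 4 j → M.B x j 4 i
  /-- a letter with exactly the colours `i`, `j` -/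
  eL : ∀ {x t sd i j}, x < NW → t < 6 * K → sd < 2 → i < 6 → j < 6 → i ≠ j → M.LU x t sd i → M.LU x t sd j →
    (∀ r < 6, r ≠ i → r ≠ j → ¬ M.LU x t sd r) → M.B x i 4 j
  /-- a neighbour with exactly the colours `i`, `j` -/
  eN : ∀ {x s i j}, x < NP → s < 6 * K → i < 6 → j < 6 → i ≠ j → nb x s < NP → M.T (nb x s) i → M.T (nb x s) j →
    (∀ r < 6, r ≠ i → r ≠ j → ¬ M.T (nb x s) r) → M.B x i 4 j
  /-- a neighbour with colours `i`, `j` only, both in `Pal x` -/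
  eP : ∀ {x s i j}, x < NP → s < 6 * K → i < 6 → j < 6 → i ≠ j → nb x s < NP → M.P x i → M.P x j →
    (∀ r < 6, r ≠ i → r ≠ j → ¬ M.T (nb x s) r) → M.B x i 4 j
  /-- at least four colours: two other colours without the pair -/
  edeg : ∀ {x i} (S : Finset ℕ), x < NP → i < 6 → 4 ≤ S.card → (∀ q ∈ S, q < 6 ∧ M.T x q) → M.T x i →
    ∃ d < 6, ∃ e < 6, d ≠ e ∧ d ≠ i ∧ e ≠ i ∧ M.T x d ∧ M.T x e ∧ ¬ M.B x i 4 d ∧ ¬ M.B x i 4 e
  -- the graph of the walls
  wsym : ∀ {x i j}, x < NP → i < 6 → j < 6 → M.B x i 5 j → M.B x j 5 i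
  wE : ∀ {x i j}, x < NP → i < 6 → j < 6 → M.B x i 5 j → ¬ M.B x i 4 j
  wL : ∀ {x t sd i j}, x < NW → t < 6 * K → sd < 2 → i < 6 → j < 6 → M.B x i 5 j →
    ∃ r < 6, r ≠ i ∧ r ≠ j ∧ M.LU x t sd r
  wN : ∀ {x s i j}, x < NP → s < 6 * K → i < 6 → j < 6 → nb x s < NP → M.B x i 5 j →
    ∃ r < 6, r ≠ i ∧ r ≠ j ∧ M.T (nb x s) r
  wdeg : ∀ {x i} (S : Finset ℕ), x < NP → i < 6 → 4 ≤ S.card → (∀ q ∈ S, q < 6 ∧ M.T x q) → M.T x i →
    ∃ d < 6, ∃ e < 6, d ≠ e ∧ d ≠ i ∧ e ≠ i ∧ M.T x d ∧ M.T x e ∧ M.B x i 5 d ∧ M.B x i 5 e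

end Vale.Agent.P032.H993
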