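import Vale.Agent.P032.H556.Wp3

/-!
# P032: the mixed rule and the far rule for palette words

Frame `Irr U T` only (any sizes of palettes).

* `no_arc2` : a colour on the arc `2 pt x v - x` of radius two does not accumulate at `pt x s` outside `S(x)`;
* `IP.mixed` : a letter with a colour of `x`: every outer colour is a colour of `x`;
* `IP.far` : a letter with a colour of `x`: a colour `p` of the letter which is not a colour of `x` is a colour of the
  mirror point.
-/

open Set Filter Topology Metric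

noncomputable section

namespace Vale.Agent.P032.H556

open Vale.Agent.P032.Six Vale.Agent.P032.Words Vale.Agent.P032.S5.H767 Vale.Agent.P032.H892
  Vale.Agent.P032.H913 Vale.Agent.P032.H357 Vale.Agent.P032.H61

variable {U : Fin 6 → Set ℂ} {T : ℂ → Set (Fin 6)} {x : ℂ} {s : ℝ} {P Q : Set (Fin 6)} {p q : Fin 6}

/-- a colour on the arc of radius two is absent outside `S(x)` -/
theorem no_arc2 (h : Irr U T) (hX : ∀ᶠ v in 𝓝 s, q ∈ Pal U (2 * pt x v - x)) :
    ¬ ∃ᶠ y in 𝓝 (pt x s), q ∈ Pal U y ∧ 1 < dist y x := by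
  intro hout
  obtain ⟨η, hη, hball⟩ := Metric.mem_nhds_iff.1 hX
  set η' := min η 1 with hη'
  have hη0 : 0 < η' := lt_min hη one_pos
  have hball' : ∀ v ∈ ball s η', q ∈ Pal U (2 * pt x v - x) := fun v hv =>
    hball (ball_subset_ball (min_le_left _ _) hv)
  have hQ : IsPreconnected ((fun v => 2 * pt x v - x) '' ball s η') :=
    (convex_ball s η').isPreconnected.image _
      ((continuous_const.mul (continuous_pt x)).sub continuous_const).continuousOn
  have hQF : (fun v => 2 * pt x v - x) '' ball s η' ⊆ closure (U q) := by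
    rintro _ ⟨v, hv, rfl⟩
    exact hball' v hv
  -- the far point
  set v1 := s + η' / 2 with hv1
  have hm1 : v1 ∈ ball s η' := by
    rw [mem_ball, Real.dist_eq, hv1, add_sub_cancel_left, abs_of_pos (by linarith)]; linarith
  have hfar : 1 < dist (2 * pt x v1 - x) (pt x s) := by
    have e0 : dist (2 * pt x v1 - x) (pt x s) ^ 2 =
        5 - 4 * Real.cos (v1 * (Real.pi / 3) - s * (Real.pi / 3)) := by
      rw [sq_dist]
      unfold pt
      have k1 : (2 * (x + cis (v1 * (Real.pi / 3))) - x : ℂ) = x + 2 * cis (v1 * (Real.pi / 3)) := by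
        ring
      rw [k1]
      simp only [Complex.add_re, Complex.add_im, Complex.mul_re, Complex.mul_im, Complex.re_ofNat,
        Complex.im_ofNat, cis_re, cis_im]
      rw [Real.cos_sub]
      have h1 := Real.sin_sq_add_cos_sq (v1 * (Real.pi / 3))
      have h2 := Real.sin_sq_add_cos_sq (s * (Real.pi / 3))
      linear_combination 4 * h1 + h2
    have hle : η' ≤ 1 := min_le_right _ _
    have hpi := Real.pi_pos
    have e1 : v1 * (Real.pi / 3) - s * (Real.pi / 3) = η' / 2 * (Real.pi / 3) := by rw [hv1]; ring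
    have h3 : Real.cos (v1 * (Real.pi / 3) - s * (Real.pi / 3)) < 1 := by
      rw [e1, ← Real.cos_zero]
      exact Real.cos_lt_cos_of_nonneg_of_le_pi le_rfl (by nlinarith) (by positivity)
    have h4 : 1 < dist (2 * pt x v1 - x) (pt x s) ^ 2 := by rw [e0]; linarith
    by_contra hcon
    push Not at hcon
    have := dist_nonneg (x := 2 * pt x v1 - x) (y := pt x s)
    nlinarith
  have hfar' : ∀ᶠ y in 𝓝 (pt x s), 1 < dist (2 * pt x v1 - x) y :=
    (continuous_const.dist continuous_id).continuousAt.eventually_const_lt hfar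
  -- the near point
  have hc1 : ∀ᶠ w in 𝓝[sphere x 1] (pt x s), ∃ v ∈ ball s η', w = pt x v :=
    ev_circle x (by
      filter_upwards [ball_mem_nhds s hη0] with v hv
      exact ⟨v, hv, rfl⟩)
  have hne0 : (dist (pt x s) x : ℂ) ≠ 0 := by rw [dist_pt]; simp
  have hc2 : ContinuousAt (fun y : ℂ => x + (y - x) / (dist y x : ℂ)) (pt x s) := by
    have k1 : ContinuousAt (fun y : ℂ => (y - x)) (pt x s) := by fun_prop
    have k2 : ContinuousAt (fun y : ℂ => ((dist y x : ℝ) : ℂ)) (pt x s) := by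
      have : Continuous fun y : ℂ => ((dist y x : ℝ) : ℂ) :=
        Complex.continuous_ofReal.comp (continuous_id.dist continuous_const)
      exact this.continuousAt
    exact continuousAt_const.add (k1.div k2 hne0)
  have hval : x + (pt x s - x) / (dist (pt x s) x : ℂ) = pt x s := by
    rw [dist_pt]; simp
  have hc3 : Tendsto (fun y : ℂ => x + (y - x) / (dist y x : ℂ)) (𝓝 (pt x s))
      (𝓝[sphere x 1] (pt x s)) := by
    refine tendsto_nhdsWithin_of_tendsto_nhds_of_eventually_within _ ?_ ?_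
    · have := hc2.tendsto
      rwa [hval] at this
    · have h5 : ∀ᶠ y in 𝓝 (pt x s), y ≠ x := by
        refine isOpen_ne.mem_nhds ?_
        intro h6
        have := dist_pt x s
        rw [h6, dist_self] at this
        exact zero_ne_one this
      filter_upwards [h5] with y hy
      have hpos : 0 < dist y x := dist_pos.2 hy
      show dist (x + (y - x) / (dist y x : ℂ)) x = 1
      rw [dist_eq_norm, add_sub_cancel_left, norm_div, Complex.norm_real, ← dist_eq_norm,
        Real.norm_of_nonneg hpos.le, div_self hpos.ne']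
  have hlt : ∀ᶠ y in 𝓝 (pt x s), dist y x < 3 :=
    (continuous_id.dist continuous_const).continuousAt.eventually_lt_const
      (by simp only [id_eq, dist_pt]; norm_num)
  obtain ⟨y, ⟨hy1, hy2⟩, hy3, ⟨v, hv, hv'⟩, hy5⟩ :=
    (hout.and_eventually (hfar'.and ((hc3.eventually hc1).and hlt))).exists
  refine h.mx.wlemma hQ hQF (z := y) ⟨v, hv, rfl⟩ ⟨v1, hm1, rfl⟩ ?_ hy3 hy1
  show dist (2 * pt x v - x) y < 1
  rw [← hv']
  have hpos : 0 < dist y x := by linarith
  have hne : ((dist y x : ℝ) : ℂ) ≠ 0 := by exact_mod_cast hpos.ne'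
  have e1 : 2 * (x + (y - x) / (dist y x : ℂ)) - x - y =
      (((2 - dist y x) / dist y x : ℝ) : ℂ) * (y - x) := by
    push_cast
    field_simp
    ring
  rw [dist_eq_norm, e1, norm_mul, Complex.norm_real, ← dist_eq_norm, Real.norm_eq_abs, abs_div,
    abs_of_pos hpos, div_mul_cancel₀ _ hpos.ne', abs_lt]
  constructor <;> linarith

namespace IP

variable (I : IP U T x s P Q)
include I

/-- a letter with a colour of `x`: the partners of the other colours -/
theorem mirror (h : Irr U T) (hp : p ∈ P ∪ Q) (hpx : p ∈ Pal U x) (hq : q ∈ P ∪ Q) (hqx : q ∉ Pal U x) :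
    ∀ᶠ v in 𝓝 s, q ∈ Pal U (2 * pt x v - x) := by
  filter_upwards [I.loc, I.loc.eventually_nhds] with v hv hv2
  have hTv : T (pt x v) = P ∪ Q := hv.trans (I.union h)
  have h1 : pt x v ∈ XX U := h.mem_XX (dist_pt x v) (by rw [hTv]; exact hp) hpx
  obtain ⟨V, hzV, hV⟩ : ∃ V, dist (pt x v) V = 1 ∧ q ∈ Pal U V := h.partner_XX h1 q
  have harc : ∀ᶠ y in 𝓝[sphere x 1] (pt x v), q ∈ Pal U y := by
    have h3 : ∀ᶠ v' in 𝓝 v, q ∈ Pal U (pt x v') := by
      filter_upwards [hv2] with v' hv'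
      exact h.sub _ (by rw [hv', I.union h]; exact hq)
    exact ev_circle x h3
  rcases h.mx.partner_line (dist_pt x v) harc hzV hV with h3 | h3
  · rw [h3] at hV; exact absurd hV hqx
  · have : V = 2 * pt x v - x := by rw [← h3]; ring
    rwa [this] at hV

/-- **the mixed rule** -/
theorem mixed (h : Irr U T) (hp : p ∈ P ∪ Q) (hpx : p ∈ Pal U x) (hq : q ∈ Q) : q ∈ Pal U x := by
  by_contra hqx
  refine no_arc2 h (I.mirror h hp hpx (Or.inr hq) hqx) ?_
  exact ((I.out q).1 hq).mono fun y hy => ⟨h.sub y (by rw [hy.1]; rfl), hy.2⟩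

/-- **the far rule** -/
theorem far (h : Irr U T) (hp : p ∈ P ∪ Q) (hpx : p ∈ Pal U x) (hq : q ∈ P ∪ Q) (hqx : q ∉ Pal U x) :
    q ∈ Pal U (2 * pt x s - x) := (I.mirror h hp hpx hq hqx).self_of_nhds

end IP

namespace FamP

variable {J : Type*} {l : Filter ℝ} {X : J → ℂ} {t : J → ℝ} {P Q : J → Set (Fin 6)}
variable (F : FamP U T l X t P Q)
include F

theorem mixed (h : Irr U T) {j : J} (hp : p ∈ P j ∪ Q j) (hpx : p ∈ Pal U (X j)) (hq : q ∈ Q j) :
    q ∈ Pal U (X j) := by
  obtain ⟨τ, h1⟩ := F.some_at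
  exact (h1 j).mixed h hp hpx hq

theorem far (h : Irr U T) (hl : Side l) {j : J} (hp : p ∈ P j ∪ Q j) (hpx : p ∈ Pal U (X j))
    (hq : q ∈ P j ∪ Q j) (hqx : q ∉ Pal U (X j)) : q ∈ Pal U (2 * pt (X j) (t j) - X j) := by
  have h1 : ∃ᶠ τ in l, q ∈ Pal U (2 * pt (X j) (t j + τ) - X j) :=
    F.mono fun τ hτ => (hτ j).far h hp hpx hq hqx
  have h2 : Tendsto (fun τ : ℝ => 2 * pt (X j) (t j + τ) - X j) l (𝓝 (2 * pt (X j) (t j) - X j)) := by
    have h3 := tendsto_pt_shift hl (X j) (t j)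
    exact (h3.const_mul 2).sub_const _
  exact isClosed_closure.mem_of_frequently_of_tendsto h1 h2

end FamP

namespace Wp

variable {J : Type*} {K : ℕ} {a : ℕ → ℝ} {X : J → ℂ} {W : J → ℕ → ℕ → ℕ → Set (Fin 6)}
variable (D : Wp U T K a X W)
include D

/-- **mixed rule** -/
theorem mixed (h : Irr U T) {j : J} {t sd : ℕ} (hp : p ∈ W j t sd 0 ∪ W j t sd 1) (hpx : p ∈ Pal U (X j))
    (hq : q ∈ W j t sd 1) : q ∈ Pal U (X j) := (D.fam sd).mixed h (j := (j, t)) hp hpx hq

/-- **far rule** -/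
theorem far (h : Irr U T) {j : J} {t sd : ℕ} (hp : p ∈ W j t sd 0 ∪ W j t sd 1) (hpx : p ∈ Pal U (X j))
    (hq : q ∈ W j t sd 0 ∪ W j t sd 1) (hqx : q ∉ Pal U (X j)) : q ∈ Pal U (X j + 2 * dir (a t)) := by
  have h1 := (D.fam sd).far h (sdf_side sd) (j := (j, t)) hp hpx hq hqx
  have e : 2 * pt (X j) (a t) - X j = X j + 2 * dir (a t) := by
    unfold pt dir; ring
  rwa [e] at h1

/-- before the tick: the sector before `t` -/
theorem sector_L (h : Irr U T) (A : Tick K a) {j : J} {t : ℕ} (hs : So T (X j) a 0 t p) :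
    p ∉ W j (t + 1) 0 0 ∧ p ∉ W j (t + 1) 0 1 := by
  have hK := A.pos
  have hr : ∀ᶠ τ : ℝ in 𝓝[<] 0, ra a t - ra a (t + 1) < τ :=
    (eventually_gt_nhds (sub_neg.2 (CK.ra_lt A (Nat.lt_succ_self t)))).filter_mono nhdsWithin_le_nhds
  refine ⟨?_, ?_⟩
  · -- a direction just before the ray of the letter is outside
    refine D.famL.co_ev h (j := (j, t + 1)) ?_
    filter_upwards [ev_small', hr] with τ hτ h2
    refine solid_sector h (θ := ra a (t + 1) + τ / 2) ⟨by linarith [hτ.1, hτ.2], by linarith [hτ.2]⟩ hs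
      (po_out (u := a (t + 1) + τ) ?_)
    exact cos_neg_of (by unfold ra; linarith [hτ.2]) (by unfold ra; linarith [hτ.1])
  · -- a direction before the shifted ray is inside
    refine D.famL.ci_ev h (j := (j, t + 1)) ?_
    have hm := A.mono (Nat.lt_succ_self t)
    filter_upwards [ev_small', hr] with τ hτ h2
    set θ := (ra a t + (ra a (t + 1) + τ)) / 2 with hθ
    have hlt : ra a (t + 1) ≤ ra a (t + K) := CK.ra_le A (by omega)
    have hper : ra a (t + K) = ra a t + 1 := by unfold ra; rw [A.per t]; ring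
    rw [hper] at hlt
    refine solid_sector h (θ := θ) ⟨by rw [hθ]; linarith, by rw [hθ]; linarith [hτ.2]⟩ hs
      (po_in (u := a (t + 1) + τ) ?_)
    have e1 : ra a (t + 1) = a (t + 1) + 3 / 2 := rfl
    have := ray_pos (d := a (t + 1) + τ + 3 / 2 - θ) (by rw [hθ]; linarith) (by rw [hθ]; linarith)
    rwa [show (θ - (a (t + 1) + τ)) * (Real.pi / 3) =
      (3 / 2 - (a (t + 1) + τ + 3 / 2 - θ)) * (Real.pi / 3) by ring]

/-- before the tick: the opposite sector before `t` -/
theorem sector_L' (h : Irr U T) (A : Tick K a) {j : J} {t : ℕ} (hs : So T (X j) a 0 (t + 3 * K) p) :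
    p ∉ W j (t + 1) 0 0 ∧ p ∉ W j (t + 1) 0 1 := by
  have hK := A.pos
  have e0 : ra a (t + 3 * K) = ra a t + 3 := CK.ra_half A t
  have e1 : ra a (t + 3 * K + 1) = ra a (t + 1) + 3 := by
    rw [show t + 3 * K + 1 = t + 1 + 3 * K by ring, CK.ra_half A]
  have e2 : ra a (t + 1) = a (t + 1) + 3 / 2 := rfl
  have hlt : ra a (t + 1) ≤ ra a (t + K) := CK.ra_le A (by omega)
  have hper : ra a (t + K) = ra a t + 1 := by unfold ra; rw [A.per t]; ring
  rw [hper] at hlt
  have hr : ∀ᶠ τ : ℝ in 𝓝[<] 0, ra a t - ra a (t + 1) < τ :=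
    (eventually_gt_nhds (sub_neg.2 (CK.ra_lt A (Nat.lt_succ_self t)))).filter_mono nhdsWithin_le_nhds
  refine ⟨?_, ?_⟩
  · refine D.famL.co_ev h (j := (j, t + 1)) ?_
    filter_upwards [ev_small', hr] with τ hτ h2
    set θ := (ra a t + (ra a (t + 1) + τ)) / 2 + 3 with hθ
    refine solid_sector h (θ := θ) ⟨by rw [hθ, e0]; linarith, by rw [hθ, e1]; linarith [hτ.2]⟩ hs
      (po_out (u := a (t + 1) + τ) ?_)
    exact cos_neg_of (by rw [hθ]; linarith) (by rw [hθ]; linarith)
  · refine D.famL.ci_ev h (j := (j, t + 1)) ?_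
    filter_upwards [ev_small', hr] with τ hτ h2
    refine solid_sector h (θ := ra a (t + 1) + 3 + τ / 2)
      ⟨by rw [e0]; linarith [hτ.1, hτ.2], by rw [e1]; linarith [hτ.2]⟩ hs (po_in (u := a (t + 1) + τ) ?_)
    exact CK.cos_pos_six (by linarith [hτ.1, hτ.2]) (by linarith [hτ.1, hτ.2])

end Wp

end Vale.Agent.P032.H556
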