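import Vale.Agent.P032.H993.MkW
import Vale.Agent.P032.H993.Mix
import Vale.Agent.P032.S5.H360.Degree

/-!
# P032: the wild instance, part 2: letters

Frame `Irr U T` (and `Mn U T` for `pairs`).  Letters `LW σ K n W io x t sd q`: the colour `q` is inside (`io = 0`) /
outside (`io = 1`) of the circle about `Y x` just before (`sd = 0`) / just after (`sd = 1`) the direction `t`;
`LL` : inside or outside.  The ticks of the class `r` have the family `W r`.

* `ne`, `mem_t`, `single`, `sixty`, `pair`, `foreign`, `gap2`, `xx` ,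
* `glue0R`, `glue1R`, `glue0L`, `glue1L`, `glueLR`, `glueLL`,
* `mixed`, `farm`, `src`, `secR`, `secR'`, `secL`, `secL'`, `pairs`.
-/

open Set Filter Topology Metric

noncomputable section

namespace Vale.Agent.P032.H993.MkW

open Vale.Agent.P032.Six Vale.Agent.P032.H892 Vale.Agent.P032.H913 Vale.Agent.P032.S5.H767 Vale.Agent.P032.H61
  Vale.Agent.P032.H357 Vale.Agent.P032.H357.MK Vale.Agent.P032.H556
open Vale.Agent.P032.H820.K (df ad hcell ecell fcell wcell gk gt)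

/-- letters, inside (`io = 0`) or outside (`io = 1`); the ticks of the class `r` have the letters `W r` -/
def LW (σ : Equiv.Perm (Fin 6)) (K n : ℕ) (W : ℕ → Fin n → ℕ → ℕ → ℕ → Set (Fin 6)) (io x t sd q : ℕ) : Prop :=
  ∃ h : x < n, co σ q ∈ W (t % K) ⟨x, h⟩ t sd io

/-- letters -/
def LL (σ : Equiv.Perm (Fin 6)) (K n : ℕ) (W : ℕ → Fin n → ℕ → ℕ → ℕ → Set (Fin 6)) (x t sd q : ℕ) : Prop :=
  LW σ K n W 0 x t sd q ∨ LW σ K n W 1 x t sd q

section
variable {σ : Equiv.Perm (Fin 6)} {K n : ℕ} {W : ℕ → Fin n → ℕ → ℕ → ℕ → Set (Fin 6)} {io x t sd q : ℕ}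

theorem lw_iff (hx : x < n) : LW σ K n W io x t sd q ↔ co σ q ∈ W (t % K) ⟨x, hx⟩ t sd io :=
  ⟨fun ⟨_, h⟩ => h, fun h => ⟨hx, h⟩⟩

theorem ll_iff (hx : x < n) :
    LL σ K n W x t sd q ↔ co σ q ∈ W (t % K) ⟨x, hx⟩ t sd 0 ∪ W (t % K) ⟨x, hx⟩ t sd 1 := by
  unfold LL
  rw [lw_iff hx, lw_iff hx]; rfl

theorem lw_of (hio : io < 2) (h : LW σ K n W io x t sd q) : LL σ K n W x t sd q := by
  interval_cases io
  · exact Or.inl h
  · exact Or.inr h

theorem ad_mod (K t s : ℕ) (hs : s % K = 0) : ad K t s % K = t % K := by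
  rw [ad_eq, Nat.mod_mod_of_dvd _ (Dvd.intro_left 6 rfl), Nat.add_mod, hs, add_zero, Nat.mod_mod]

end

variable {U : Fin 6 → Set ℂ} {T : ℂ → Set (Fin 6)} {K : ℕ} {a : ℕ → ℝ} {σ : Equiv.Perm (Fin 6)} {NP NW : ℕ}
  {nb : ℕ → ℕ → ℕ} {Y : ℕ → ℂ} {W : ℕ → Fin NW → ℕ → ℕ → ℕ → Set (Fin 6)}

section
variable (h : Irr U T) (D : ∀ r, Wp U T K a (fun j : Fin NW => Y j.val) (W r)) {x t sd q : ℕ}
include h D

/-- every letter has a colour -/
theorem lne {io : ℕ} (hx : x < NW) (hio : io < 2) : ∃ q < 6, LW σ K NW W io x t sd q := by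
  interval_cases io
  · obtain ⟨i, hi⟩ := (D (t % K)).ne0 h ⟨x, hx⟩ t sd
    obtain ⟨q, hq, rfl⟩ := co_surj σ i
    exact ⟨q, hq, (lw_iff hx).2 hi⟩
  · obtain ⟨i, hi⟩ := (D (t % K)).ne1 h ⟨x, hx⟩ t sd
    obtain ⟨q, hq, rfl⟩ := co_surj σ i
    exact ⟨q, hq, (lw_iff hx).2 hi⟩

/-- the colours of the letter are colours of the neighbour -/
theorem mem_t (hY : Tab K a NP nb Y) (hx : x < NW) (hx' : x < NP) (ht : t < 6 * K) (hn : nb x t < NP)
    (hq : LL σ K NW W x t sd q) : co σ q ∈ T (Y (nb x t)) := by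
  rw [hY x hx' t ht hn]
  exact (D (t % K)).mem h (j := ⟨x, hx⟩) ((ll_iff hx).1 hq)

/-- a letter is not the single colour of `x` -/
theorem single (hx : x < NW) (hq : co σ q ∈ Pal U (Y x)) : ∃ r < 6, r ≠ q ∧ LL σ K NW W x t sd r := by
  have h1 := (D (t % K)).single h (j := ⟨x, hx⟩) (t := t) (sd := sd) hq
  rw [not_subset] at h1
  obtain ⟨i, hi, hne⟩ := h1
  obtain ⟨r, hr, rfl⟩ := co_surj σ i
  exact ⟨r, hr, fun e => hne (by rw [e]; rfl), (ll_iff hx).2 hi⟩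

/-- 60 degrees -/
theorem sixty (A : Tick K a) (hx : x < NW) (hq : LL σ K NW W x t sd q) : ¬ LL σ K NW W x (ad K t K) sd q := by
  intro h1
  have h2 := (ll_iff hx).1 hq
  have h3 := (ll_iff hx).1 h1
  rw [ad_mod K t K (Nat.mod_self K), ad_eq, (D _).per, (D _).per] at h3
  exact Set.disjoint_left.1 ((D (t % K)).sixty h A (j := ⟨x, hx⟩) (t := t) (sd := sd)) h2 h3

/-- unit pairs -/
theorem pair {s : ℕ} (hY : Tab K a NP nb Y) (hx : x < NW) (hx' : x < NP) (hs : s < 6 * K) (hn : nb x s < NP)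
    (hn' : nb x s < NW) (hq : LL σ K NW W x t sd q) : ¬ LL σ K NW W (nb x s) t sd q := by
  intro h1
  exact Set.disjoint_left.1 ((D (t % K)).pair h (i := ⟨x, hx⟩) (j := ⟨nb x s, hn'⟩) (t := t) (sd := sd)
    (hY.dist hx' hs hn)) ((ll_iff hx).1 hq) ((ll_iff hn').1 h1)

/-- at most three colours: a foreign colour -/
theorem foreign (hx : x < NW) (h3 : (T (Y x)).ncard ≤ 3) : ∃ q < 6, LL σ K NW W x t sd q ∧ co σ q ∉ T (Y x) := by
  obtain ⟨i, hi, hne⟩ := (D (t % K)).foreign h (j := ⟨x, hx⟩) (t := t) (sd := sd) h3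
  obtain ⟨r, hr, rfl⟩ := co_surj σ i
  exact ⟨r, hr, (ll_iff hx).2 hi, hne⟩

theorem xx (hx : x < NW) (hq : LL σ K NW W x t sd q) (hq' : co σ q ∈ T (Y x)) : Y x ∈ XX U :=
  ((D (t % K)).fam sd).mem_XX h (j := (⟨x, hx⟩, t)) ((ll_iff hx).1 hq) hq'

/-- two colours of `x` are not in the letter -/
theorem gap2 (hx : x < NW) (hX : Y x ∈ XX U) : ∃ p q : ℕ, p < q ∧ q < 6 ∧ co σ p ∈ T (Y x) ∧ co σ q ∈ T (Y x) ∧
    ¬ LL σ K NW W x t sd p ∧ ¬ LL σ K NW W x t sd q := by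
  obtain ⟨p, q, h1, h2, h3, h4⟩ := two_of_card (σ := σ) ((D (t % K)).two_XX h (j := ⟨x, hx⟩) (t := t) (sd := sd) hX)
  exact ⟨p, q, h1, h2, h3.1, h4.1, fun h5 => h3.2 ((ll_iff hx).1 h5), fun h5 => h4.2 ((ll_iff hx).1 h5)⟩

/-! glue -/

omit h in
theorem glue0R (hY : Tab K a NP nb Y) (hx : x < NW) (hx' : x < NP) (ht : t < 6 * K) (hn : nb x t < NP)
    (hq : LW σ K NW W 0 x t 1 q) : Cl (Sq T (co σ q)) (Y (nb x t)) a 3 t := by
  rw [hY x hx' t ht hn]
  exact (D (t % K)).glue_in_R (j := ⟨x, hx⟩) ((lw_iff hx).1 hq)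

omit h in
theorem glue1R (hY : Tab K a NP nb Y) (hx : x < NW) (hx' : x < NP) (ht : t < 6 * K) (hn : nb x t < NP)
    (hq : LW σ K NW W 1 x t 1 q) : Cl (Sq T (co σ q)) (Y (nb x t)) a 2 t := by
  rw [hY x hx' t ht hn]
  exact (D (t % K)).glue_out_R (j := ⟨x, hx⟩) ((lw_iff hx).1 hq)

omit h in
theorem glue0L (hY : Tab K a NP nb Y) (A : Tick K a) (hx : x < NW) (hx' : x < NP) (ht : t < 6 * K)
    (hn : nb x t < NP) (hq : LW σ K NW W 0 x t 0 q) :
    Cl (Sq T (co σ q)) (Y (nb x t)) a 1 (ad K t (3 * K)) := by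
  rw [cl_opp A, hY x hx' t ht hn]
  exact (D (t % K)).glue_in_L A (j := ⟨x, hx⟩) ((lw_iff hx).1 hq)

omit h in
theorem glue1L (hY : Tab K a NP nb Y) (A : Tick K a) (hx : x < NW) (hx' : x < NP) (ht : t < 6 * K)
    (hn : nb x t < NP) (hq : LW σ K NW W 1 x t 0 q) :
    Cl (Sq T (co σ q)) (Y (nb x t)) a 2 (ad K t (3 * K)) := by
  rw [cl_opp A, hY x hx' t ht hn]
  exact (D (t % K)).glue_out_L A (j := ⟨x, hx⟩) ((lw_iff hx).1 hq)

omit h in
/-- all four, as in the model -/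
theorem glueK {io : ℕ} (hY : Tab K a NP nb Y) (A : Tick K a) (hx : x < NW) (hx' : x < NP) (ht : t < 6 * K)
    (hsd : sd < 2) (hio : io < 2) (hn : nb x t < NP) (hq : LW σ K NW W io x t sd q) :
    Cl (Sq T (co σ q)) (Y (nb x t)) a (gk sd io) (gt K sd t) := by
  interval_cases sd <;> interval_cases io
  · exact glue0L D hY A hx hx' ht hn hq
  · exact glue1L D hY A hx hx' ht hn hq
  · exact glue0R D hY hx hx' ht hn hq
  · exact glue1R D hY hx hx' ht hn hq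

/-! mixed letters -/

/-- a letter with a colour of `x`: the outer colours are colours of `x` -/
theorem mixed {p : ℕ} (hx : x < NW) (hp : LL σ K NW W x t sd p) (hpx : co σ p ∈ Pal U (Y x))
    (hq : LW σ K NW W 1 x t sd q) : co σ q ∈ Pal U (Y x) :=
  (D (t % K)).mixed h (j := ⟨x, hx⟩) ((ll_iff hx).1 hp) hpx ((lw_iff hx).1 hq)

/-- a letter with a colour of `x`: the other colours are at the mirror point -/
theorem farm {p : ℕ} (hY : Tab K a NP nb Y) (hx : x < NW) (hx' : x < NP) (ht : t < 6 * K) (hn : nb x t < NP)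
    (hn' : nb (nb x t) t < NP) (hp : LL σ K NW W x t sd p) (hpx : co σ p ∈ Pal U (Y x))
    (hq : LL σ K NW W x t sd q) (hqx : co σ q ∉ Pal U (Y x)) : co σ q ∈ Pal U (Y (nb (nb x t) t)) := by
  have h1 := (D (t % K)).far h (j := ⟨x, hx⟩) ((ll_iff hx).1 hp) hpx ((ll_iff hx).1 hq) hqx
  have e2 : Y (nb (nb x t) t) = Y x + 2 * dir (a t) := by
    rw [hY (nb x t) hn t ht hn', hY x hx' t ht hn]; ring
  rw [e2]; exact h1

/-! sources -/

/-- a cell of one colour against the letters -/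
theorem src {io k j : ℕ} (A : Tick K a) (hx : x < NW) (ht : t < 6 * K) (hsd : sd < 2) (hio : io < 2) (hk : k < 4)
    (hj : j < 6 * K) (hc : wcell K sd io k j t = true) (hq : LW σ K NW W io x t sd q) :
    ∃ r < 6, r ≠ q ∧ Cl (Sq T (co σ r)) (Y x) a k j := by
  refine not_so fun hso => ?_
  have hso : So T (Y x) a k (t + df K j t) (co σ q) := fun r hr hcl => hso r hr ((cl_df A hj ht).1 hcl)
  have hq := (lw_iff hx).1 hq
  have hlt := df_lt hj ht
  unfold wcell at hc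
  have e3 : Nat.mul 3 K = 3 * K := rfl
  rw [e3] at hc
  generalize df K j t = d at hso hlt hc
  have hk3 : k ≤ 3 := by omega
  by_cases h0 : k = 0
  · subst h0
    interval_cases io
    · have h1 : d + 1 ≤ 3 * K := by simpa using hc
      refine (D _).co_cell h A (j := ⟨x, hx⟩) hk3 hlt ?_ hso hq
      rintro (⟨-, h2⟩ | ⟨h2, -⟩)
      · omega
      · exact h2 rfl
    · have h1 : 3 * K ≤ d := by simpa using hc
      exact (D _).ci_cell h A (j := ⟨x, hx⟩) hk3 hlt (Or.inl ⟨rfl, h1⟩) hso hq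
  · rw [nbeq_zero h0] at hc
    interval_cases io
    · interval_cases sd
      · have h1 : (1 ≤ d ∧ d + 1 ≤ 3 * K) ∨ (d = 0 ∨ (d = 3 * K ∧ k ≤ 2)) := by
          simpa [nbeq] using hc
        rcases h1 with h1 | h1 | ⟨h1, h2⟩
        · refine (D _).co_cell h A (j := ⟨x, hx⟩) hk3 hlt ?_ hso hq
          rintro (⟨h2, -⟩ | ⟨-, h2 | ⟨-, h2⟩ | ⟨-, h2⟩⟩)
          · exact h0 h2
          all_goals omega
        · subst h1
          exact (D _).ray_L h (j := ⟨x, hx⟩) h0 hso hq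
        · subst h1
          refine (D _).co_cell h A (j := ⟨x, hx⟩) hk3 hlt ?_ hso hq
          rintro (⟨h3, -⟩ | ⟨-, h3 | ⟨h3, h4⟩ | ⟨h3, -⟩⟩)
          · exact h0 h3
          · omega
          · omega
          · omega
      · have h1 : (1 ≤ d ∧ d + 1 ≤ 3 * K) ∨ (d = 3 * K ∨ (d = 0 ∧ 2 ≤ k)) := by
          simpa [nbeq] using hc
        rcases h1 with h1 | h1 | ⟨h1, h2⟩
        · refine (D _).co_cell h A (j := ⟨x, hx⟩) hk3 hlt ?_ hso hq
          rintro (⟨h2, -⟩ | ⟨-, h2 | ⟨-, h2⟩ | ⟨-, h2⟩⟩)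
          · exact h0 h2
          all_goals omega
        · subst h1
          exact (D _).ray_R' h A (j := ⟨x, hx⟩) h0 hso hq
        · subst h1
          refine (D _).co_cell h A (j := ⟨x, hx⟩) hk3 hlt ?_ hso hq
          rintro (⟨h3, -⟩ | ⟨-, h3 | ⟨h3, h4⟩ | ⟨h3, h4⟩⟩)
          · exact h0 h3
          · omega
          · omega
          · omega
    · interval_cases sd
      · have h1 : 3 * K + 1 ≤ d ∨ (d = 3 * K ∨ (d = 0 ∧ k = 1)) := by
          simpa [nbeq] using hc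
        rcases h1 with h1 | h1 | ⟨h1, rfl⟩
        · exact (D _).ci_cell h A (j := ⟨x, hx⟩) hk3 hlt (Or.inr ⟨h0, Or.inl h1⟩) hso hq
        · subst h1
          exact (D _).ray_L' h A (j := ⟨x, hx⟩) h0 hso hq
        · subst h1
          exact (D _).ci_cell h A (j := ⟨x, hx⟩) hk3 hlt (Or.inr ⟨h0, Or.inr (Or.inl ⟨rfl, rfl⟩)⟩) hso hq
      · have h1 : 3 * K + 1 ≤ d ∨ (d = 0 ∨ (d = 3 * K ∧ k = 3)) := by
          simpa [nbeq] using hc
        rcases h1 with h1 | h1 | ⟨h1, rfl⟩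
        · exact (D _).ci_cell h A (j := ⟨x, hx⟩) hk3 hlt (Or.inr ⟨h0, Or.inl h1⟩) hso hq
        · subst h1
          exact (D _).ray_R h (j := ⟨x, hx⟩) h0 hso hq
        · subst h1
          exact (D _).ci_cell h A (j := ⟨x, hx⟩) hk3 hlt (Or.inr ⟨h0, Or.inr (Or.inr ⟨rfl, rfl⟩)⟩) hso hq

/-- the sector `t` after the tick: inside and outside -/
theorem secR (A : Tick K a) (hx : x < NW) (hq : LL σ K NW W x t 1 q) :
    ∃ r < 6, r ≠ q ∧ Cl (Sq T (co σ r)) (Y x) a 0 t := by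
  refine not_so fun hso => ?_
  obtain ⟨h1, h2⟩ := (D (t % K)).sector_R h A (j := ⟨x, hx⟩) hso
  exact ((ll_iff hx).1 hq).elim h1 h2

/-- the sector `t + 3 K` after the tick -/
theorem secR' (A : Tick K a) (hx : x < NW) (hq : LL σ K NW W x t 1 q) :
    ∃ r < 6, r ≠ q ∧ Cl (Sq T (co σ r)) (Y x) a 0 (ad K t (3 * K)) := by
  refine not_so fun hso => ?_
  have hso : So T (Y x) a 0 (t + 3 * K) (co σ q) := fun r hr hcl => hso r hr ((cl_opp A).2 hcl)
  obtain ⟨h1, h2⟩ := (D (t % K)).sector_R' h A (j := ⟨x, hx⟩) hso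
  exact ((ll_iff hx).1 hq).elim h1 h2

/-- the sector before `t + 1` before this tick -/
theorem secL (A : Tick K a) (hx : x < NW) (hq : LL σ K NW W x (ad K t 1) 0 q) :
    ∃ r < 6, r ≠ q ∧ Cl (Sq T (co σ r)) (Y x) a 0 t := by
  refine not_so fun hso => ?_
  have h3 := (ll_iff hx).1 hq
  rw [ad_eq, (D _).per, (D _).per] at h3
  obtain ⟨h1, h2⟩ := (D ((t + 1) % (6 * K) % K)).sector_L h A (j := ⟨x, hx⟩) hso
  exact h3.elim h1 h2

/-- the opposite sector before `t + 1` before this tick -/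
theorem secL' (A : Tick K a) (hx : x < NW) (hq : LL σ K NW W x (ad K t 1) 0 q) :
    ∃ r < 6, r ≠ q ∧ Cl (Sq T (co σ r)) (Y x) a 0 (ad K t (3 * K)) := by
  refine not_so fun hso => ?_
  have hso : So T (Y x) a 0 (t + 3 * K) (co σ q) := fun r hr hcl => hso r hr ((cl_opp A).2 hcl)
  have h3 := (ll_iff hx).1 hq
  rw [ad_eq, (D _).per, (D _).per] at h3
  obtain ⟨h1, h2⟩ := (D ((t + 1) % (6 * K) % K)).sector_L' h A (j := ⟨x, hx⟩) hso
  exact h3.elim h1 h2

end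

end Vale.Agent.P032.H993.MkW
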