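import Vale.Agent.P032.H993.MkX

/-!
# P032: the wild model of a covering

`mkMdW` : the frame `Irr U T`, `K` classes of directions `a`, points `Y x` with the table `nb`, palette words and chosen
letters of the word points (`H515.Sw`, for every class `r` of ticks its own family), joint colourings `J` and any bits
`B` give a model `H240.W.MdW K NP NW nb`.  The colours are numbered by the permutation `σ`.
`exists_mdW` : existence for one family of letters.
-/

open Set Filter Topology Metric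

noncomputable section

namespace Vale.Agent.P032.H993.MkW

open Vale.Agent.P032.Six Vale.Agent.P032.H892 Vale.Agent.P032.H913 Vale.Agent.P032.S5.H767 Vale.Agent.P032.H61
  Vale.Agent.P032.H357 Vale.Agent.P032.H357.MK Vale.Agent.P032.H556 Vale.Agent.P032.H515
open Vale.Agent.P032.H820.K (df ad hcell ecell fcell wcell gk gt)
open Vale.Agent.P032.H240.W (scell vcell MdW)

/-- the chosen letters as numbers; the ticks of the class `r` have the letters `w r` -/
def wn (σ : Equiv.Perm (Fin 6)) (K n : ℕ) (w : ℕ → Fin n → ℕ → ℕ → ℕ → Fin 6) (x t sd io : ℕ) : ℕ :=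
  if h : x < n then no σ (w (t % K) ⟨x, h⟩ t sd io) else 0

section
variable {σ : Equiv.Perm (Fin 6)} {K n : ℕ} {w : ℕ → Fin n → ℕ → ℕ → ℕ → Fin 6}

theorem wn_eq {x t sd io : ℕ} (hx : x < n) : wn σ K n w x t sd io = no σ (w (t % K) ⟨x, hx⟩ t sd io) := dif_pos hx

theorem co_wn {x t sd io : ℕ} (hx : x < n) : co σ (wn σ K n w x t sd io) = w (t % K) ⟨x, hx⟩ t sd io := by
  rw [wn_eq hx, co_no]

theorem wn_lt {x t sd io : ℕ} : wn σ K n w x t sd io < 6 := by
  unfold wn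
  split_ifs
  · exact no_lt σ _
  · norm_num

end

/-- **the wild model** -/
def mkMdW {U : Fin 6 → Set ℂ} {T : ℂ → Set (Fin 6)} (h : Irr U T) {K : ℕ} {a : ℕ → ℝ} (A : Tick K a)
    (σ : Equiv.Perm (Fin 6)) {NP NW : ℕ} {nb : ℕ → ℕ → ℕ} (hK : 6 * K ≤ 256) (hNP : NP ≤ 4096) (hNW : NW ≤ NP)
    (Y : ℕ → ℂ) (hY : Tab K a NP nb Y) {W : ℕ → Fin NW → ℕ → ℕ → ℕ → Set (Fin 6)}
    {w : ℕ → Fin NW → ℕ → ℕ → ℕ → Fin 6} (D : ∀ r, Sw U T K a (fun j : Fin NW => Y j.val) (W r) (w r))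
    {J : ℕ → ℕ → ℕ → ℕ} (hJ : JC U T K a σ NP nb Y J) (B : ℕ → ℕ → ℕ → ℕ → Prop) : MdW K NP NW nb where
  hK0 := A.pos
  hK := hK
  hNP := hNP
  hNW := hNW
  V k x j q := Cl (Sq T (co σ q)) (Y x) a k j
  PV k x j q := Cl (U (co σ q)) (Y x) a k j
  H x s q := HI (Sq T (co σ q)) (Y x) a s
  PH x s q := HI (U (co σ q)) (Y x) a s
  T x q := co σ q ∈ T (Y x)
  P x q := co σ q ∈ Pal U (Y x)
  X x := Y x ∈ XX U
  LT x t sd io q := LW σ K NW W io x t sd q
  W := wn σ K NW w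
  J := J
  AR c m q := AccR (shD T Y c (co σ q)) (a 0 + m)
  AL c m q := AccL (shD T Y c (co σ q)) (a 0 + m + 1)
  B := B
  cell := fun {k x j} hk _ _ => by
    obtain ⟨i, hi⟩ := CK.cell A h (Y x) k j (by omega)
    obtain ⟨q, hq, rfl⟩ := co_surj σ i
    exact ⟨q, hq, hi⟩
  vt := fun _ _ _ _ hc => mem_of_cl h hc
  tv := fun _ _ hq => by
    obtain ⟨k, hk, j, hj, hc⟩ := CK.tv A h hq
    exact ⟨k, by omega, j, hj, hc⟩
  xx2 := fun {x q} _ _ hx _ => by
    obtain ⟨j, hj, hne⟩ := h.two hx (co σ q)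
    obtain ⟨r, hr, rfl⟩ := co_surj σ j
    exact ⟨r, hr, fun e => hne (by rw [e]), hj⟩
  vh := fun _ _ hj hs _ hc h1 => hi_of_cell A hj hs hc h1
  tp := fun _ _ hq => h.sub _ hq
  vpv := fun _ _ _ _ hc => v_pv h hc
  pvp := fun _ _ _ _ hc => pal_of_cl hc
  ppv := fun _ _ hq => by
    obtain ⟨k, hk, j, hj, hc⟩ := CK.ppv A h hq
    exact ⟨k, by omega, j, hj, hc⟩
  pvh := fun _ _ hj hs _ hc h1 => hi_of_cell A hj hs hc h1
  hph := fun _ _ _ hc => in_mono (sq_sub h _) hc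
  xxp := fun hx ht _ hn hq hq' => xxp' h hY hx ht hn hq hq'
  w1 := fun hx hs _ hn hT => w1 h hY hx hs hn hT
  w2 := fun _ hx hs hn hS hT => w2s h hY hx hs hn hS hT
  lx := fun _ hx hs hr _ hn hn' h1 h2 hS hT hsub => lx h hY A hx hs hr hn hn' h1 h2 hS hT hsub
  lb := fun hx hs hr _ _ hn hn' h1 h2 hT hp => lb h hY A hx hs hr hn hn' h1 h2 hT hp
  si := fun hk hx hj hs _ hn hc hso => si h A hY hx hs hj hk hn hc hso
  so := fun hk hx hj hs _ hn hc hso => so h A hY hx hs hj hk hn hc hso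
  th1 := fun hx hs _ hn hq => thin1 h hY hx hs hn hq
  th2 := fun hx hs _ hn hq => thin2 h A hY hx hs hn hq
  lne := fun hx _ _ hio => lne h (fun r => (D r).wp) hx hio
  l2 := fun hx _ _ _ hq => single h (fun r => (D r).wp) hx hq
  l60 := fun hx _ _ hio hio' _ hq hq' =>
    sixty h (fun r => (D r).wp) A hx (lw_of hio hq) (lw_of hio' hq')
  lpair := fun hx hs _ _ hio hio' _ hn hq hq' =>
    pair h (fun r => (D r).wp) hY hx (lt_of_lt_of_le hx hNW) hs (lt_of_lt_of_le hn hNW) hn (lw_of hio hq)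
      (lw_of hio' hq')
  lfo := fun _ hx _ _ hS hT => foreign h (fun r => (D r).wp) hx ((card_le_of hT).trans hS)
  lxx := fun hx _ _ hio _ hq hq' => xx h (fun r => (D r).wp) hx (lw_of hio hq) hq'
  lgap := fun hx _ _ hX => lgap h (fun r => (D r).wp) hx hX
  lglue := fun hx ht hsd hio _ hn hq =>
    glueK (fun r => (D r).wp) hY A hx (lt_of_lt_of_le hx hNW) ht hsd hio hn hq
  lsol := fun hx ht hsd hio hk hj _ hc hso => lsol h (fun r => (D r).wp) A hx ht hsd hio hk hj hc hso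
  lhalf := fun hx ht hsd hio _ hj _ hc hW => lhalf h (fun r => (D r).wp) A hx ht hsd hio hj hc hW
  lmix := fun hx _ _ hio _ _ hp hpx hq => mixed h (fun r => (D r).wp) hx (lw_of hio hp) hpx hq
  ltwo := fun hx ht _ hio hio' _ _ hn hn' hp hpx hq hqx =>
    farm h (fun r => (D r).wp) hY hx (lt_of_lt_of_le hx hNW) ht hn hn' (lw_of hio hp) hpx (lw_of hio' hq) hqx
  wlt := fun _ _ _ _ => wn_lt
  wm := fun {x t sd io} hx _ _ hio => by
    refine (lw_iff hx).2 ?_
    rw [co_wn hx]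
    interval_cases io
    · exact (D _).mem0
    · exact (D _).mem1
  wa := fun {x t sd} hx _ _ e hp => by
    have hp : co σ (wn σ K NW w x t sd 0) ∈ Pal U (Y x) := hp
    rw [co_wn hx] at hp
    rw [wn_eq hx, wn_eq hx] at e
    exact (D _).wa (j := ⟨x, hx⟩) hp (no_inj σ e)
  wc := fun {x t sd} hx _ _ hp => by
    have hp : co σ (wn σ K NW w x t sd 0) ∈ Pal U (Y x) := hp
    show co σ (wn σ K NW w x t sd 1) ∈ Pal U (Y x)
    rw [co_wn hx] at hp ⊢
    exact (D _).wc (j := ⟨x, hx⟩) hp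
  wc2 := fun {x t sd} hx ht _ hn hn' hq hp => by
    have e := hY x (lt_of_lt_of_le hx hNW) t ht hn
    have e' := hY (nb x t) hn t ht hn'
    have hq : co σ (wn σ K NW w x t sd 1) ∈ Pal U (Y x) := hq
    have hp : co σ (wn σ K NW w x t sd 0) ∉ Pal U (Y x) := hp
    show co σ (wn σ K NW w x t sd 0) ∈ Pal U (Y (nb (nb x t) t))
    rw [co_wn hx] at hp hq ⊢
    have h1 := (D (t % K)).wc2 h (j := ⟨x, hx⟩) hq hp
    have e2 : Y (nb (nb x t) t) = Y x + 2 * dir (a t) := by rw [e', e]; ring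
    rw [e2]; exact h1
  wf := fun {x t sd io q} hx _ _ hio _ hq hqT => by
    show co σ (wn σ K NW w x t sd 0) ∉ T (Y x) ∨ co σ (wn σ K NW w x t sd 1) ∉ T (Y x)
    rw [co_wn hx, co_wn hx]
    by_contra hcon
    push Not at hcon
    have h1 := (D (t % K)).exact (j := ⟨x, hx⟩) hcon.1 hcon.2
    exact hqT (h1 ((ll_iff hx).1 (lw_of hio hq)))
  jlt := fun _ _ _ => hJ.lt _ _ _
  jv := fun _ hx _ => hJ.v _ _ _ hx
  jne := fun _ hx _ hs hn => hJ.ne hx hs hn
  ars := fun {c m q} hK2 _ _ _ hacc => by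
    subst hK2
    exact ar_sector h A hacc
  arz := fun {c m q} hK2 _ _ _ hacc => by
    subst hK2
    exact ar_three h A hacc
  als := fun {c m q} hK2 _ _ _ hacc => by
    subst hK2
    exact al_sector h A hacc
  alz := fun {c m q} hK2 _ _ _ hacc => by
    subst hK2
    exact al_one h A hacc

/-- existence, one family of letters, any bits -/
theorem exists_mdW {U : Fin 6 → Set ℂ} {T : ℂ → Set (Fin 6)} (h : Irr U T) {K : ℕ} {a : ℕ → ℝ} (A : Tick K a)
    (σ : Equiv.Perm (Fin 6)) {NP NW : ℕ} {nb : ℕ → ℕ → ℕ} (hK : 6 * K ≤ 256) (hNP : NP ≤ 4096) (hNW : NW ≤ NP)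
    (Y : ℕ → ℂ) (hY : Tab K a NP nb Y) : Nonempty (MdW K NP NW nb) := by
  obtain ⟨W, w, D⟩ := exists_sw h A (fun j : Fin NW => Y j.val)
  obtain ⟨J, hJ⟩ := exists_J h A σ hY
  exact ⟨mkMdW h A σ hK hNP hNW Y hY (W := fun _ => W) (w := fun _ => w) (fun _ => D) hJ fun _ _ _ _ => False⟩

end Vale.Agent.P032.H993.MkW
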