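import Vale.Agent.P032.H993.MdE
import Vale.Agent.P032.H993.MkM
import Vale.Agent.P032.H849.Soft
import Vale.Agent.P032.H22.End
import Vale.Agent.P032.H670.NoSep
import Vale.Agent.P032.H374.Germ

/-!
# P032: the wild instance of `MdE`

Frame `Irr U T`, `Mn U T`, `Ln U T` (soft walls on the dyadic lines: free by `Irr.exists_soft6`).

* `IP.card_three` : a letter has at most three colours (frame `Irr U T`),
* `IP.arcX`, `IP.noov` : a letter with at least two colours is hard, its outer colours are in `Pal x` (`Ln U T`),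
* `FamP.lim`, `FamP.w2l` : no palette of the circle about the point of the letter is inside the letter,
* `mkMdE` : the instance for `mkMdW` with bits `B` (`B x i 4 j` the pairs, `B x i 5 j` the walls).
-/

open Set Filter Topology Metric

noncomputable section

namespace Vale.Agent.P032.H556

open Vale.Agent.P032.Six Vale.Agent.P032.Words Vale.Agent.P032.S5.H767 Vale.Agent.P032.H892
  Vale.Agent.P032.H913 Vale.Agent.P032.H357 Vale.Agent.P032.H61

variable {U : Fin 6 → Set ℂ} {T : ℂ → Set (Fin 6)} {x : ℂ} {s : ℝ} {P Q : Set (Fin 6)} {p q : Fin 6}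

namespace IP

variable (I : IP U T x s P Q)
include I

/-- at most three colours on an arc -/
theorem card_three (h : Irr U T) : (P ∪ Q).ncard ≤ 3 := by
  by_contra hcon
  obtain ⟨ε, hε, hb⟩ := Metric.eventually_nhds_iff_ball.1 I.loc
  have hsub : pt x '' ball s ε ⊆ XX U ∩ {w | 4 ≤ (Pal U w).ncard} := by
    rintro _ ⟨v, hv, rfl⟩
    by_contra hn
    have h1 := H670.three_of_notMem h hn
    rw [hb v hv, I.union h] at h1
    exact hcon h1
  have hpre : IsPreconnected (pt x '' ball s ε) :=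
    (convex_ball s ε).isPreconnected.image _ (continuous_pt x).continuousOn
  have h1 := (S5.H410.td_XX h.mx).2 _ hsub hpre
  have hm : min (ε / 2) (1 / 2) ≤ ε / 2 := min_le_left _ _
  have hm2 : min (ε / 2) (1 / 2) ≤ 1 / 2 := min_le_right _ _
  have hm0 : 0 < min (ε / 2) (1 / 2) := lt_min (by linarith) (by norm_num)
  have h2 : s + min (ε / 2) (1 / 2) ∈ ball s ε := by
    rw [mem_ball, Real.dist_eq, add_sub_cancel_left, abs_of_pos hm0]; linarith
  have h3 : pt x s = pt x (s + min (ε / 2) (1 / 2)) :=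
    h1 ⟨s, mem_ball_self hε, rfl⟩ ⟨_, h2, rfl⟩
  obtain ⟨n, hn⟩ := pt_inj h3
  have h4 : (n : ℝ) < 0 := by linarith
  have h5 : (-1 : ℝ) < n := by linarith
  have h6 : n < 0 := by exact_mod_cast h4
  have h7 : -1 < n := by exact_mod_cast h5
  omega

/-- a letter with at least two colours is hard -/
theorem arcX (h : Irr U T) (hl : Ln U T) (h2 : 2 ≤ (P ∪ Q).ncard) : ∀ᶠ v in 𝓝 s, pt x v ∈ XX U := by
  have hc : Tendsto (fun θ : ℝ => θ / (Real.pi / 3)) (𝓝 (s * (Real.pi / 3))) (𝓝 s) := by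
    have h1 : Continuous fun θ : ℝ => θ / (Real.pi / 3) := by fun_prop
    have h2 := h1.tendsto (s * (Real.pi / 3))
    rwa [mul_div_cancel_right₀ _ (by positivity)] at h2
  have hpi : Real.pi / 3 ≠ 0 := by positivity
  have h1 : ∀ᶠ θ in 𝓝 (s * (Real.pi / 3)), T (x + cis θ) = T (x + cis (s * (Real.pi / 3))) := by
    filter_upwards [hc.eventually I.loc] with θ hθ
    unfold pt at hθ
    rwa [div_mul_cancel₀ _ hpi] at hθ
  have h3 : 2 ≤ (T (x + cis (s * (Real.pi / 3)))).ncard := by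
    have : T (x + cis (s * (Real.pi / 3))) = P ∪ Q := I.union h
    rwa [this]
  have h4 := hl.arc_XX h h1 h3
  have hc2 : Tendsto (fun v : ℝ => v * (Real.pi / 3)) (𝓝 s) (𝓝 (s * (Real.pi / 3))) := by
    have h1 : Continuous fun v : ℝ => v * (Real.pi / 3) := by fun_prop
    exact h1.tendsto s
  exact hc2.eventually h4

omit I in
theorem two_le (hp : p ∈ P ∪ Q) (hq : q ∈ P ∪ Q) (hpq : p ≠ q) : 2 ≤ (P ∪ Q).ncard := by
  have h1 : ({p, q} : Set (Fin 6)) ⊆ P ∪ Q := by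
    rintro m (rfl | rfl)
    · exact hp
    · exact hq
  have h2 := Set.ncard_le_ncard h1 (Set.toFinite _)
  rwa [Set.ncard_pair hpq] at h2

/-- **no overlap** -/
theorem noov (h : Irr U T) (hl : Ln U T) (hp : p ∈ P ∪ Q) (hq : q ∈ Q) (hpq : p ≠ q) : q ∈ Pal U x := by
  by_contra hqx
  have hqL : q ∈ P ∪ Q := Or.inr hq
  have hXX := I.arcX h hl (two_le hp hqL hpq)
  refine no_arc2 h (q := q) (s := s) (x := x) ?_
    (((I.out q).1 hq).mono fun y hy => ⟨h.sub y (by rw [hy.1]; rfl), hy.2⟩)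
  filter_upwards [I.loc, I.loc.eventually_nhds, hXX] with v hv hv2 h1
  obtain ⟨V, hzV, hV⟩ : ∃ V, dist (pt x v) V = 1 ∧ q ∈ Pal U V := h.partner_XX h1 q
  have harc : ∀ᶠ y in 𝓝[sphere x 1] (pt x v), q ∈ Pal U y := by
    have h3 : ∀ᶠ v' in 𝓝 v, q ∈ Pal U (pt x v') := by
      filter_upwards [hv2] with v' hv'
      exact h.sub _ (by rw [hv', I.union h]; exact hqL)
    exact ev_circle x h3
  rcases h.mx.partner_line (dist_pt x v) harc hzV hV with h3 | h3
  · rw [h3] at hV; exact absurd hV hqx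
  · have : V = 2 * pt x v - x := by rw [← h3]; ring
    rwa [this] at hV

end IP

namespace FamP

variable {J : Type*} {l : Filter ℝ} {X : J → ℂ} {t : J → ℝ} {P Q : J → Set (Fin 6)}
variable (F : FamP U T l X t P Q)
include F

/-- the point of the letter is a limit of points with the letter as palette -/
theorem lim (h : Irr U T) (hl : Side l) (j : J) : ∃ᶠ v in 𝓝 (pt (X j) (t j)), T v = P j ∪ Q j :=
  (tendsto_pt_shift hl (X j) (t j)).frequently (F.mono fun _ hτ => (hτ j).union h)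

theorem card_three (h : Irr U T) (j : J) : (P j ∪ Q j).ncard ≤ 3 := by
  obtain ⟨τ, h1⟩ := F.some_at
  exact (h1 j).card_three h

/-- **W2L** -/
theorem w2l (h : Irr U T) (hl : Side l) {j : J} {y : ℂ} (hy : dist y (pt (X j) (t j)) = 1) :
    ¬ T y ⊆ P j ∪ Q j := H22.not_sub_lim h (F.card_three h j) (F.lim h hl j) hy

theorem noov (h : Irr U T) (hl : Ln U T) {j : J} (hp : p ∈ P j ∪ Q j) (hq : q ∈ Q j) (hpq : p ≠ q) :
    q ∈ Pal U (X j) := by
  obtain ⟨τ, h1⟩ := F.some_at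
  exact (h1 j).noov h hl hp hq hpq

theorem mem_hard (h : Irr U T) (hL : Ln U T) (hl : Side l) {j : J} (hp : p ∈ P j ∪ Q j) (hq : q ∈ P j ∪ Q j)
    (hpq : p ≠ q) : pt (X j) (t j) ∈ XX U := by
  have h1 : ∃ᶠ τ in l, pt (X j) (t j + τ) ∈ XX U :=
    F.mono fun τ hτ => ((hτ j).arcX h hL (IP.two_le hp hq hpq)).self_of_nhds
  exact h.mx.isClosed_XX.mem_of_frequently_of_tendsto h1 (tendsto_pt_shift hl (X j) (t j))

end FamP

end Vale.Agent.P032.H556

namespace Vale.Agent.P032.H993.MkW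

open Vale.Agent.P032.Six Vale.Agent.P032.H892 Vale.Agent.P032.H913 Vale.Agent.P032.S5.H767 Vale.Agent.P032.H61
  Vale.Agent.P032.H357 Vale.Agent.P032.H357.MK Vale.Agent.P032.H556 Vale.Agent.P032.H515
open Vale.Agent.P032.H820.K (df ad hcell ecell fcell wcell gk gt)
open Vale.Agent.P032.H240.W (scell vcell MdW)

/-- some point of the unit circle about `z` has the palette `{i, j}` -/
def Eg (T : ℂ → Set (Fin 6)) (z : ℂ) (i j : Fin 6) : Prop := i ≠ j ∧ ∃ y, dist y z = 1 ∧ T y = {i, j}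

/-- no point of the unit circle about `z` has its palette inside `{i, j}` -/
def Wl (T : ℂ → Set (Fin 6)) (z : ℂ) (i j : Fin 6) : Prop := ∀ y, dist y z = 1 → ¬ T y ⊆ {i, j}

/-- the two graphs as bits -/
structure BitE (T : ℂ → Set (Fin 6)) (σ : Equiv.Perm (Fin 6)) (Y : ℕ → ℂ) (B : ℕ → ℕ → ℕ → ℕ → Prop) : Prop where
  e : ∀ x i j, B x i 4 j ↔ Eg T (Y x) (co σ i) (co σ j)
  w : ∀ x i j, B x i 5 j ↔ Wl T (Y x) (co σ i) (co σ j)

theorem sub_of_num {σ : Equiv.Perm (Fin 6)} {S : Set (Fin 6)} {i j : ℕ}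
    (hS : ∀ r < 6, r ≠ i → r ≠ j → co σ r ∉ S) : S ⊆ {co σ i, co σ j} := by
  intro m hm
  obtain ⟨r, hr, rfl⟩ := co_surj σ m
  by_contra hne
  exact hS r hr (fun e => hne (by rw [e]; exact Or.inl rfl)) (fun e => hne (by rw [e]; exact Or.inr rfl)) hm

theorem num_of_nsub {σ : Equiv.Perm (Fin 6)} {S : Set (Fin 6)} {i j : ℕ} (hS : ¬ S ⊆ {co σ i, co σ j}) :
    ∃ r < 6, r ≠ i ∧ r ≠ j ∧ co σ r ∈ S := by
  obtain ⟨m, hm, hne⟩ := not_subset.1 hS
  obtain ⟨r, hr, rfl⟩ := co_surj σ m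
  exact ⟨r, hr, fun e => hne (by rw [e]; exact Or.inl rfl), fun e => hne (by rw [e]; exact Or.inr rfl), hm⟩

theorem card_of_num {σ : Equiv.Perm (Fin 6)} {S : Set (Fin 6)} (F : Finset ℕ) (hF : ∀ q ∈ F, q < 6 ∧ co σ q ∈ S) :
    F.card ≤ S.ncard := by
  rw [← ncard_nums (σ := σ), ← Set.ncard_coe_finset]
  exact Set.ncard_le_ncard (fun q hq => hF q hq) (nums_finite S)

/-- **the instance** -/
theorem mkMdE {U : Fin 6 → Set ℂ} {T : ℂ → Set (Fin 6)} (h : Irr U T) (hm : Mn U T) (hl : Ln U T) {K : ℕ} {a : ℕ → ℝ}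
    (A : Tick K a) (σ : Equiv.Perm (Fin 6)) {NP NW : ℕ} {nb : ℕ → ℕ → ℕ} (hK : 6 * K ≤ 256) (hNP : NP ≤ 4096)
    (hNW : NW ≤ NP) (Y : ℕ → ℂ) (hY : Tab K a NP nb Y) {W : ℕ → Fin NW → ℕ → ℕ → ℕ → Set (Fin 6)}
    {w : ℕ → Fin NW → ℕ → ℕ → ℕ → Fin 6} (D : ∀ r, Sw U T K a (fun j : Fin NW => Y j.val) (W r) (w r))
    {J : ℕ → ℕ → ℕ → ℕ} (hJ : JC U T K a σ NP nb Y J) {B : ℕ → ℕ → ℕ → ℕ → Prop} (hB : BitE T σ Y B) :
    MdE (mkMdW h A σ hK hNP hNW Y hY D hJ B) where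
  weq := fun {x t sd q} hx _ _ hq e hne => by
    have e' : wn σ K NW w x t sd 0 = wn σ K NW w x t sd 1 := e
    have hne' : q ≠ wn σ K NW w x t sd 0 := hne
    rw [wn_eq hx, wn_eq hx] at e'
    have h1 := (D (t % K)).eq (j := ⟨x, hx⟩) (t := t) (sd := sd) (no_inj σ e')
    have key : ∀ io, io < 2 → ¬ LW σ K NW W io x t sd q := fun io hio hq' => by
      have h2 := h1 ((ll_iff hx).1 (lw_of hio hq'))
      rw [mem_singleton_iff] at h2
      refine hne' ?_
      rw [wn_eq hx, ← h2, no_co σ hq]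
    exact ⟨key 0 (by norm_num), key 1 (by norm_num)⟩
  noov := fun {x t sd p q} hx _ _ hp6 hq6 hpq hp hq => by
    refine ((D (t % K)).wp.fam sd).noov h hl (j := (⟨x, hx⟩, t)) ((ll_iff hx).1 hp) ((lw_iff hx).1 hq) ?_
    exact fun e => hpq (co_inj σ hp6 hq6 e)
  lX := fun {x t sd p q} hx ht _ hp6 hq6 hpq hn hp hq => by
    show Y (nb x t) ∈ XX U
    rw [hY x (lt_of_lt_of_le hx hNW) t ht hn]
    exact ((D (t % K)).wp.fam sd).mem_hard h hl (sdf_side sd) (j := (⟨x, hx⟩, t)) ((ll_iff hx).1 hp)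
      ((ll_iff hx).1 hq) fun e => hpq (co_inj σ hp6 hq6 e)
  l3 := fun {x t sd} S hx _ _ hS => by
    refine (card_of_num (σ := σ) S fun q hq => ?_).trans (((D (t % K)).wp.fam sd).card_three h (⟨x, hx⟩, t))
    exact ⟨(hS q hq).1, (ll_iff hx).1 (hS q hq).2⟩
  w2l := fun {x t sd s} hx ht _ hs hn hn' => by
    have e := hY x (lt_of_lt_of_le hx hNW) t ht hn
    have h1 := ((D (t % K)).wp.fam sd).w2l h (sdf_side sd) (j := (⟨x, hx⟩, t)) (y := Y (nb (nb x t) s)) (by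
      rw [dist_comm]
      show dist (Y x + dir (a t)) (Y (nb (nb x t) s)) = 1
      rw [← e]
      exact hY.dist hn hs hn')
    obtain ⟨m, hm1, hm2⟩ := not_subset.1 h1
    obtain ⟨q, hq, rfl⟩ := co_surj σ m
    exact ⟨q, hq, hm1, fun h3 => hm2 ((ll_iff hx).1 h3)⟩
  w2ll := fun {x t sd s sd'} hx ht _ _ _ hn => by
    have e := hY x (lt_of_lt_of_le hx hNW) t ht (lt_of_lt_of_le hn hNW)
    obtain ⟨τ, h1⟩ := ((D (s % K)).wp.fam sd').some_at
    have h2 := (h1 (⟨nb x t, hn⟩, s)).union h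
    have h3 := ((D (t % K)).wp.fam sd).w2l h (sdf_side sd) (j := (⟨x, hx⟩, t)) (y := pt (Y (nb x t)) (a s + τ)) (by
      show dist (pt (Y (nb x t)) (a s + τ)) (Y x + dir (a t)) = 1
      rw [← e]
      exact dist_pt _ _)
    simp only at h2 h3
    rw [h2] at h3
    obtain ⟨m, hm1, hm2⟩ := not_subset.1 h3
    obtain ⟨q, hq, rfl⟩ := co_surj σ m
    exact ⟨q, hq, (ll_iff hn).2 hm1, fun h4 => hm2 ((ll_iff hx).1 h4)⟩
  esym := fun {x i j} _ _ _ hb => by
    have hb := (hB.e x i j).1 hb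
    refine (hB.e x j i).2 ⟨hb.1.symm, ?_⟩
    obtain ⟨y, hy, hT⟩ := hb.2
    exact ⟨y, hy, by rw [hT, Set.pair_comm]⟩
  eL := fun {x t sd i j} hx _ _ hi hj hij hLi hLj hno => by
    refine (hB.e x i j).2 ⟨fun e => hij (co_inj σ hi hj e), ?_⟩
    obtain ⟨τ, h1⟩ := ((D (t % K)).wp.fam sd).some_at
    have h2 := (h1 (⟨x, hx⟩, t)).union h
    refine ⟨pt (Y x) (a t + τ), dist_pt _ _, ?_⟩
    refine (show T (pt (Y x) (a t + τ)) = _ from h2).trans (Subset.antisymm ?_ ?_)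
    · exact sub_of_num fun r hr hri hrj hm => hno r hr hri hrj ((ll_iff hx).2 hm)
    · rintro m (rfl | rfl)
      · exact (ll_iff hx).1 hLi
      · exact (ll_iff hx).1 hLj
  eN := fun {x s i j} hx hs hi hj hij hn hTi hTj hno => by
    refine (hB.e x i j).2 ⟨fun e => hij (co_inj σ hi hj e), Y (nb x s), ?_, ?_⟩
    · rw [dist_comm]; exact hY.dist hx hs hn
    · refine Subset.antisymm (sub_of_num hno) ?_
      rintro m (rfl | rfl)
      · exact hTi
      · exact hTj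
  eP := fun {x s i j} hx hs hi hj hij hn hPi hPj hno => by
    have hd : dist (Y (nb x s)) (Y x) = 1 := by rw [dist_comm]; exact hY.dist hx hs hn
    exact (hB.e x i j).2 ⟨fun e => hij (co_inj σ hi hj e), Y (nb x s), hd,
      h.pair_of_sub hd hPi hPj (sub_of_num hno)⟩
  edeg := fun {x i} S _ hi hS hST hTi => by
    have h4 : 4 ≤ (T (Y x)).ncard := hS.trans (card_of_num S hST)
    obtain ⟨d, e, hd, he, hdi, hei, hde, hwd, hwe⟩ := H374.free_two h hm h4 hTi
    obtain ⟨d, hd6, rfl⟩ := co_surj σ d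
    obtain ⟨e, he6, rfl⟩ := co_surj σ e
    refine ⟨d, hd6, e, he6, fun h1 => hde (by rw [h1]), fun h1 => hdi (by rw [h1]), fun h1 => hei (by rw [h1]), hd, he,
      fun hb => ?_, fun hb => ?_⟩
    · obtain ⟨-, y, hy, hT⟩ := (hB.e x i d).1 hb
      exact hwd y hy hT.subset
    · obtain ⟨-, y, hy, hT⟩ := (hB.e x i e).1 hb
      exact hwe y hy hT.subset
  wsym := fun {x i j} _ _ _ hb => by
    have hb := (hB.w x i j).1 hb
    refine (hB.w x j i).2 fun y hy hs => hb y hy ?_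
    rwa [Set.pair_comm] at hs
  wE := fun {x i j} _ _ _ hw hb => by
    obtain ⟨-, y, hy, hT⟩ := (hB.e x i j).1 hb
    exact (hB.w x i j).1 hw y hy hT.subset
  wL := fun {x t sd i j} hx _ _ _ _ hw => by
    obtain ⟨τ, h1⟩ := ((D (t % K)).wp.fam sd).some_at
    have h2 := (h1 (⟨x, hx⟩, t)).union h
    have h3 := (hB.w x i j).1 hw (pt (Y x) (a t + τ)) (dist_pt _ _)
    simp only at h2 h3
    rw [h2] at h3
    obtain ⟨r, hr, hri, hrj, h4⟩ := num_of_nsub h3
    exact ⟨r, hr, hri, hrj, (ll_iff hx).2 h4⟩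
  wN := fun {x s i j} hx hs _ _ hn hw => by
    have h3 := (hB.w x i j).1 hw (Y (nb x s)) (by rw [dist_comm]; exact hY.dist hx hs hn)
    exact num_of_nsub h3
  wdeg := fun {x i} S _ hi hS hST hTi => by
    have h4 : 4 ≤ (T (Y x)).ncard := hS.trans (card_of_num S hST)
    obtain ⟨d, e, hd, he, hdi, hei, hde, hwd, hwe⟩ := H374.free_two h hm h4 hTi
    obtain ⟨d, hd6, rfl⟩ := co_surj σ d
    obtain ⟨e, he6, rfl⟩ := co_surj σ e
    exact ⟨d, hd6, e, he6, fun h1 => hde (by rw [h1]), fun h1 => hdi (by rw [h1]), fun h1 => hei (by rw [h1]), hd, he,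
      (hB.w x i d).2 hwd, (hB.w x i e).2 hwe⟩

end Vale.Agent.P032.H993.MkW
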