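import Vale.Agent.P032.H299.GamW
import Vale.Agent.P032.H993.W.D

/-!
# P032: a common point with the missing colours of two two-pair centres, wild

Frame `Irr U T`, `Mn U T`, `Ln U T` (the last two are free, `Irr.exists_soft6`).
* `core1` : centres seen at an angle of at most 60 degrees, one common point,
* `core2` : centres seen at an angle of at least 60 degrees, both common points,
* `s1_wild`, `s2_wild` : the statements `S1`, `S2` of `H299/GamW`.
-/

open Set Filter Topology Metric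

noncomputable section

namespace Vale.Agent.P032.H993.BW

open Vale.Agent.P032.Six Vale.Agent.P032.Words Vale.Agent.P032.H892 Vale.Agent.P032.H913 Vale.Agent.P032.S5.H767
  Vale.Agent.P032.H61 Vale.Agent.P032.H357 Vale.Agent.P032.H357.MK Vale.Agent.P032.H556 Vale.Agent.P032.H515
open Vale.Agent.P032.H993.MkW Vale.Agent.P032.H254
open Vale.Agent.P032.H240.W (MdW lv Ho ag_bv bT bPH bPV lv_ps lv_ng)
open Vale.Agent.P032.H820.K (nbf En ps ng ad)
open Vale.Agent.P032.H993.W (LawM)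
open Vale.Agent.P032.H299 (Bad S1 S2)

variable {U : Fin 6 → Set ℂ} {T : ℂ → Set (Fin 6)} {w w' m : ℂ} {a b c d e f : Fin 6}
  {σ : Equiv.Perm (Fin 6)}

/-- the numbers of the colours -/
structure Nm (σ : Equiv.Perm (Fin 6)) (a b c d e f : Fin 6) : Prop where
  c0 : co σ 0 = b
  c1 : co σ 1 = a
  c2 : co σ 2 = d
  c3 : co σ 3 = c
  c4 : co σ 4 = e
  c5 : co σ 5 = f

theorem exists_nm (nd : [a, b, c, d, e, f].Nodup) : ∃ σ : Equiv.Perm (Fin 6), Nm σ a b c d e f := by
  simp only [List.nodup_cons, List.mem_cons, List.not_mem_nil, or_false, not_or, not_false_eq_true,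
    List.nodup_nil, and_true] at nd
  obtain ⟨⟨ab, ac, ad, ae, af⟩, ⟨bc, bd, be, bf⟩, ⟨cd, ce, cf⟩, ⟨de, df⟩, ef⟩ := nd
  have hg : Function.Injective (![b, a, d, c, e, f] : Fin 6 → Fin 6) := by
    intro i j hij
    fin_cases i <;> fin_cases j <;> simp_all
  refine ⟨Equiv.ofBijective _ (Finite.injective_iff_bijective.1 hg), ?_, ?_, ?_, ?_, ?_, ?_⟩ <;>
    rfl

theorem Nm.ty (N : Nm σ a b c d e f) (nd : [a, b, c, d, e, f].Nodup) {y : ℂ} :
    (T y = {a, c, e, f} → ∀ q < 6, (co σ q ∈ T y ↔ Nat.testBit 58 q = true)) ∧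
    (T y = {a, b, c, d} → ∀ q < 6, (co σ q ∈ T y ↔ Nat.testBit 15 q = true)) ∧
    (T y = {e, b, f, d} → ∀ q < 6, (co σ q ∈ T y ↔ Nat.testBit 53 q = true)) := by
  simp only [List.nodup_cons, List.mem_cons, List.not_mem_nil, or_false, not_or, not_false_eq_true,
    List.nodup_nil, and_true] at nd
  obtain ⟨⟨ab, ac, ad, ae, af⟩, ⟨bc, bd, be, bf⟩, ⟨cd, ce, cf⟩, ⟨de, df⟩, ef⟩ := nd
  obtain ⟨c0, c1, c2, c3, c4, c5⟩ := N
  refine ⟨fun hT q hq => ?_, fun hT q hq => ?_, fun hT q hq => ?_⟩ <;> rw [hT] <;> interval_cases q <;>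
    simp only [c0, c1, c2, c3, c4, c5, mem_insert_iff, mem_singleton_iff] <;> constructor <;> intro h1 <;>
    first
    | rfl
    | tauto

theorem y_zero {u1 u : ℝ} : Yt (t2 u1 u) 2 TF.TC m 0 = m := yt_zero (by decide +kernel)

theorem nb0 : ∀ t < 7, nbf 2 TF.TB 0 t = t + 1 := by decide +kernel

theorem nb7 : nbf 2 TF.TB 7 1 = 31 ∧ nbf 2 TF.TB 7 2 = 5 ∧ nbf 2 TF.TB 7 3 = 32 := by decide +kernel

theorem y_first {u1 u : ℝ} (hu : u ∈ Ioo u1 (u1 + 1)) {t : ℕ} (ht : t < 7) :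
    Yt (t2 u1 u) 2 TF.TC m (t + 1) = pt m (t2 u1 u t) := by
  have h1 := hY_of_tchk (tick_t2 hu) m TF.tchk_ok 0 (by norm_num) t (by omega) (by rw [nb0 t ht]; omega)
  rw [nb0 t ht, y_zero] at h1
  rw [h1, pt_eq]

theorem y_seven {u1 u : ℝ} (hu : u ∈ Ioo u1 (u1 + 1)) : Yt (t2 u1 u) 2 TF.TC m 7 = pt m (u1 + 3) := by
  have h1 := y_first (m := m) hu (t := 6) (by norm_num)
  have h2 : t2 u1 u 6 = u1 + 3 := by
    have := t2_even u1 u 3
    norm_num at this
    exact this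
  rw [h2] at h1
  exact h1

theorem y_second {u1 u : ℝ} (hu : u ∈ Ioo u1 (u1 + 1)) {t n : ℕ} (ht : t < 12) (hn : nbf 2 TF.TB 7 t = n)
    (hn' : n < 73) : Yt (t2 u1 u) 2 TF.TC m n = pt m (u1 + 3) + pt m (t2 u1 u t) - m := by
  have h1 := hY_of_tchk (tick_t2 hu) m TF.tchk_ok 7 (by norm_num) t (by omega) (by rw [hn]; exact hn')
  rw [hn, y_seven hu] at h1
  rw [h1, pt_eq m (t2 u1 u t)]
  ring

section
variable (h : Irr U T) (hm : Mn U T) (hl : Ln U T) (B : Bad T w w' m a b c d e f) (N : Nm σ a b c d e f)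
include h hm hl B N

/-- **the model of the two centres** -/
theorem exists_M {u1 u : ℝ} (hu : u ∈ Ioo u1 (u1 + 1)) {t : ℕ} (ht : t < 6) (hw : w = pt m (u1 + 3))
    (hw' : w' = pt m (t2 u1 u t)) :
    ∃ M : MdW 2 73 13 (nbf 2 TF.TB), LawM M ∧ (∀ c ∈ EF t, Ho M.bv c) ∧
      (∀ s < 12, ∀ q, M.bv (En 3 0 s 0 q) ↔ HI (U (co σ q)) m (t2 u1 u) s) ∧
      (∀ n < 73, nbf 2 TF.TB 7 t = n → T (w + w' - m) = {a, c, e, f} → ∀ c ∈ tyL n 58, Ho M.bv c) := by
  obtain ⟨W, M, hL, L, hB⟩ := exists_mw h hm hl m σ hu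
  have A := tick_t2 hu
  have hY := hY_of_tchk (NP := 73) (TB := TF.TB) (TC := TF.TC) A m TF.tchk_ok
  have n1 := (N.ty (T := T) B.nd (y := m)).1
  have n2 := (N.ty (T := T) B.nd (y := w)).2.1
  have n3 := (N.ty (T := T) B.nd (y := w')).2.2
  have n4 := (N.ty (T := T) B.nd (y := w + w' - m)).1
  have y0 : Yt (t2 u1 u) 2 TF.TC m 0 = m := y_zero
  have y7 : Yt (t2 u1 u) 2 TF.TC m 7 = w := by rw [y_seven hu, hw]
  have yt : Yt (t2 u1 u) 2 TF.TC m (t + 1) = w' := by rw [y_first hu (by omega), hw']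
  obtain ⟨c0, c1, c2, c3, c4, c5⟩ := N
  have d7 : DPt T (Yt (t2 u1 u) 2 TF.TC m 7) (co σ 0) (co σ 1) (co σ 2) (co σ 3) := by
    rw [y7, c0, c1, c2, c3]; exact B.hw.swap12.swap34
  have dt : DPt T (Yt (t2 u1 u) 2 TF.TC m (t + 1)) (co σ 4) (co σ 0) (co σ 5) (co σ 2) := by
    rw [yt, c4, c0, c5, c2]; exact B.hw'
  refine ⟨M, hL, fun k hk => ?_, fun s hs q => ?_, fun n hn hn7 hT => ?_⟩
  · unfold EF at hk
    rcases List.mem_append.1 hk with hk | hk
    · exact ho_ty L (by norm_num) (by rw [y0]; exact n1 B.pal) k hk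
    rcases List.mem_append.1 hk with hk | hk
    · exact ho_ty L (by norm_num) (by rw [y7]; exact n2 B.hw.pal) k hk
    rcases List.mem_append.1 hk with hk | hk
    · exact ho_ty L (by omega) (by rw [yt]; exact n3 B.hw'.pal) k hk
    rcases List.mem_append.1 hk with hk | hk
    · exact ho_ex L h hm hB (by norm_num) (by norm_num) (by norm_num) (by norm_num) (by norm_num) d7 k hk
    rcases List.mem_append.1 hk with hk | hk
    · exact ho_ex L h hm hB (by omega) (by norm_num) (by norm_num) (by norm_num) (by norm_num) dt k hk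
    rcases List.mem_append.1 hk with hk | hk
    · exact ho_ns L h A hY (by norm_num) (fun φ => (sd_or h d7 φ).1) k hk
    rcases List.mem_append.1 hk with hk | hk
    · exact ho_ns L h A hY (by norm_num) (fun φ => (sd_or h d7 φ).2) k hk
    rcases List.mem_append.1 hk with hk | hk
    · exact ho_ns L h A hY (by omega) (fun φ => (sd_or h dt φ).1) k hk
    · exact ho_ns L h A hY (by omega) (fun φ => (sd_or h dt φ).2) k hk
  · rw [bPH (ag_bv M) (by norm_num) (by omega), L.ph, y0]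
  · refine ho_ty L hn ?_
    rw [y_second hu (by omega) hn7 hn, ← hw, ← hw']
    exact n4 hT

end

/-- **angle at most 60 degrees** -/
theorem core1 (h : Irr U T) (hm : Mn U T) (hl : Ln U T) (B : Bad T w w' m a b c d e f) {v v' : ℝ} (hw : w = pt m v)
    (hw' : w' = pt m v') (h1 : v - 1 ≤ v') (h2 : v' < v) : False := by
  obtain ⟨σ, N⟩ := exists_nm B.nd
  have hv : w = pt m (v - 3 + 3) := by rw [sub_add_cancel]; exact hw
  rcases h1.eq_or_lt with h3 | h3
  · have e4 : t2 (v - 3) (v - 5 / 2) 4 = v' := by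
      have := t2_even (v - 3) (v - 5 / 2) 2
      norm_num at this
      rw [this]; linarith
    obtain ⟨M, hL, hE, -, -⟩ := exists_M h hm hl B N (u1 := v - 3) (u := v - 5 / 2) ⟨by linarith, by linarith⟩
      (t := 4) (by norm_num) hv (by rw [e4]; exact hw')
    exact d4 hL hE
  · have e5 : t2 (v - 3) (v' - 2) 5 = v' := by
      have := t2_odd (v - 3) (v' - 2) 2
      norm_num at this
      exact this
    obtain ⟨M, hL, hE, -, -⟩ := exists_M h hm hl B N (u1 := v - 3) (u := v' - 2) ⟨by linarith, by linarith⟩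
      (t := 5) (by norm_num) hv (by rw [e5]; exact hw')
    exact d5 hL hE (by simp)

/-- the angle between 60 and 120 degrees, half of the cases -/
theorem core3 (h : Irr U T) (hm : Mn U T) (hl : Ln U T) (B : Bad T w w' m a b c d e f) {u1 u : ℝ}
    (hu : u ∈ Ioo u1 (u1 + 1)) (hw : w = pt m (u1 + 3)) (hw' : w' = pt m (t2 u1 u 3))
    (hT : T (w + w' - m) = {a, c, e, f}) (hc : HI (U a) m (t2 u1 u) 0 → HI (U c) m (t2 u1 u) 0) : False := by
  obtain ⟨σ, N⟩ := exists_nm B.nd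
  obtain ⟨M, hL, hE, hP, hS⟩ := exists_M h hm hl B N hu (t := 3) (by norm_num) hw hw'
  have hS := hS 32 (by norm_num) nb7.2.2 hT
  have hF : ∀ c ∈ EF 3 ++ tyL 32 58, Ho M.bv c := fun c hc => (List.mem_append.1 hc).elim (hE c) (hS c)
  have p1 := hP 0 (by norm_num) 1
  have p3 := hP 0 (by norm_num) 3
  rw [N.c1] at p1
  rw [N.c3] at p3
  have q1 : ∀ {n l}, M.bv n → Ho M.bv (ps n :: l) := fun h1 => ⟨_, List.mem_cons_self, lv_ps.2 h1⟩
  have q2 : ∀ {n l}, ¬ M.bv n → Ho M.bv (ng n :: l) := fun h1 => ⟨_, List.mem_cons_self, lv_ng.2 h1⟩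
  have q3 : ∀ {n l}, Ho M.bv l → Ho M.bv (n :: l) := fun ⟨l', h1, h2⟩ => ⟨l', List.mem_cons_of_mem _ h1, h2⟩
  by_cases ca : ¬ M.bv (En 3 0 0 0 1) ∧ M.bv (En 3 0 0 0 3) ∧ M.bv (En 3 0 9 0 4) ∧ ¬ M.bv (En 3 0 9 0 5)
  · obtain ⟨k1, k3, k4, k5⟩ := ca
    exact d6 hL hF (fm (lv_ng.2 k1) (fm (lv_ps.2 k3) (fm (lv_ps.2 k4) (fm (lv_ng.2 k5) (by simp)))))
  by_cases cb : ¬ M.bv (En 3 0 0 0 1) ∧ M.bv (En 3 0 0 0 3) ∧ ¬ M.bv (En 3 0 9 0 4) ∧ M.bv (En 3 0 9 0 5)
  · obtain ⟨k1, k3, k4, k5⟩ := cb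
    exact d7 hL hF (fm (lv_ng.2 k1) (fm (lv_ps.2 k3) (fm (lv_ng.2 k4) (fm (lv_ps.2 k5) (by simp)))))
  · refine d8 hL fun c hc' => ?_
    rcases List.mem_append.1 hc' with hc' | hc'
    · simp only [blk, List.mem_cons, List.not_mem_nil, or_false] at hc'
      rcases hc' with rfl | rfl | rfl
      · by_cases k1 : M.bv (En 3 0 0 0 1)
        · exact q1 k1
        by_cases k3 : M.bv (En 3 0 0 0 3)
        · by_cases k4 : M.bv (En 3 0 9 0 4)
          · by_cases k5 : M.bv (En 3 0 9 0 5)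
            · exact q3 (q3 (q3 (q1 k5)))
            · exact absurd ⟨k1, k3, k4, k5⟩ ca
          · exact q3 (q3 (q2 k4))
        · exact q3 (q2 k3)
      · by_cases k1 : M.bv (En 3 0 0 0 1)
        · exact q1 k1
        by_cases k3 : M.bv (En 3 0 0 0 3)
        · by_cases k4 : M.bv (En 3 0 9 0 4)
          · exact q3 (q3 (q1 k4))
          · by_cases k5 : M.bv (En 3 0 9 0 5)
            · exact absurd ⟨k1, k3, k4, k5⟩ cb
            · exact q3 (q3 (q3 (q2 k5)))
        · exact q3 (q2 k3)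
      · by_cases k1 : M.bv (En 3 0 0 0 1)
        · exact q3 (q1 (p3.2 (hc (p1.1 k1))))
        · exact q2 k1
    · exact hF c hc'

/-- both pairs exchanged -/
theorem bad_sym (B : Bad T w w' m a b c d e f) : Bad T w w' m c d a b f e where
  nd := by
    have nd := B.nd
    simp only [List.nodup_cons, List.mem_cons, List.not_mem_nil, or_false, not_or, not_false_eq_true,
      List.nodup_nil, and_true] at nd ⊢
    obtain ⟨⟨ab, ac, ad, ae, af⟩, ⟨bc, bd, be, bf⟩, ⟨cd, ce, cf⟩, ⟨de, df⟩, ef⟩ := nd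
    exact ⟨⟨cd, Ne.symm ac, Ne.symm bc, cf, ce⟩, ⟨Ne.symm ad, Ne.symm bd, df, de⟩, ⟨ab, af, ae⟩, ⟨bf, be⟩, Ne.symm ef⟩
  hw := B.hw.swap
  hw' := B.hw'.swap
  dw := B.dw
  dw' := B.dw'
  pal := by
    rw [B.pal]
    ext i
    simp only [mem_insert_iff, mem_singleton_iff]
    tauto

/-- **angle more than 60 degrees** -/
theorem core2 (h : Irr U T) (hm : Mn U T) (hl : Ln U T) (B : Bad T w w' m a b c d e f) {v v' : ℝ} (hw : w = pt m v)
    (hw' : w' = pt m v') (h1 : v - 3 < v') (h2 : v' < v - 1) (hT : T (w + w' - m) = {a, c, e, f}) : False := by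
  have hv : w = pt m (v - 3 + 3) := by rw [sub_add_cancel]; exact hw
  rcases lt_trichotomy v' (v - 2) with h3 | h3 | h3
  · obtain ⟨σ, N⟩ := exists_nm B.nd
    have e1 : t2 (v - 3) v' 1 = v' := by
      have := t2_odd (v - 3) v' 0
      norm_num at this
      exact this
    obtain ⟨M, hL, hE, -, hS⟩ := exists_M h hm hl B N (u1 := v - 3) (u := v') ⟨h1, by linarith⟩
      (t := 1) (by norm_num) hv (by rw [e1]; exact hw')
    have hS := hS 31 (by norm_num) nb7.1 hT
    exact d1 hL (fun c hc => (List.mem_append.1 hc).elim (hE c) (hS c)) (by simp)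
  · obtain ⟨σ, N⟩ := exists_nm B.nd
    have e2 : t2 (v - 3) (v - 5 / 2) 2 = v' := by
      have := t2_even (v - 3) (v - 5 / 2) 1
      norm_num at this
      rw [this]; linarith
    obtain ⟨M, hL, hE, -, hS⟩ := exists_M h hm hl B N (u1 := v - 3) (u := v - 5 / 2) ⟨by linarith, by linarith⟩
      (t := 2) (by norm_num) hv (by rw [e2]; exact hw')
    have hS := hS 5 (by norm_num) nb7.2.1 hT
    exact d2 hL fun c hc => (List.mem_append.1 hc).elim (hE c) (hS c)
  · have e3 : t2 (v - 3) (v' - 1) 3 = v' := by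
      have := t2_odd (v - 3) (v' - 1) 1
      norm_num at this
      exact this
    have hu : v' - 1 ∈ Ioo (v - 3) (v - 3 + 1) := ⟨by linarith, by linarith⟩
    by_cases hc : HI (U a) m (t2 (v - 3) (v' - 1)) 0 → HI (U c) m (t2 (v - 3) (v' - 1)) 0
    · exact core3 h hm hl B hu hv (by rw [e3]; exact hw') hT hc
    · refine core3 h hm hl (bad_sym B) hu hv (by rw [e3]; exact hw') ?_ fun h4 => ?_
      · rw [hT]
        ext i
        simp only [mem_insert_iff, mem_singleton_iff]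
        tauto
      · by_contra h5
        exact hc fun h6 => absurd h6 h5

theorem bad_swap (B : Bad T w w' m a b c d e f) : Bad T w' w m e b f d a c where
  nd := by
    have nd := B.nd
    simp only [List.nodup_cons, List.mem_cons, List.not_mem_nil, or_false, not_or, not_false_eq_true,
      List.nodup_nil, and_true] at nd ⊢
    obtain ⟨⟨ab, ac, ad, ae, af⟩, ⟨bc, bd, be, bf⟩, ⟨cd, ce, cf⟩, ⟨de, df⟩, ef⟩ := nd
    exact ⟨⟨Ne.symm be, ef, Ne.symm de, Ne.symm ae, Ne.symm ce⟩, ⟨bf, bd, Ne.symm ab, bc⟩,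
      ⟨Ne.symm df, Ne.symm af, Ne.symm cf⟩, ⟨Ne.symm ad, Ne.symm cd⟩, ac⟩
  hw := B.hw'
  hw' := B.hw
  dw := B.dw'
  dw' := B.dw
  pal := by
    rw [B.pal]
    ext i
    simp only [mem_insert_iff, mem_singleton_iff]
    tauto

/-- the two centres in the directions `v`, `v'` -/
theorem angles (B : Bad T w w' m a b c d e f) (hne : w + w' ≠ 2 * m) :
    ∃ v v' : ℝ, w = pt m v ∧ w' = pt m v' ∧ ((v - 3 < v' ∧ v' < v) ∨ (v' - 3 < v ∧ v < v')) := by
  obtain ⟨v, hv⟩ : ∃ v, pt m v = w := by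
    obtain ⟨v, hv⟩ := Vale.Agent.P032.S5.H349.exists_pt (z := m) (v := w) (by rw [dist_comm]; exact B.dw)
    exact ⟨v, hv.symm⟩
  obtain ⟨v0, hv0⟩ : ∃ v, pt m v = w' := by
    obtain ⟨v, hv⟩ := Vale.Agent.P032.S5.H349.exists_pt (z := m) (v := w') (by rw [dist_comm]; exact B.dw')
    exact ⟨v, hv.symm⟩
  set n : ℤ := -⌊(v0 - v + 3) / 6⌋ with hn
  have hv' : pt m (v0 + 6 * n) = w' := by rw [pt_eq, dir_perz, ← pt_eq]; exact hv0
  have f1 := Int.floor_le ((v0 - v + 3) / 6)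
  have f2 := Int.lt_floor_add_one ((v0 - v + 3) / 6)
  have f3 : ((n : ℤ) : ℝ) = -((⌊(v0 - v + 3) / 6⌋ : ℤ) : ℝ) := by rw [hn]; push_cast; ring
  have g1 : v - 3 ≤ v0 + 6 * n := by rw [f3]; linarith
  have g2 : v0 + 6 * n < v + 3 := by rw [f3]; linarith
  refine ⟨v, v0 + 6 * n, hv.symm, hv'.symm, ?_⟩
  have g3 : v0 + 6 * n ≠ v - 3 := by
    intro h1
    apply hne
    rw [← hv, ← hv', h1, pt_eq, pt_eq]
    have h2 := dir_add_three (v - 3)
    rw [sub_add_cancel] at h2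
    rw [h2]; ring
  have g4 : v0 + 6 * n ≠ v := by
    intro h1
    have h2 : w = w' := by rw [← hv, ← hv', h1]
    have h3 : a ∈ T w := by rw [B.hw.pal]; exact Or.inl rfl
    rw [h2, B.hw'.pal] at h3
    have nd := B.nd
    simp only [List.nodup_cons, List.mem_cons, List.not_mem_nil, or_false, not_or, not_false_eq_true,
      List.nodup_nil, and_true] at nd
    rcases h3 with h3 | h3 | h3 | h3
    · exact nd.1.2.2.2.1 h3
    · exact nd.1.1 h3
    · exact nd.1.2.2.2.2 h3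
    · exact nd.1.2.2.1 h3
  rcases lt_or_gt_of_ne g4 with h5 | h5
  · exact Or.inl ⟨lt_of_le_of_ne g1 (Ne.symm g3), h5⟩
  · exact Or.inr ⟨by linarith, h5⟩

/-- an angle of more than 60 degrees: distance more than one -/
theorem far_of {m : ℂ} {v v' : ℝ} (h1 : v - 3 < v') (h2 : v' < v - 1) : 1 < dist (pt m v) (pt m v') := by
  have e0 : dist (pt m v) (pt m v') ^ 2 = 2 - 2 * Real.cos (v * (Real.pi / 3) - v' * (Real.pi / 3)) := by
    rw [sq_dist]
    unfold pt
    simp only [Complex.add_re, Complex.add_im, cis_re, cis_im]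
    rw [Real.cos_sub]
    have k1 := Real.sin_sq_add_cos_sq (v * (Real.pi / 3))
    have k2 := Real.sin_sq_add_cos_sq (v' * (Real.pi / 3))
    linear_combination k1 + k2
  have hpi := Real.pi_pos
  have h3 : Real.cos (v * (Real.pi / 3) - v' * (Real.pi / 3)) < 1 / 2 := by
    rw [← Real.cos_pi_div_three]
    exact Real.cos_lt_cos_of_nonneg_of_le_pi (by positivity) (by nlinarith) (by nlinarith)
  have h4 : 1 < dist (pt m v) (pt m v') ^ 2 := by rw [e0]; linarith
  by_contra hcon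
  push Not at hcon
  have := dist_nonneg (x := pt m v) (y := pt m v')
  nlinarith

/-- **`S1`, wild** -/
theorem s1_wild (h : Irr U T) (hm : Mn U T) (hl : Ln U T) : S1 T := by
  intro w w' m a b c d e f B hne hd
  have key : ∀ {w w' a b c d e f}, Bad T w w' m a b c d e f → dist w w' ≤ 1 → ∀ v v' : ℝ, w = pt m v → w' = pt m v' →
      v - 3 < v' → v' < v → False := by
    intro w w' a b c d e f B hd v v' hw hw' h1 h2
    rcases lt_or_ge v' (v - 1) with h3 | h3
    · have := far_of (m := m) h1 h3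
      rw [← hw, ← hw'] at this
      linarith
    · exact core1 h hm hl B hw hw' h3 h2
  obtain ⟨v, v', hw, hw', h1 | h1⟩ := angles B hne
  · exact key B hd v v' hw hw' h1.1 h1.2
  · exact key (bad_swap B) (by rw [dist_comm]; exact hd) v' v hw' hw h1.1 h1.2

/-- **`S2`, wild** -/
theorem s2_wild (h : Irr U T) (hm : Mn U T) (hl : Ln U T) : S2 T := by
  intro w w' m m' a b c d e f B B' hs hne
  have hm' : m' = w + w' - m := by rw [← hs]; ring
  have hne2 : w + w' ≠ 2 * m := by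
    intro h5
    apply hne
    rw [hm', h5]; ring
  have hp := B'.pal
  rw [hm'] at hp
  have key : ∀ {w w' a b c d e f}, Bad T w w' m a b c d e f → T (w + w' - m) = {a, c, e, f} → ∀ v v' : ℝ,
      w = pt m v → w' = pt m v' → v - 3 < v' → v' < v → False := by
    intro w w' a b c d e f B hT v v' hw hw' h1 h2
    rcases lt_or_ge v' (v - 1) with h3 | h3
    · exact core2 h hm hl B hw hw' h1 h3 hT
    · exact core1 h hm hl B hw hw' h3 h2
  obtain ⟨v, v', hw, hw', h1 | h1⟩ := angles B hne2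
  · exact key B hp v v' hw hw' h1.1 h1.2
  · refine key (bad_swap B) ?_ v' v hw' hw h1.1 h1.2
    rw [add_comm w' w, hp]
    ext i
    simp only [mem_insert_iff, mem_singleton_iff]
    tauto

end Vale.Agent.P032.H993.BW
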