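import Vale.Agent.P032.Six.Geo

/-!
# P032: alternating sums of points of the unit circle

`p_0, ..., p_5` on the unit circle in this order, consecutive arcs at most 60 degrees, whole arc at least 180 degrees.
If `|p_0 - p_1 + p_2 - p_3| ≤ 1` and `|p_2 - p_3 + p_4 - p_5| ≤ 1`, then `|p_1 - p_2 + p_3 - p_4| ≥ 1`, and equality
needs equality in both hypotheses (`alt_ge`, `alt_gt`).
-/

noncomputable section

namespace Vale.Agent.P032.H993

open Real Vale.Agent.P032.Six

/-- squared length of `p_0 - p_1 + p_2 - p_3` for consecutive arcs `x, y, z` -/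
def N (x y z : ℝ) : ℝ :=
  4 + 2 * (cos (x + y) + cos (y + z) - cos x - cos y - cos z - cos (x + y + z))

/-- squared length of `p_0 - p_1 + p_2 - p_3`, by positions -/
def Q (a b c d : ℝ) : ℝ :=
  (cos a - cos b + cos c - cos d) ^ 2 + (sin a - sin b + sin c - sin d) ^ 2

theorem Q_eq_N (a b c d : ℝ) : Q a b c d = N (b - a) (c - b) (d - c) := by
  unfold Q N
  rw [show b - a + (c - b) = c - a by ring, show c - b + (d - c) = d - b by ring,
    show c - a + (d - c) = d - a by ring]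
  simp only [cos_sub]
  linear_combination sin_sq_add_cos_sq a + sin_sq_add_cos_sq b + sin_sq_add_cos_sq c + sin_sq_add_cos_sq d

theorem N_symm (x y z : ℝ) : N x y z = N z y x := by
  unfold N
  rw [show z + y + x = x + y + z by ring, add_comm z y, add_comm y x]
  ring

theorem norm_alt_sq (a b c d : ℝ) : ‖cis a - cis b + cis c - cis d‖ ^ 2 = Q a b c d := by
  rw [Complex.sq_norm, Complex.normSq_apply]
  have hr : ∀ t, (cis t).re = cos t := fun t => by
    rw [cis, Complex.exp_ofReal_mul_I_re]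
  have hi : ∀ t, (cis t).im = sin t := fun t => by
    rw [cis, Complex.exp_ofReal_mul_I_im]
  simp only [Complex.sub_re, Complex.add_re, Complex.sub_im, Complex.add_im, hr, hi, Q]
  ring

theorem g_nonneg {m y z : ℝ} (hm : 0 ≤ m) (hm' : m ≤ π / 3) (hy : 0 ≤ y) (hy' : y ≤ π / 3) (hz : 0 ≤ z)
    (hz' : z ≤ π / 3) : 0 ≤ sin m - sin (m + y) + sin (m + y + z) := by
  have hpi := pi_pos
  have h1 : sin (m + y + z) - sin (m + y) = 2 * sin (z / 2) * cos (m + y + z / 2) := by
    rw [sin_sub_sin, show (m + y + z - (m + y)) / 2 = z / 2 by ring,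
      show (m + y + z + (m + y)) / 2 = m + y + z / 2 by ring]
  have h2 : sin (m + π / 3 + z) - sin (m + π / 3) = 2 * sin (z / 2) * cos (m + π / 3 + z / 2) := by
    rw [sin_sub_sin, show (m + π / 3 + z - (m + π / 3)) / 2 = z / 2 by ring,
      show (m + π / 3 + z + (m + π / 3)) / 2 = m + π / 3 + z / 2 by ring]
  have h3 : cos (m + π / 3 + z / 2) ≤ cos (m + y + z / 2) :=
    cos_le_cos_of_nonneg_of_le_pi (by linarith) (by linarith) (by linarith)
  have h4 : 0 ≤ sin (z / 2) := sin_nonneg_of_nonneg_of_le_pi (by linarith) (by linarith)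
  have h5 : sin m - sin (m + π / 3) + sin (m + 2 * π / 3) = 0 := by
    rw [show 2 * π / 3 = π - π / 3 by ring, sin_add, sin_add, cos_pi_sub, sin_pi_sub, cos_pi_div_three]
    ring
  have h6 : sin (m + 2 * π / 3) - sin (m + π / 3 + z) = 2 * sin ((π / 3 - z) / 2) * cos (m + π / 2 + z / 2) := by
    rw [sin_sub_sin, show (m + 2 * π / 3 - (m + π / 3 + z)) / 2 = (π / 3 - z) / 2 by ring,
      show (m + 2 * π / 3 + (m + π / 3 + z)) / 2 = m + π / 2 + z / 2 by ring]
  have h7 : 0 ≤ sin ((π / 3 - z) / 2) := sin_nonneg_of_nonneg_of_le_pi (by linarith) (by linarith)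
  have h8 : cos (m + π / 2 + z / 2) ≤ 0 := cos_nonpos_of_pi_div_two_le_of_le (by linarith) (by linarith)
  have h9 := mul_le_mul_of_nonneg_left h3 h4
  have h10 := mul_nonpos_of_nonneg_of_nonpos h7 h8
  nlinarith

theorem N_mono {x x' y z : ℝ} (h0 : 0 ≤ x') (h1 : x' ≤ x) (h2 : x ≤ π / 3) (hy : 0 ≤ y) (hy' : y ≤ π / 3)
    (hz : 0 ≤ z) (hz' : z ≤ π / 3) : N x' y z ≤ N x y z := by
  have hpi := pi_pos
  have e1 : cos (x + y) - cos (x' + y) = -2 * sin ((x + x') / 2 + y) * sin ((x - x') / 2) := by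
    rw [cos_sub_cos, show (x + y + (x' + y)) / 2 = (x + x') / 2 + y by ring,
      show (x + y - (x' + y)) / 2 = (x - x') / 2 by ring]
  have e2 : cos x - cos x' = -2 * sin ((x + x') / 2) * sin ((x - x') / 2) := cos_sub_cos _ _
  have e3 : cos (x + y + z) - cos (x' + y + z) = -2 * sin ((x + x') / 2 + y + z) * sin ((x - x') / 2) := by
    rw [cos_sub_cos, show (x + y + z + (x' + y + z)) / 2 = (x + x') / 2 + y + z by ring,
      show (x + y + z - (x' + y + z)) / 2 = (x - x') / 2 by ring]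
  have e4 := g_nonneg (m := (x + x') / 2) (by linarith) (by linarith) hy hy' hz hz'
  have e5 : 0 ≤ sin ((x - x') / 2) := sin_nonneg_of_nonneg_of_le_pi (by linarith) (by linarith)
  have e6 := mul_nonneg e5 e4
  unfold N
  nlinarith

/-- the case of a whole arc of exactly 180 degrees -/
theorem core {a b c d e : ℝ} (hab : a ≤ b) (hab' : b ≤ a + π / 3) (hae : a + 2 * π / 3 ≤ e) (hae' : e ≤ a + π)
    (h0 : Q a b c d ≤ 1) (h1 : Q b c d e ≤ 1) (h2 : Q c d e (a + π) ≤ 1) :
    Q a b c d = 1 ∧ Q b c d e = 1 ∧ Q c d e (a + π) = 1 := by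
  have hpi := pi_pos
  set vx := cos c - cos d - cos b + cos a + cos e with hvx
  set vy := sin c - sin d - sin b + sin a + sin e with hvy
  have sa := sin_sq_add_cos_sq a
  have sb := sin_sq_add_cos_sq b
  have se := sin_sq_add_cos_sq e
  have k0 : Q a b c d = vx ^ 2 + vy ^ 2 - 2 * (vx * cos e + vy * sin e) + 1 := by
    unfold Q; rw [hvx, hvy]; linear_combination se
  have k1 : Q b c d e = vx ^ 2 + vy ^ 2 - 2 * (vx * cos a + vy * sin a) + 1 := by
    unfold Q; rw [hvx, hvy]; linear_combination sa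
  have k2 : Q c d e (a + π) = vx ^ 2 + vy ^ 2 + 2 * (vx * cos b + vy * sin b) + 1 := by
    unfold Q; rw [hvx, hvy, cos_add_pi, sin_add_pi]; linear_combination sb
  have hv : vx ^ 2 + vy ^ 2 ≤ 0 := by
    have hα : 0 ≤ sin (b - a) := sin_nonneg_of_nonneg_of_le_pi (by linarith) (by linarith)
    have hβ : 0 ≤ sin (e - a) := sin_nonneg_of_nonneg_of_le_pi (by linarith) (by linarith)
    have hγ : 0 ≤ sin (e - b) := sin_nonneg_of_nonneg_of_le_pi (by linarith) (by linarith)
    have j0 : vx ^ 2 + vy ^ 2 ≤ 2 * (vx * cos e + vy * sin e) := by linarith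
    have j1 : vx ^ 2 + vy ^ 2 ≤ 2 * (vx * cos a + vy * sin a) := by linarith
    have j2 : vx ^ 2 + vy ^ 2 ≤ -2 * (vx * cos b + vy * sin b) := by linarith
    have m0 := mul_le_mul_of_nonneg_left j0 hα
    have m1 := mul_le_mul_of_nonneg_left j1 hγ
    have m2 := mul_le_mul_of_nonneg_left j2 hβ
    have i1 : sin (b - a) * cos e + sin (e - b) * cos a - sin (e - a) * cos b = 0 := by
      simp only [sin_sub]; ring
    have i2 : sin (b - a) * sin e + sin (e - b) * sin a - sin (e - a) * sin b = 0 := by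
      simp only [sin_sub]; ring
    have m3 : (sin (b - a) + sin (e - b) + sin (e - a)) * (vx ^ 2 + vy ^ 2) ≤ 0 := by
      have h3 : sin (b - a) * (2 * (vx * cos e + vy * sin e)) + sin (e - b) * (2 * (vx * cos a + vy * sin a))
          + sin (e - a) * (-2 * (vx * cos b + vy * sin b)) = 0 := by
        linear_combination 2 * vx * i1 + 2 * vy * i2
      have h4 : (sin (b - a) + sin (e - b) + sin (e - a)) * (vx ^ 2 + vy ^ 2) = sin (b - a) * (vx ^ 2 + vy ^ 2)
          + sin (e - b) * (vx ^ 2 + vy ^ 2) + sin (e - a) * (vx ^ 2 + vy ^ 2) := by ring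
      rw [h4]
      linarith
    by_cases hs : 0 < sin (b - a) + sin (e - b) + sin (e - a)
    · by_contra hcon
      push Not at hcon
      exact absurd m3 (not_le.2 (mul_pos hs hcon))
    · have z1 : sin (e - a) = 0 := by linarith
      have z2 : e - a = π := by
        by_contra hne
        have h3 : e - a < π := lt_of_le_of_ne (by linarith) hne
        have := sin_pos_of_pos_of_lt_pi (x := e - a) (by linarith) h3
        linarith
      have z3 : e = a + π := by linarith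
      rw [z3, cos_add_pi, sin_add_pi] at j0
      linarith
  have hx : vx = 0 := by
    have h3 : vx ^ 2 = 0 := le_antisymm (by linarith [sq_nonneg vy]) (sq_nonneg vx)
    exact pow_eq_zero_iff two_ne_zero |>.1 h3
  have hy : vy = 0 := by
    have h3 : vy ^ 2 = 0 := le_antisymm (by linarith [sq_nonneg vx]) (sq_nonneg vy)
    exact pow_eq_zero_iff two_ne_zero |>.1 h3
  rw [k0, k1, k2, hx, hy]
  norm_num

/-- **alternating sums** -/
theorem alt_all {a b c d e f : ℝ} (hab : a ≤ b) (hab' : b - a ≤ π / 3) (hbc : b ≤ c) (hbc' : c - b ≤ π / 3)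
    (hcd : c ≤ d) (hcd' : d - c ≤ π / 3) (hde : d ≤ e) (hde' : e - d ≤ π / 3) (hef : e ≤ f) (hef' : f - e ≤ π / 3)
    (haf : π ≤ f - a) (h0 : Q a b c d ≤ 1) (h2 : Q c d e f ≤ 1) (h1 : Q b c d e ≤ 1) :
    Q a b c d = 1 ∧ Q b c d e = 1 ∧ Q c d e f = 1 := by
  have hpi := pi_pos
  obtain ⟨a', ha1, ha2, ha3, ha4⟩ : ∃ a', a ≤ a' ∧ a' ≤ b ∧ e ≤ a' + π ∧ a' + π ≤ f := by
    rcases le_total (f - π) b with h | h
    · exact ⟨f - π, by linarith, h, by linarith, by linarith⟩
    · exact ⟨b, hab, le_rfl, by linarith, by linarith⟩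
  have m0 : Q a' b c d ≤ Q a b c d := by
    rw [Q_eq_N, Q_eq_N]
    exact N_mono (by linarith) (by linarith) (by linarith) (by linarith) (by linarith) (by linarith) (by linarith)
  have m2 : Q c d e (a' + π) ≤ Q c d e f := by
    rw [Q_eq_N, Q_eq_N, N_symm, N_symm (d - c)]
    exact N_mono (by linarith) (by linarith) (by linarith) (by linarith) (by linarith) (by linarith) (by linarith)
  obtain ⟨k0, k1, k2⟩ := core (a := a') (b := b) (c := c) (d := d) (e := e) ha2 (by linarith) (by linarith)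
    (by linarith) (m0.trans h0) h1 (m2.trans h2)
  exact ⟨le_antisymm h0 (by linarith), k1, le_antisymm h2 (by linarith)⟩

/-- the third alternating sum has length at least one -/
theorem alt_ge {a b c d e f : ℝ} (hab : a ≤ b) (hab' : b - a ≤ π / 3) (hbc : b ≤ c) (hbc' : c - b ≤ π / 3)
    (hcd : c ≤ d) (hcd' : d - c ≤ π / 3) (hde : d ≤ e) (hde' : e - d ≤ π / 3) (hef : e ≤ f) (hef' : f - e ≤ π / 3)
    (haf : π ≤ f - a) (h0 : ‖cis a - cis b + cis c - cis d‖ ≤ 1) (h2 : ‖cis c - cis d + cis e - cis f‖ ≤ 1) :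
    1 ≤ ‖cis b - cis c + cis d - cis e‖ := by
  by_contra hcon
  push Not at hcon
  have k0 : Q a b c d ≤ 1 := by
    rw [← norm_alt_sq]; exact pow_le_one₀ (norm_nonneg _) h0
  have k2 : Q c d e f ≤ 1 := by
    rw [← norm_alt_sq]; exact pow_le_one₀ (norm_nonneg _) h2
  have k1 : Q b c d e < 1 := by
    rw [← norm_alt_sq]; exact pow_lt_one₀ (norm_nonneg _) hcon two_ne_zero
  have := (alt_all hab hab' hbc hbc' hcd hcd' hde hde' hef hef' haf k0 k2 k1.le).2.1
  linarith

/-- strict form: if one of the two given sums is shorter than one, then the third is longer than one -/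
theorem alt_gt {a b c d e f : ℝ} (hab : a ≤ b) (hab' : b - a ≤ π / 3) (hbc : b ≤ c) (hbc' : c - b ≤ π / 3)
    (hcd : c ≤ d) (hcd' : d - c ≤ π / 3) (hde : d ≤ e) (hde' : e - d ≤ π / 3) (hef : e ≤ f) (hef' : f - e ≤ π / 3)
    (haf : π ≤ f - a) (h0 : ‖cis a - cis b + cis c - cis d‖ ≤ 1) (h2 : ‖cis c - cis d + cis e - cis f‖ ≤ 1)
    (h : ‖cis a - cis b + cis c - cis d‖ < 1 ∨ ‖cis c - cis d + cis e - cis f‖ < 1) :
    1 < ‖cis b - cis c + cis d - cis e‖ := by
  by_contra hcon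
  push Not at hcon
  have k0 : Q a b c d ≤ 1 := by
    rw [← norm_alt_sq]; exact pow_le_one₀ (norm_nonneg _) h0
  have k2 : Q c d e f ≤ 1 := by
    rw [← norm_alt_sq]; exact pow_le_one₀ (norm_nonneg _) h2
  have k1 : Q b c d e ≤ 1 := by
    rw [← norm_alt_sq]; exact pow_le_one₀ (norm_nonneg _) hcon
  obtain ⟨j0, -, j2⟩ := alt_all hab hab' hbc hbc' hcd hcd' hde hde' hef hef' haf k0 k2 k1
  rcases h with h | h
  · have : ‖cis a - cis b + cis c - cis d‖ ^ 2 < 1 := pow_lt_one₀ (norm_nonneg _) h two_ne_zero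
    rw [norm_alt_sq] at this
    linarith
  · have : ‖cis c - cis d + cis e - cis f‖ ^ 2 < 1 := pow_lt_one₀ (norm_nonneg _) h two_ne_zero
    rw [norm_alt_sq] at this
    linarith

/-- `alt_all` with angles in units of 60 degrees (`cis (x * (π / 3))` = `dir x`) -/
theorem alt_dir {a b c d e f : ℝ} (hab : a ≤ b) (hab' : b ≤ a + 1) (hbc : b ≤ c) (hbc' : c ≤ b + 1)
    (hcd : c ≤ d) (hcd' : d ≤ c + 1) (hde : d ≤ e) (hde' : e ≤ d + 1) (hef : e ≤ f) (hef' : f ≤ e + 1)
    (haf : a + 3 ≤ f)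
    (h0 : ‖cis (a * (π / 3)) - cis (b * (π / 3)) + cis (c * (π / 3)) - cis (d * (π / 3))‖ ≤ 1)
    (h2 : ‖cis (c * (π / 3)) - cis (d * (π / 3)) + cis (e * (π / 3)) - cis (f * (π / 3))‖ ≤ 1)
    (h1 : ‖cis (b * (π / 3)) - cis (c * (π / 3)) + cis (d * (π / 3)) - cis (e * (π / 3))‖ ≤ 1) :
    ‖cis (a * (π / 3)) - cis (b * (π / 3)) + cis (c * (π / 3)) - cis (d * (π / 3))‖ = 1 ∧
    ‖cis (b * (π / 3)) - cis (c * (π / 3)) + cis (d * (π / 3)) - cis (e * (π / 3))‖ = 1 ∧
    ‖cis (c * (π / 3)) - cis (d * (π / 3)) + cis (e * (π / 3)) - cis (f * (π / 3))‖ = 1 := by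
  have hpi : 0 < π / 3 := by positivity
  have key : ∀ {x y : ℝ}, x ≤ y → x * (π / 3) ≤ y * (π / 3) := fun h => mul_le_mul_of_nonneg_right h hpi.le
  have key2 : ∀ {x y : ℝ}, y ≤ x + 1 → y * (π / 3) - x * (π / 3) ≤ π / 3 := fun h => by
    have := mul_le_mul_of_nonneg_right h hpi.le
    linarith
  have key3 : ∀ {x : ℝ}, 0 ≤ x → x ≤ 1 → x ^ 2 ≤ 1 := fun h h' => pow_le_one₀ h h'
  have k0 := key3 (norm_nonneg _) h0
  have k1 := key3 (norm_nonneg _) h1
  have k2 := key3 (norm_nonneg _) h2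
  rw [norm_alt_sq] at k0 k1 k2
  obtain ⟨j0, j1, j2⟩ := alt_all (key hab) (key2 hab') (key hbc) (key2 hbc') (key hcd) (key2 hcd') (key hde)
    (key2 hde') (key hef) (key2 hef') (by have := mul_le_mul_of_nonneg_right haf hpi.le; linarith) k0 k2 k1
  rw [← norm_alt_sq] at j0 j1 j2
  exact ⟨(pow_eq_one_iff_of_nonneg (norm_nonneg _) two_ne_zero).1 j0,
    (pow_eq_one_iff_of_nonneg (norm_nonneg _) two_ne_zero).1 j1,
    (pow_eq_one_iff_of_nonneg (norm_nonneg _) two_ne_zero).1 j2⟩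

end Vale.Agent.P032.H993
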