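import Vale.Agent.P032.H254.WG

/-!
# P032: the wild model, rays of exact letters

`MdR G`, over the wedge palettes `G : WG M`; `M.B x q 4 r` = some point of the unit circle about `x` has the palette
`{q, r}` (as in `H993.MdE`).

`ray` : the letter `(t, sd)` of `x` is exactly `{i, j}`, the colour `q` of `T x` is paired with all colours of `T x` but `i`,
`j`: of the two wedges orthogonal to the letter one has only the colour `q` and the other one has not `q`.
-/

namespace Vale.Agent.P032.H993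

open Vale.Agent.P032.H820.K (df ad hcell gk gt)
open Vale.Agent.P032.H240.W (MdW)
open Vale.Agent.P032.H254 (WG)

/-- rays of exact letters -/
structure MdR {K NP NW : ℕ} {nb : ℕ → ℕ → ℕ} {M : MdW K NP NW nb} (G : WG M) : Prop where
  ray : ∀ {x t sd i j q}, x < NW → t < 6 * K → sd < 2 → i < 6 → j < 6 → q < 6 → i ≠ j → q ≠ i → q ≠ j →
    M.LU x t sd i → M.LU x t sd j → (∀ r < 6, r ≠ i → r ≠ j → ¬ M.LU x t sd r) → M.T x i → M.T x j → M.T x q →
    (∃ r < 6, r ≠ i ∧ r ≠ j ∧ r ≠ q ∧ M.T x r) →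
    (∀ r < 6, r ≠ i → r ≠ j → r ≠ q → M.T x r → M.B x q 4 r) →
    ((∀ r < 6, r ≠ q → ¬ G.MW x t sd r) ∧ ¬ G.MW x (ad K t (3 * K)) sd q) ∨
      ((∀ r < 6, r ≠ q → ¬ G.MW x (ad K t (3 * K)) sd r) ∧ ¬ G.MW x t sd q)

end Vale.Agent.P032.H993
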