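import Vale.Agent.P032.H240.W.MdW

/-!
# P032: the wild model, type clauses at two-pair centres

`MdT M`, over `M : MdW K NP NW nb`, with the bits `M.B x i 4 j` of `MdE` (some point of the unit circle about `x` has the
palette `{i, j}`).  `MdW.TP M x a b c d` : `a, b, c, d` are four colours of `x` with the two pairs `{a, b}`, `{c, d}`.

* `max4` : at most four colours at every point;
* `nbc`, `nbc'` : two points of the circle of a two-pair centre at distance one do not both carry both foreign colours if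
  one of them has four colours.
-/

namespace Vale.Agent.P032.H993

open Vale.Agent.P032.H820.K (df ad hcell gk gt)
open Vale.Agent.P032.H240.W (scell vcell MdW)

/-- two pairs at `x` -/
structure TP {K NP NW : ℕ} {nb : ℕ → ℕ → ℕ} (M : MdW K NP NW nb) (x a b c d : ℕ) : Prop where
  a6 : a < 6
  b6 : b < 6
  c6 : c < 6
  d6 : d < 6
  ac : a ≠ c
  ad : a ≠ d
  bc : b ≠ c
  bd : b ≠ d
  ab : a ≠ b
  cd : c ≠ d
  ta : M.T x a
  tb : M.T x b
  tc : M.T x c
  td : M.T x d
  e1 : M.B x a 4 b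
  e2 : M.B x c 4 d

/-- type clauses -/
structure MdT {K NP NW : ℕ} {nb : ℕ → ℕ → ℕ} (M : MdW K NP NW nb) : Prop where
  /-- at most four colours -/
  max4 : ∀ {x} (S : Finset ℕ), x < NP → 5 ≤ S.card → (∀ q ∈ S, q < 6 ∧ M.T x q) → False
  /-- NBC, left neighbour -/
  nbc : ∀ {x t a b c d m n} (S : Finset ℕ), x < NP → t < 6 * K → nb x t < NP → nb x (H820.K.ad K t K) < NP →
    TP M x a b c d → m < 6 → n < 6 → m ≠ n → ¬ M.T x m → ¬ M.T x n → M.T (nb x t) m → M.T (nb x t) n → 4 ≤ S.card →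
    (∀ q ∈ S, q < 6 ∧ M.T (nb x t) q) → M.T (nb x (H820.K.ad K t K)) m → ¬ M.T (nb x (H820.K.ad K t K)) n
  /-- NBC, right neighbour -/
  nbc' : ∀ {x t a b c d m n} (S : Finset ℕ), x < NP → t < 6 * K → nb x t < NP →
    nb x (H820.K.ad K t (5 * K)) < NP →
    TP M x a b c d → m < 6 → n < 6 → m ≠ n → ¬ M.T x m → ¬ M.T x n → M.T (nb x t) m → M.T (nb x t) n → 4 ≤ S.card →
    (∀ q ∈ S, q < 6 ∧ M.T (nb x t) q) → M.T (nb x (H820.K.ad K t (5 * K))) m →
      ¬ M.T (nb x (H820.K.ad K t (5 * K))) n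

end Vale.Agent.P032.H993
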