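import Vale.Agent.P032.H993.MdJ
import Vale.Agent.P032.H993.MkM

/-!
# P032: joint colourings on the letter sequence, the wild instance

Frame `Irr U T` only.

* `FamP.seq` : one colouring of finitely many points by the pure colours at `dir (b + τ) - dir b` and a small step in the
  open set `O`, for the frequent common shifts `τ` of the words;
* `exists_JE` : the colourings of all points for all ticks;
* `mkMdJ` : the instance for `mkMdW`.
-/

open Set Filter Topology Metric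

noncomputable section

namespace Vale.Agent.P032.H556

open Vale.Agent.P032.Six Vale.Agent.P032.Words Vale.Agent.P032.S5.H767 Vale.Agent.P032.H892
  Vale.Agent.P032.H913 Vale.Agent.P032.H357 Vale.Agent.P032.H61

variable {U : Fin 6 → Set ℂ} {T : ℂ → Set (Fin 6)}

/-- the displacement along the circles of direction `b` -/
def dl (b τ : ℝ) : ℂ := dir (b + τ) - dir b

theorem norm_dir' (b : ℝ) : ‖dir b‖ = 1 := by unfold dir; exact norm_cis _

theorem add_dl (Z : ℂ) (b τ : ℝ) : Z + dl b τ = pt (Z - dir b) (b + τ) := by unfold dl pt dir; ring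

theorem pt_sub_dir (Z : ℂ) (b : ℝ) : pt (Z - dir b) b = Z := by unfold pt dir; ring

/-- the colour at `Z + v`, `v → dl b τ` -/
theorem freq_add {Z d : ℂ} {A : ℂ → Prop} (hv : ∃ᶠ v in 𝓝 d, A (Z + v)) : ∃ᶠ y in 𝓝 (Z + d), A y := by
  have h1 : Tendsto (fun v : ℂ => Z + v) (𝓝 d) (𝓝 (Z + d)) := by
    have h2 : Continuous fun v : ℂ => Z + v := by fun_prop
    exact h2.tendsto d
  exact h1.frequently hv

/-- **Joint colourings on the letter sequence.** -/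
theorem FamP.seq (h : Irr U T) {I J : Type*} [Finite I] {l : Filter ℝ} {X : J → ℂ} {t : J → ℝ}
    {P Q : J → Set (Fin 6)} (F : FamP U T l X t P Q) (Z : I → ℂ) (b : ℝ) {O : Set ℂ} (hO : IsOpen O)
    (hf : ∀ τ, ∃ᶠ v in 𝓝 (dl b τ), v ∈ O) :
    ∃ s : I → Fin 6, (∃ᶠ τ in l, (∀ j, IP U T (X j) (t j + τ) (P j) (Q j)) ∧
      ∃ᶠ v in 𝓝 (dl b τ), v ∈ O ∧ ∀ i, T (Z i + v) = {s i}) ∧ ∀ i i', dist (Z i) (Z i') = 1 → s i ≠ s i' := by
  have h1 : ∀ τ, ∃ s : I → Fin 6, ∃ᶠ v in 𝓝 (dl b τ), v ∈ O ∧ ∀ i, T (Z i + v) = {s i} := by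
    intro τ
    refine H61.freq_exists (P := fun (s : I → Fin 6) v => v ∈ O ∧ ∀ i, T (Z i + v) = {s i}) ?_
    rw [frequently_iff]
    intro N hN
    obtain ⟨N', hN', hNo, hN0⟩ := _root_.mem_nhds_iff.1 hN
    obtain ⟨v, h2, h3⟩ := ((hf τ).and_eventually (hNo.mem_nhds hN0)).exists
    obtain ⟨δ, h4, s, h5⟩ := exists_all h Z (hO.inter hNo) ⟨v, h2, h3⟩
    exact ⟨δ, hN' h4.2, s, h4.1, h5⟩
  obtain ⟨s, hs⟩ := H61.freq_exists (P := fun (s : I → Fin 6) τ => (∀ j, IP U T (X j) (t j + τ) (P j) (Q j)) ∧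
      ∃ᶠ v in 𝓝 (dl b τ), v ∈ O ∧ ∀ i, T (Z i + v) = {s i})
    (F.mono fun τ hτ => by
      obtain ⟨s, h2⟩ := h1 τ
      exact ⟨s, hτ, h2⟩)
  refine ⟨s, hs, fun i i' hd e => ?_⟩
  obtain ⟨τ, -, h2⟩ := hs.exists
  obtain ⟨v, -, h3⟩ := h2.exists
  have h4 : dist (Z i + v) (Z i' + v) = 1 := by rw [dist_add_right]; exact hd
  have h5 := sq_sub h (s i) (show Z i + v ∈ Sq T (s i) from h3 i)
  have h6 := sq_sub h (s i') (show Z i' + v ∈ Sq T (s i') from h3 i')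
  rw [← e] at h6
  exact h.mx.free (s i) _ h5 _ (subset_closure h6) h4

/-- inside the circles about the points `x - dir b` -/
def Oi (b : ℝ) : Set ℂ := {v | dist v (-dir b) < 1}

/-- outside -/
def Oo (b : ℝ) : Set ℂ := {v | 1 < dist v (-dir b)}

theorem isOpen_Oi (b : ℝ) : IsOpen (Oi b) := isOpen_lt (continuous_id.dist continuous_const) continuous_const
theorem isOpen_Oo (b : ℝ) : IsOpen (Oo b) := isOpen_lt continuous_const (continuous_id.dist continuous_const)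

theorem dist_dl (b τ : ℝ) : dist (dl b τ) (-dir b) = 1 := by
  unfold dl
  rw [dist_eq_norm, sub_neg_eq_add, sub_add_cancel, norm_dir']

theorem freq_Oi (b τ : ℝ) : ∃ᶠ v in 𝓝 (dl b τ), v ∈ Oi b := freq_in (dist_dl b τ)
theorem freq_Oo (b τ : ℝ) : ∃ᶠ v in 𝓝 (dl b τ), v ∈ Oo b := freq_out (dist_dl b τ)

theorem dist_oi (Z v : ℂ) (b : ℝ) : dist v (-dir b) = dist (Z + v) (Z - dir b) := by
  rw [dist_eq_norm, dist_eq_norm]; congr 1; ring

/-- the colour of a letter point, inside -/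
theorem seq_in {X0 Z : ℂ} {b τ : ℝ} {P Q : Set (Fin 6)} {c : Fin 6} (I : IP U T X0 (b + τ) P Q)
    (e : Z = X0 + dir b) (hv : ∃ᶠ v in 𝓝 (dl b τ), v ∈ Oi b ∧ T (Z + v) = {c}) : c ∈ P := by
  have e1 : Z - dir b = X0 := by rw [e]; ring
  refine (I.inn c).2 ?_
  have h1 := freq_add (Z := Z) (d := dl b τ) (A := fun y => T y = {c} ∧ dist y X0 < 1) (hv.mono fun v hv => ⟨hv.2, by
    rw [← e1, ← dist_oi]; exact hv.1⟩)
  rwa [add_dl, e1] at h1

/-- the colour of a letter point, outside -/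
theorem seq_out {X0 Z : ℂ} {b τ : ℝ} {P Q : Set (Fin 6)} {c : Fin 6} (I : IP U T X0 (b + τ) P Q)
    (e : Z = X0 + dir b) (hv : ∃ᶠ v in 𝓝 (dl b τ), v ∈ Oo b ∧ T (Z + v) = {c}) : c ∈ Q := by
  have e1 : Z - dir b = X0 := by rw [e]; ring
  refine (I.out c).2 ?_
  have h1 := freq_add (Z := Z) (d := dl b τ) (A := fun y => T y = {c} ∧ 1 < dist y X0) (hv.mono fun v hv => ⟨hv.2, by
    rw [← e1, ← dist_oi]; exact hv.1⟩)
  rwa [add_dl, e1] at h1

/-- the colour of a word point is not in its letter -/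
theorem seq_off (h : Irr U T) {X0 : ℂ} {b τ : ℝ} {P Q : Set (Fin 6)} {c : Fin 6} (I : IP U T X0 (b + τ) P Q)
    (h0 : τ ≠ 0) (h1 : |τ| < 1) (hv : ∃ᶠ v in 𝓝 (dl b τ), T (X0 + v) = {c}) : c ∉ P ∪ Q := by
  intro hc
  have hp : c ∈ T (X0 + dl b τ) := by
    refine mem_of_freq h (P := fun _ => True) ?_
    exact freq_add (Z := X0) (A := fun y => T y = {c} ∧ True) (hv.mono fun v hv => ⟨hv, trivial⟩)
  have hne : dl b τ ≠ 0 := by
    intro e
    have e1 : pt 0 (b + τ) = pt 0 b := by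
      unfold dl at e
      show (0 : ℂ) + dir (b + τ) = 0 + dir b
      linear_combination e
    obtain ⟨n, hn⟩ := pt_inj e1
    have h3 : τ = -(6 * (n : ℝ)) ∨ τ = 6 * (n : ℝ) := by
      first
        | exact Or.inl (by linarith)
        | exact Or.inr (by linarith)
    have h4 : |(6 * (n : ℝ))| < 1 := by
      rcases h3 with h3 | h3
      · rw [h3, abs_neg] at h1; exact h1
      · rw [h3] at h1; exact h1
    rw [abs_lt] at h4
    have h5 : (-1 : ℝ) < n := by linarith [h4.1]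
    have h6 : (n : ℝ) < 1 := by linarith [h4.2]
    have h7 : -1 < n := by exact_mod_cast h5
    have h8 : n < 1 := by exact_mod_cast h6
    have h9 : n = 0 := by omega
    rw [h9] at h3
    rcases h3 with h3 | h3
    · exact h0 (by rw [h3]; simp)
    · exact h0 (by rw [h3]; simp)
  refine I.off_line h hc (w := X0 + dl b τ) ?_ ?_ ?_ (h.sub _ hp)
  · have e : pt X0 (b + τ) - (X0 + dl b τ) = dir b := by unfold pt dl dir; ring
    rw [dist_eq_norm, e, norm_dir']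
  · intro e
    exact hne (by linear_combination e)
  · intro e
    -- `dir (b + τ) = - dir b`
    have e1 : pt 0 (b + τ) = pt 0 (b + 3) := by
      have e2 : dir (b + 3) = -dir b := dir_three b
      show (0 : ℂ) + dir (b + τ) = 0 + dir (b + 3)
      rw [e2]
      have e3 : pt X0 (b + τ) = X0 + dir (b + τ) := rfl
      rw [e3] at e
      unfold dl at e
      linear_combination -e
    obtain ⟨n, hn⟩ := pt_inj e1
    rw [abs_lt] at h1
    have h5 : (-1 : ℝ) < n := by linarith [h1.1, h1.2]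
    have h6 : (n : ℝ) < 1 := by linarith [h1.1, h1.2]
    have h7 : -1 < n := by exact_mod_cast h5
    have h8 : n < 1 := by exact_mod_cast h6
    have h9 : n = 0 := by omega
    rw [h9] at hn
    simp only [Int.cast_zero, mul_zero, add_zero] at hn
    linarith [h1.1, h1.2]

/-- the colour of a neighbour of the letter point is not in the letter -/
theorem seq_off' (h : Irr U T) {X0 Z : ℂ} {b τ : ℝ} {P Q : Set (Fin 6)} {c : Fin 6} (I : IP U T X0 (b + τ) P Q)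
    (hd : dist Z (X0 + dir b) = 1) (h0 : pt 0 (b + τ) ≠ Z - (X0 + dir b)) (h1 : pt 0 (b + τ) ≠ -(Z - (X0 + dir b)))
    (hv : ∃ᶠ v in 𝓝 (dl b τ), T (Z + v) = {c}) : c ∉ P ∪ Q := by
  intro hc
  have hp : c ∈ T (Z + dl b τ) := by
    refine mem_of_freq h (P := fun _ => True) ?_
    exact freq_add (Z := Z) (A := fun y => T y = {c} ∧ True) (hv.mono fun v hv => ⟨hv, trivial⟩)
  have e0 : pt 0 (b + τ) = dir (b + τ) := by unfold pt dir; ring
  have e1 : pt X0 (b + τ) = X0 + dir (b + τ) := rfl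
  rw [e0] at h0 h1
  refine I.off_line h hc (w := Z + dl b τ) ?_ ?_ ?_ (h.sub _ hp)
  · have e : pt X0 (b + τ) - (Z + dl b τ) = -(Z - (X0 + dir b)) := by rw [e1]; unfold dl; ring
    rw [dist_eq_norm, e, norm_neg, ← dist_eq_norm]; exact hd
  · intro e
    refine h1 ?_
    unfold dl at e
    linear_combination e
  · intro e
    refine h0 ?_
    rw [e1] at e
    unfold dl at e
    linear_combination -e

/-! the zones -/

theorem seq_three {Z : ℂ} {b : ℝ} {c : Fin 6}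
    (hs : ∃ᶠ τ in 𝓝[>] (0 : ℝ), ∃ᶠ v in 𝓝 (dl b τ), v ∈ Oi b ∧ T (Z + v) = {c}) :
    ∃ᶠ p in 𝓝 ((0 : ℝ), b + 3 / 2), (0 < p.1 ∧ T (po Z p) = {c}) ∧ dist (po Z p) (Z - dir b) < 1 := by
  refine freq_lim (lim_R b) ((hs.and_eventually pos_R).mono fun τ hτ => ?_)
  have h1 := freq_add (Z := Z) (d := dl b τ) (A := fun y => T y = {c} ∧ dist y (Z - dir b) < 1)
    (hτ.1.mono fun v hv => ⟨hv.2, by rw [← dist_oi]; exact hv.1⟩)
  have e := chord_right (Z - dir b) b τ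
  rw [pt_sub_dir] at e
  rw [add_dl] at h1
  exact (H61.freq_po hτ.2 e h1).mono fun p hp => ⟨⟨hp.1, hp.2.1⟩, hp.2.2⟩

theorem seq_one {Z : ℂ} {b : ℝ} {c : Fin 6}
    (hs : ∃ᶠ τ in 𝓝[<] (0 : ℝ), ∃ᶠ v in 𝓝 (dl b τ), v ∈ Oi b ∧ T (Z + v) = {c}) :
    ∃ᶠ p in 𝓝 ((0 : ℝ), b - 3 / 2), (0 < p.1 ∧ T (po Z p) = {c}) ∧ dist (po Z p) (Z - dir b) < 1 := by
  refine freq_lim (lim_L b) ((hs.and_eventually pos_L).mono fun τ hτ => ?_)
  have h1 := freq_add (Z := Z) (d := dl b τ) (A := fun y => T y = {c} ∧ dist y (Z - dir b) < 1)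
    (hτ.1.mono fun v hv => ⟨hv.2, by rw [← dist_oi]; exact hv.1⟩)
  have e := chord_left (Z - dir b) b τ
  rw [pt_sub_dir] at e
  rw [add_dl] at h1
  exact (H61.freq_po hτ.2 e h1).mono fun p hp => ⟨⟨hp.1, hp.2.1⟩, hp.2.2⟩

/-- outside and far from the mirror circle -/
theorem seq_mirror {Z : ℂ} {b τ : ℝ} {c : Fin 6} (h0 : τ ≠ 0) (h1 : |τ| < 1)
    (hv : ∃ᶠ v in 𝓝 (dl b τ), v ∈ Oo b ∧ T (Z + v) = {c}) :
    ∃ᶠ y in 𝓝 (pt (Z - dir b) (b + τ)), T y = {c} ∧ 1 < dist y (Z - dir b) ∧ 1 < dist y (Z + dir b) := by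
  have h2 := freq_add (Z := Z) (d := dl b τ) (A := fun y => T y = {c} ∧ 1 < dist y (Z - dir b))
    (hv.mono fun v hv => ⟨hv.2, by rw [← dist_oi]; exact hv.1⟩)
  rw [add_dl] at h2
  have h3 : ∀ᶠ y in 𝓝 (pt (Z - dir b) (b + τ)), 1 < dist y (Z + dir b) := by
    refine (continuous_id.dist continuous_const).continuousAt.eventually_const_lt ?_
    have h4 := far_mirror (x := Z - dir b) (t := b) h0 h1
    rw [pt_sub_dir, show 2 * Z - (Z - dir b) = Z + dir b by ring] at h4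
    exact h4
  exact (h2.and_eventually h3).mono fun y hy => ⟨hy.1.1, hy.1.2, hy.2⟩

theorem seq_two_R {Z : ℂ} {b : ℝ} {c : Fin 6}
    (hs : ∃ᶠ τ in 𝓝[>] (0 : ℝ), ∃ᶠ v in 𝓝 (dl b τ), v ∈ Oo b ∧ T (Z + v) = {c}) :
    ∃ᶠ p in 𝓝 ((0 : ℝ), b + 3 / 2), (0 < p.1 ∧ T (po Z p) = {c}) ∧ 1 < dist (po Z p) (Z - dir b) ∧
      1 < dist (po Z p) (Z + dir b) := by
  refine freq_lim (lim_R b) ((hs.and_eventually (pos_R.and Wp.ev_small)).mono fun τ hτ => ?_)
  have e := chord_right (Z - dir b) b τ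
  rw [pt_sub_dir] at e
  refine (H61.freq_po hτ.2.1 e (seq_mirror hτ.2.2.1.ne' (by rw [abs_of_pos hτ.2.2.1]; exact hτ.2.2.2) hτ.1)).mono
    fun p hp => ⟨⟨hp.1, hp.2.1⟩, hp.2.2⟩

theorem seq_two_L {Z : ℂ} {b : ℝ} {c : Fin 6}
    (hs : ∃ᶠ τ in 𝓝[<] (0 : ℝ), ∃ᶠ v in 𝓝 (dl b τ), v ∈ Oo b ∧ T (Z + v) = {c}) :
    ∃ᶠ p in 𝓝 ((0 : ℝ), b - 3 / 2), (0 < p.1 ∧ T (po Z p) = {c}) ∧ 1 < dist (po Z p) (Z - dir b) ∧
      1 < dist (po Z p) (Z + dir b) := by
  refine freq_lim (lim_L b) ((hs.and_eventually (pos_L.and Wp.ev_small')).mono fun τ hτ => ?_)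
  have e := chord_left (Z - dir b) b τ
  rw [pt_sub_dir] at e
  refine (H61.freq_po hτ.2.1 e (seq_mirror hτ.2.2.2.ne (by
    rw [abs_of_neg hτ.2.2.2]; linarith [hτ.2.2.1]) hτ.1)).mono fun p hp => ⟨⟨hp.1, hp.2.1⟩, hp.2.2⟩

end Vale.Agent.P032.H556

namespace Vale.Agent.P032.H993.MkW

open Vale.Agent.P032.Six Vale.Agent.P032.H892 Vale.Agent.P032.H913 Vale.Agent.P032.S5.H767 Vale.Agent.P032.H61
  Vale.Agent.P032.H357 Vale.Agent.P032.H357.MK Vale.Agent.P032.H556 Vale.Agent.P032.H515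
open Vale.Agent.P032.H820.K (df ad hcell ecell fcell wcell gk gt)
open Vale.Agent.P032.H240.W (scell vcell MdW)

variable {U : Fin 6 → Set ℂ} {T : ℂ → Set (Fin 6)} {K : ℕ} {a : ℕ → ℝ}

/-- the zone of a point on the letter sequence -/
theorem seq_cell (A : Tick K a) {Z : ℂ} {t sd io : ℕ} {c : Fin 6} (hsd : sd < 2) (hio : io < 2)
    (hs : ∃ᶠ τ in sdf sd, ∃ᶠ v in 𝓝 (dl (a t) τ), v ∈ (if io = 0 then Oi (a t) else Oo (a t)) ∧ T (Z + v) = {c}) :
    Cl (Sq T c) Z a (gk sd io) (gt K sd t) := by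
  interval_cases sd
  · have e0 : gt K 0 t = ad K t (3 * K) := rfl
    rw [sdf_ne (by norm_num)] at hs
    interval_cases io
    · have e1 : gk 0 0 = 1 := rfl
      rw [e0, e1, cl_opp A, cl_pos (by norm_num), CK.ra_half A, show ra a t + 3 = a t + 9 / 2 by unfold ra; ring]
      refine H61.Wd.shift_L (P := fun p w => (0 < p.1 ∧ w ∈ Sq T c) ∧
        Zn Z (dir (a (t + 3 * K))) 1 w) ?_ (fun r θ w h => h)
      refine (seq_one (by simpa using hs)).mono fun p hp => ⟨⟨hp.1.1, hp.1.2⟩, zn_one.2 ?_⟩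
      rw [CK.dir_half A, ← sub_eq_add_neg]
      exact hp.2
    · have e1 : gk 0 1 = 2 := rfl
      rw [e0, e1, cl_opp A, cl_pos (by norm_num), CK.ra_half A, show ra a t + 3 = a t + 9 / 2 by unfold ra; ring]
      refine H61.Wd.shift_L (P := fun p w => (0 < p.1 ∧ w ∈ Sq T c) ∧
        Zn Z (dir (a (t + 3 * K))) 2 w) ?_ (fun r θ w h => h)
      refine (seq_two_L (by simpa using hs)).mono fun p hp => ⟨⟨hp.1.1, hp.1.2⟩, zn_two.2 ⟨?_, ?_⟩⟩
      · rw [CK.dir_half A, ← sub_eq_add_neg]; exact hp.2.1.le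
      · rw [CK.dir_half A, sub_neg_eq_add]; exact hp.2.2.le
  · have e0 : gt K 1 t = t := rfl
    rw [sdf_one] at hs
    interval_cases io
    · have e1 : gk 1 0 = 3 := rfl
      rw [e0, e1, cl_pos (by norm_num)]
      exact (seq_three (by simpa using hs)).mono fun p hp => ⟨⟨hp.1.1, hp.1.2⟩, zn_three.2 hp.2⟩
    · have e1 : gk 1 1 = 2 := rfl
      rw [e0, e1, cl_pos (by norm_num)]
      exact (seq_two_R (by simpa using hs)).mono fun p hp =>
        ⟨⟨hp.1.1, hp.1.2⟩, zn_two.2 ⟨hp.2.2.le, hp.2.1.le⟩⟩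

/-- **joint colourings on the letter sequence**, numbers -/
structure JS (U : Fin 6 → Set ℂ) (T : ℂ → Set (Fin 6)) (K : ℕ) (a : ℕ → ℝ) (σ : Equiv.Perm (Fin 6)) (NP NW : ℕ)
    (nb : ℕ → ℕ → ℕ) (Y : ℕ → ℂ) (W : ℕ → Fin NW → ℕ → ℕ → ℕ → Set (Fin 6)) (JE : ℕ → ℕ → ℕ → ℕ → ℕ) : Prop where
  lt : ∀ t sd io x, JE t sd io x < 6
  ne : ∀ {t sd io x s}, x < NP → s < 6 * K → nb x s < NP → JE t sd io x ≠ JE t sd io (nb x s)
  v : ∀ {t sd io x}, sd < 2 → io < 2 → x < NP → Cl (Sq T (co σ (JE t sd io x))) (Y x) a (gk sd io) (gt K sd t)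
  l : ∀ {t sd io x}, t < 6 * K → io < 2 → x < NW → nb x t < NP → LW σ K NW W io x t sd (JE t sd io (nb x t))
  n : ∀ {t sd io x}, x < NW → ¬ LL σ K NW W x t sd (JE t sd io x)
  x : ∀ {t sd io x r}, t < 6 * K → x < NW → r < 6 * K → nb x t < NP → nb (nb x t) r < NP →
    ¬ LL σ K NW W x t sd (JE t sd io (nb (nb x t) r))

theorem exists_JS (h : Irr U T) (A : Tick K a) (σ : Equiv.Perm (Fin 6)) {NP NW : ℕ} {nb : ℕ → ℕ → ℕ} {Y : ℕ → ℂ}
    (hNW : NW ≤ NP) (hY : Tab K a NP nb Y) {W : ℕ → Fin NW → ℕ → ℕ → ℕ → Set (Fin 6)}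
    (D : ∀ r, Wp U T K a (fun j : Fin NW => Y j.val) (W r)) : ∃ JE, JS U T K a σ NP NW nb Y W JE := by
  have hO : ∀ io t, IsOpen (if io = 0 then Oi (a t) else Oo (a t)) := fun io t => by
    split_ifs
    · exact isOpen_Oi _
    · exact isOpen_Oo _
  have hf : ∀ io t, ∀ τ, ∃ᶠ v in 𝓝 (dl (a t) τ), v ∈ (if io = 0 then Oi (a t) else Oo (a t)) := fun io t τ => by
    split_ifs
    · exact freq_Oi _ _
    · exact freq_Oo _ _
  choose s h1 h2 using fun t sd io : ℕ =>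
    ((D (t % K)).fam sd).seq h (fun i : Fin NP => Y i.val) (a t) (hO io t) (hf io t)
  refine ⟨fun t sd io x => if hx : x < NP then no σ (s t sd io ⟨x, hx⟩) else 0, ⟨fun t sd io x => ?_,
    fun {t sd io x r} hx hr hn => ?_, fun {t sd io x} hsd hio hx => ?_, fun {t sd io x} ht hio hx hn => ?_,
    fun {t sd io x} hx => ?_, fun {t sd io x r} ht hx hr hn hn' => ?_⟩⟩
  · show (if hx : x < NP then no σ (s t sd io ⟨x, hx⟩) else 0) < 6
    split_ifs
    · exact no_lt σ _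
    · norm_num
  · simp only [dif_pos hx, dif_pos hn]
    intro e
    exact h2 t sd io ⟨x, hx⟩ ⟨nb x r, hn⟩ (hY.dist hx hr hn) (no_inj σ e)
  · simp only [dif_pos hx, co_no]
    refine seq_cell A hsd hio ((h1 t sd io).mono fun τ hτ => hτ.2.mono fun v hv => ⟨hv.1, hv.2 ⟨x, hx⟩⟩)
  · refine (lw_iff hx).2 ?_
    simp only [dif_pos hn, co_no]
    have hx' : x < NP := lt_of_lt_of_le hx hNW
    obtain ⟨τ, hI, hv⟩ := (h1 t sd io).exists
    have hI := hI (⟨x, hx⟩, t)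
    have e : Y (nb x t) = Y x + dir (a t) := hY x hx' t ht hn
    interval_cases io
    · exact seq_in hI e (hv.mono fun v hv => ⟨by simpa using hv.1, hv.2 ⟨nb x t, hn⟩⟩)
    · exact seq_out hI e (hv.mono fun v hv => ⟨by simpa using hv.1, hv.2 ⟨nb x t, hn⟩⟩)
  · have hx' : x < NP := lt_of_lt_of_le hx hNW
    rw [ll_iff hx]
    simp only [dif_pos hx', co_no]
    have hsm : ∀ᶠ τ : ℝ in sdf sd, τ ≠ 0 ∧ |τ| < 1 := by
      unfold sdf
      split_ifs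
      · filter_upwards [Wp.ev_small] with τ hτ
        exact ⟨hτ.1.ne', by rw [abs_of_pos hτ.1]; exact hτ.2⟩
      · filter_upwards [Wp.ev_small'] with τ hτ
        exact ⟨hτ.2.ne, by rw [abs_of_neg hτ.2]; linarith [hτ.1]⟩
    obtain ⟨τ, ⟨hI, hv⟩, h0, hlt⟩ := ((h1 t sd io).and_eventually hsm).exists
    have hI := hI (⟨x, hx⟩, t)
    exact seq_off h hI h0 hlt (hv.mono fun v hv => hv.2 ⟨x, hx'⟩)
  · have hx' : x < NP := lt_of_lt_of_le hx hNW
    rw [ll_iff hx]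
    simp only [dif_pos hn', co_no]
    obtain ⟨τ, ⟨hI, hv⟩, h3, h4⟩ := ((h1 t sd io).and_eventually
      ((H61.ev_ne (sdf_side sd) 0 (a t) (Y (nb (nb x t) r) - (Y x + dir (a t)))).and
        (H61.ev_ne (sdf_side sd) 0 (a t) (-(Y (nb (nb x t) r) - (Y x + dir (a t))))))).exists
    have hI := hI (⟨x, hx⟩, t)
    refine seq_off' h hI ?_ h3 h4 (hv.mono fun v hv => hv.2 ⟨nb (nb x t) r, hn'⟩)
    have e : Y (nb x t) = Y x + dir (a t) := hY x hx' t ht hn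
    show dist (Y (nb (nb x t) r)) (Y x + dir (a t)) = 1
    rw [← e, dist_comm]
    exact hY.dist hn hr hn'

/-- **the instance** -/
def mkMdJ {U : Fin 6 → Set ℂ} {T : ℂ → Set (Fin 6)} (h : Irr U T) {K : ℕ} {a : ℕ → ℝ}
    (A : Tick K a) (σ : Equiv.Perm (Fin 6)) {NP NW : ℕ} {nb : ℕ → ℕ → ℕ} (hK : 6 * K ≤ 256) (hNP : NP ≤ 4096)
    (hNW : NW ≤ NP) (Y : ℕ → ℂ) (hY : Tab K a NP nb Y) {W : ℕ → Fin NW → ℕ → ℕ → ℕ → Set (Fin 6)}
    {w : ℕ → Fin NW → ℕ → ℕ → ℕ → Fin 6} (D : ∀ r, Sw U T K a (fun j : Fin NW => Y j.val) (W r) (w r))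
    {J : ℕ → ℕ → ℕ → ℕ} (hJ : JC U T K a σ NP nb Y J) (B : ℕ → ℕ → ℕ → ℕ → Prop) {JE : ℕ → ℕ → ℕ → ℕ → ℕ}
    (hE : JS U T K a σ NP NW nb Y W JE) : MdJ (mkMdW h A σ hK hNP hNW Y hY D hJ B) where
  JE := JE
  jlt := fun _ _ _ _ => hE.lt _ _ _ _
  jne := fun _ _ _ hx hs hn => hE.ne hx hs hn
  jv := fun _ hsd hio hx => hE.v hsd hio hx
  jl := fun ht _ hio hx hn => hE.l ht hio hx hn
  jn := fun _ _ _ hx => hE.n hx
  jx := fun ht _ _ hx hr hn hn' => hE.x ht hx hr hn hn'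

end Vale.Agent.P032.H993.MkW
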