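import Vale.Agent.P032.H993.MdP
import Vale.Agent.P032.H993.MkM

/-!
# P032: the partner rule in cells, the wild instance

Frame `Irr U T` only.

* `cell_out` : a cell outside `S(y + dir (a s))` accumulates outside;
* `ou_cell`, `in_cell` : points of `U q` outside / inside `S(x)` near `y` are in a cell outside / inside;
* `part_tick`, `part_between`, `part` : the partner rule;
* `mkMdP` : the instance for `mkMdW`.
-/

open Set Filter Topology Metric

noncomputable section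

namespace Vale.Agent.P032.H993.MkW

open Vale.Agent.P032.Six Vale.Agent.P032.H892 Vale.Agent.P032.H913 Vale.Agent.P032.S5.H767 Vale.Agent.P032.H61
  Vale.Agent.P032.H357 Vale.Agent.P032.H357.MK Vale.Agent.P032.H556 Vale.Agent.P032.H515
open Vale.Agent.P032.H820.K (df ad hcell ecell fcell wcell gk gt)
open Vale.Agent.P032.H240.W (scell vcell MdW)

variable {U : Fin 6 → Set ℂ} {T : ℂ → Set (Fin 6)} {K : ℕ} {a : ℕ → ℝ} {x y : ℂ} {q : Fin 6}

/-- limit directions outside the disc -/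
theorem ou_of_ds {S : Set ℂ} {θ u : ℝ} (h : θ ∈ DS S x) (hc : Real.cos ((θ - u) * (Real.pi / 3)) < 0) :
    Ou S x (x + dir u) := by
  refine H357.freq_po (P := fun w => w ∈ S ∧ 1 ≤ dist w (x + dir u)) (θ := θ) ?_
  exact ((show ∃ᶠ p in 𝓝 ((0 : ℝ), θ), p ∈ H357.PS S x from h).and_eventually (ev_out hc)).mono
    fun p hp => ⟨hp.1.2, (hp.2 hp.1.1).le⟩

/-- the cells outside -/
theorem cell_out (A : Tick K a) {S : Set ℂ} {k j s : ℕ} (hj : j < 6 * K) (hs : s < 6 * K) (hk : k < 4)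
    (hc : hcell K k j s = false) (h1 : Cl S x a k j) : Ou S x (x + dir (a s)) := by
  have h1 := (cl_df A hj hs).2 h1
  have hlt := df_lt hj hs
  have hc : ¬ ((k = 0 ∧ 3 * K ≤ df K j s) ∨ (k ≠ 0 ∧ (3 * K + 1 ≤ df K j s ∨ (k = 1 ∧ df K j s = 0) ∨
      (k = 3 ∧ df K j s = 3 * K)))) := fun h2 => by
    rw [hcell_iff.2 h2] at hc; cases hc
  generalize df K j s = d at h1 hlt hc
  by_cases h0 : k = 0
  · subst h0
    have h2 : d + 1 ≤ 3 * K := by
      by_contra hcon
      exact hc (Or.inl ⟨rfl, by omega⟩)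
    obtain ⟨θ, hθ, hd⟩ := cl_zero.1 h1
    exact ou_of_ds hd (cos_neg_K A h2 hθ)
  · have h2 : ¬ (3 * K + 1 ≤ d ∨ (k = 1 ∧ d = 0) ∨ (k = 3 ∧ d = 3 * K)) := fun h2 => hc (Or.inr ⟨h0, h2⟩)
    push Not at h2
    obtain ⟨h2, h3, h4⟩ := h2
    rcases Nat.eq_zero_or_pos d with hd0 | hd0
    · subst hd0
      rw [add_zero] at h1
      have hk23 : k = 2 ∨ k = 3 := by
        have : k ≠ 1 := fun h5 => h3 h5 rfl
        omega
      rcases hk23 with rfl | rfl
      · exact (ou_two h1).1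
      · refine ou_of_in (norm_dir _) ?_
        exact H357.freq_po (P := fun w => w ∈ S ∧ dist w (x - dir (a s)) < 1)
          (((cl_pos (by norm_num)).1 h1).mono fun p hp => ⟨hp.1.2, zn_three.1 hp.2⟩)
    · by_cases hd1 : d = 3 * K
      · subst hd1
        have hk12 : k = 1 ∨ k = 2 := by
          have : k ≠ 3 := fun h5 => h4 h5 rfl
          omega
        rcases hk12 with rfl | rfl
        · refine ou_of_in (norm_dir _) ?_
          refine H357.freq_po (P := fun w => w ∈ S ∧ dist w (x - dir (a s)) < 1)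
            (((cl_pos (by norm_num)).1 h1).mono fun p hp => ⟨hp.1.2, ?_⟩)
          have := zn_one.1 hp.2
          rwa [CK.dir_half A, ← sub_eq_add_neg] at this
        · exact (CK.ou_two_half A h1).1
      · exact ou_of_ds (cl_ray h0 h1) (cos_neg_ray A hd0 (by omega))

section
variable (h : Irr U T) (A : Tick K a) {s : ℕ}
include h A

/-- points of `U q` outside `S(x)` near `y = x + dir (a s)` -/
theorem ou_cell (_hs : s < 6 * K) (e : y = x + dir (a s)) (ho : Ou (U q) y x) :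
    ∃ k < 4, ∃ j < 6 * K, hcell K k j (ad K s (3 * K)) = false ∧ Cl (U q) y a k j := by
  have hx : x = y - dir (a s) := by rw [e, add_sub_cancel_right]
  have hd : dist y x = 1 := by rw [e, dist_eq_norm, add_sub_cancel_left, norm_dir]
  have h1 : ∃ᶠ w in 𝓝 y, w ∈ {w | w ∈ U q ∧ 1 < dist w x} ∧ w ≠ y :=
    (ou_strict' (h.mx.isOpen q) ho).mono fun w hw => ⟨hw, by rintro rfl; linarith [hw.2]⟩
  obtain ⟨k, j, hk, -, hj, hc⟩ := CK.exists_cell A h1 0
  rw [zero_add] at hj
  have hs' : ad K s (3 * K) < 6 * K := by rw [ad_eq]; exact Nat.mod_lt _ (by omega)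
  refine ⟨k, by omega, j, hj, ?_, cl_mono (fun w hw => hw.1) hc⟩
  by_contra hcon
  have h2 := (CK.hi_half A).1 ((hi_opp A).1 (hi_of_cell A hj hs' (by simpa using hcon) hc))
  rw [← hx] at h2
  obtain ⟨w, hw⟩ := h2.exists
  have h3 : 1 < dist w x := hw.1.2
  linarith [hw.2]

omit h in
/-- points of `U q` inside `S(x)` near `y = x + dir (a s)` -/
theorem in_cell (_hs : s < 6 * K) (e : y = x + dir (a s)) (ho : In (U q) y x) :
    ∃ k < 4, ∃ j < 6 * K, hcell K k j (ad K s (3 * K)) = true ∧ Cl (U q) y a k j := by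
  have hx : x = y - dir (a s) := by rw [e, add_sub_cancel_right]
  have hd : dist y x = 1 := by rw [e, dist_eq_norm, add_sub_cancel_left, norm_dir]
  have h1 : ∃ᶠ w in 𝓝 y, w ∈ {w | w ∈ U q ∧ dist w x < 1} ∧ w ≠ y :=
    Filter.Frequently.mono ho fun w hw => ⟨hw, by rintro rfl; linarith [hw.2]⟩
  obtain ⟨k, j, hk, -, hj, hc⟩ := CK.exists_cell A h1 0
  rw [zero_add] at hj
  have hs' : ad K s (3 * K) < 6 * K := by rw [ad_eq]; exact Nat.mod_lt _ (by omega)
  refine ⟨k, by omega, j, hj, ?_, cl_mono (fun w hw => hw.1) hc⟩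
  by_contra hcon
  have h2 := cell_out A hj hs' (by omega) (by simpa using hcon) hc
  rw [ad_eq, CK.dir_mod A, CK.dir_half A, ← sub_eq_add_neg, ← hx] at h2
  obtain ⟨w, hw⟩ := h2.exists
  have h3 : dist w x < 1 := hw.1.2
  linarith [hw.2]

/-- the cells of `x` inside `S(y)` -/
theorem ou_so (hs : s < 6 * K) (e : y = x + dir (a s)) (ho : Ou (U q) y x) {k j : ℕ} (hk : k < 4) (hj : j < 6 * K)
    (hc : hcell K k j s = true) : ¬ So T x a k j q := by
  intro hso
  have hso' : So T x a k (s + df K j s) q := fun r hr hcl => hso r hr ((cl_df A hj hs).1 hcl)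
  have c := ci_cell A h (by omega) (df_lt hj hs) (hcell_iff.1 hc) hso'
  rw [← e] at c
  exact c.ou h ho

/-- the cells of `x` outside `S(y)` -/
theorem in_so (hs : s < 6 * K) (e : y = x + dir (a s)) (ho : In (U q) y x) {k j : ℕ} (hk : k < 4) (hj : j < 6 * K)
    (hc : hcell K k j s = false) : ¬ So T x a k j q := by
  intro hso
  have hso' : So T x a k (s + df K j s) q := fun r hr hcl => hso r hr ((cl_df A hj hs).1 hcl)
  have c := co_cell A h (by omega) (df_lt hj hs) (fun h2 => by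
    have h3 := hcell_iff.2 h2
    rw [h3] at hc; cases hc) hso'
  rw [← e] at c
  exact c.inn h ho

end

theorem gcell_iff {k j s : ℕ} : gcell K k j s = true ↔ (k = 0 ∧ 3 * K ≤ df K j s) ∨
    (k ≠ 0 ∧ (df K j s = 0 ∨ 3 * K + 1 ≤ df K j s)) := by
  unfold gcell
  by_cases h0 : k = 0
  · subst h0
    simp
  · rw [nbeq_zero h0]
    simp only [cond_false, Bool.or_eq_true, nbeq, Nat.ble_eq]
    have e3 : Nat.mul 3 K = 3 * K := rfl
    rw [e3]
    constructor
    · intro h1; exact Or.inr ⟨h0, h1⟩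
    · rintro (⟨h1, -⟩ | ⟨-, h1⟩)
      · exact absurd h1 h0
      · exact h1

section
variable (h : Irr U T) (A : Tick K a) {s : ℕ} {b : ℝ}
include h A

/-- a partner between the ticks, points outside -/
theorem ou_between (hs : s < 6 * K) (hb : b ∈ Ioo (a s) (a (s + 1))) (ho : Ou (U q) (x + dir b) x) {k j : ℕ}
    (hj : j < 6 * K) (hc : gcell K k j s = true) : ¬ So T x a k j q := by
  intro hso
  have hso : So T x a k (s + df K j s) q := fun r hr hcl => hso r hr ((cl_df A hj hs).1 hcl)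
  have hlt := df_lt hj hs
  have hc := gcell_iff.1 hc
  generalize df K j s = d at hso hlt hc
  have hK := A.pos
  have e0 : ra a s = a s + 3 / 2 := rfl
  have e1 : ra a (s + 1) = a (s + 1) + 3 / 2 := rfl
  have e2 : a (s + 1) ≤ a s + 1 := by
    have h1 := A.mono.monotone (show s + 1 ≤ s + K by omega)
    rwa [A.per] at h1
  rcases hc with ⟨rfl, h1⟩ | ⟨h0, h1⟩
  · have h3 := CK.ra_le A (show s + 3 * K ≤ s + d by omega)
    have h4 := CK.ra_le A (show s + 3 * K + 1 ≤ s + d + 1 by omega)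
    have h5 := CK.ra_le A (show s + d + 1 ≤ s + 6 * K by omega)
    have h6 := CK.ra_lt A (Nat.lt_succ_self (s + d))
    rw [CK.ra_half A] at h3
    rw [show s + 3 * K + 1 = s + 1 + 3 * K by ring, CK.ra_half A] at h4
    rw [CK.ra_full A] at h5
    obtain ⟨θ, hθ1, hθ2⟩ := exists_between (max_lt (show b + 9 / 2 < ra a (s + d + 1) by linarith [hb.2]) h6)
    have h7 : b + 9 / 2 < θ := lt_of_le_of_lt (le_max_left _ _) hθ1
    have h8 : ra a (s + d) < θ := lt_of_le_of_lt (le_max_right _ _) hθ1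
    exact Ci.ou h (solid_sector h ⟨h8, hθ2⟩ hso (po_in (CK.cos_pos_six h7 (by linarith [hb.1])))) ho
  · rcases h1 with rfl | h1
    · rw [add_zero] at hso
      refine Ci.ou h (ci_ray h h0 hso ?_) ho
      have h3 : ra a s - b = 3 / 2 - (b - a s) := by rw [e0]; ring
      rw [h3]
      exact ray_pos (d := b - a s) (by linarith [hb.1]) (by linarith [hb.2])
    · have h3 := CK.ra_le A (show s + 1 + 3 * K ≤ s + d by omega)
      have h4 := CK.ra_lt A (show s + d < s + 6 * K by omega)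
      rw [CK.ra_half A] at h3
      rw [CK.ra_full A] at h4
      exact Ci.ou h (ci_ray h h0 hso (CK.cos_pos_six (by linarith [hb.2]) (by linarith [hb.1]))) ho

/-- a partner between the ticks, points inside -/
theorem in_between (hs : s < 6 * K) (hb : b ∈ Ioo (a s) (a (s + 1))) (ho : In (U q) (x + dir b) x) {k j : ℕ}
    (hj : j < 6 * K) (hc : gcell K k j (ad K s (3 * K)) = true) : ¬ So T x a k j q := by
  intro hso
  have hs' : ad K s (3 * K) < 6 * K := by rw [ad_eq]; exact Nat.mod_lt _ (by omega)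
  have hso : So T x a k (s + df K j s) q := fun r hr hcl => hso r hr ((cl_df A hj hs).1 hcl)
  have hlt := df_lt hj hs
  have hK := A.pos
  -- the difference to `s`
  have hc : (k = 0 ∧ df K j s + 1 ≤ 3 * K) ∨ (k ≠ 0 ∧ 1 ≤ df K j s ∧ df K j s ≤ 3 * K) := by
    have h1 := gcell_iff.1 hc
    have e : ad K s (3 * K) = s + 3 * K ∧ s + 3 * K < 6 * K ∨ ad K s (3 * K) + 3 * K = s := by
      rw [ad_eq]
      rcases lt_or_ge (s + 3 * K) (6 * K) with h2 | h2
      · exact Or.inl ⟨Nat.mod_eq_of_lt h2, h2⟩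
      · right
        have h3 : s + 3 * K = (s - 3 * K) + 6 * K := by omega
        rw [h3, Nat.add_mod_right, Nat.mod_eq_of_lt (by omega)]
        omega
    rcases df_cases hj hs with ⟨h2, h3⟩ | ⟨h2, h3⟩ <;> rcases df_cases hj hs' with ⟨h4, h5⟩ | ⟨h4, h5⟩ <;>
      rw [h5] at h1 <;> rw [h3] <;> omega
  generalize df K j s = d at hso hlt hc
  have e0 : ra a s = a s + 3 / 2 := rfl
  have e1 : ra a (s + 1) = a (s + 1) + 3 / 2 := rfl
  rcases hc with ⟨rfl, h1⟩ | ⟨h0, h1, h1'⟩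
  · have h3 := CK.ra_le A (show s ≤ s + d by omega)
    have h4 := CK.ra_le A (show s + 1 ≤ s + d + 1 by omega)
    have h5 := CK.ra_le A (show s + d + 1 ≤ s + 3 * K by omega)
    have h6 := CK.ra_lt A (Nat.lt_succ_self (s + d))
    rw [CK.ra_half A] at h5
    obtain ⟨θ, hθ1, hθ2⟩ := exists_between (max_lt (show b + 3 / 2 < ra a (s + d + 1) by linarith [hb.2]) h6)
    have h7 : b + 3 / 2 < θ := lt_of_le_of_lt (le_max_left _ _) hθ1
    have h8 : ra a (s + d) < θ := lt_of_le_of_lt (le_max_right _ _) hθ1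
    exact Co.inn h (solid_sector h ⟨h8, hθ2⟩ hso (po_out (cos_neg_of (by linarith) (by linarith [hb.1])))) ho
  · have h3 := CK.ra_le A (show s + 1 ≤ s + d by omega)
    have h4 := CK.ra_le A (show s + d ≤ s + 3 * K by omega)
    rw [CK.ra_half A] at h4
    exact Co.inn h (co_ray h h0 hso (cos_neg_of (by linarith [hb.2]) (by linarith [hb.1]))) ho

/-- the thin facts for a partner between the ticks -/
theorem thin_between (_hs : s < 6 * K) (hb : b ∈ Ioo (a s) (a (s + 1))) (hq : q ∈ Pal U (x + dir b)) :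
    ¬ So T x a 0 s q ∧ ¬ So T x a 0 (ad K s (3 * K)) q := by
  have e0 : ra a s = a s + 3 / 2 := rfl
  have e1 : ra a (s + 1) = a (s + 1) + 3 / 2 := rfl
  have B : Tick 1 (fun n : ℕ => b + n) := ⟨one_pos, fun m n hmn => by
    have : (m : ℝ) < n := by exact_mod_cast hmn
    show b + (m : ℝ) < b + (n : ℝ)
    linarith, fun t => by
    show b + ((t + 1 : ℕ) : ℝ) = b + (t : ℝ) + 1
    push_cast; ring⟩
  have hy : x + dir b = x + dir ((fun n : ℕ => b + (n : ℝ)) 0) := by simp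
  constructor
  · intro hso
    obtain ⟨i, hi, h1⟩ := thin_one (a := fun n : ℕ => b + n) (s := 0) h hy hq
    have h2 : b + 3 / 2 ∈ DS (Sq T i) x := by
      rcases h1 with h1 | h1
      · have := cl_ray (by norm_num) h1
        unfold ra at this
        simpa using this
      · have := cl_ray (by norm_num) h1
        unfold ra at this
        simpa using this
    exact hso i hi (cl_zero.2 ⟨b + 3 / 2, ⟨by linarith [hb.1], by linarith [hb.2]⟩, h2⟩)
  · intro hso
    obtain ⟨i, hi, h1⟩ := thin_two (a := fun n : ℕ => b + n) (s := 0) B h hy hq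
    have h2 : b + 9 / 2 ∈ DS (Sq T i) x := by
      rcases h1 with h1 | h1
      · have := cl_ray (by norm_num) h1
        unfold ra at this
        simp only [Nat.zero_add, mul_one, Nat.cast_ofNat] at this
        rwa [show b + 3 + 3 / 2 = b + 9 / 2 by ring] at this
      · have := cl_ray (by norm_num) h1
        unfold ra at this
        simp only [Nat.zero_add, mul_one, Nat.cast_ofNat] at this
        rwa [show b + 3 + 3 / 2 = b + 9 / 2 by ring] at this
    refine hso i hi ((cl_opp A).2 (cl_zero.2 ⟨b + 9 / 2, ⟨?_, ?_⟩, h2⟩))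
    · rw [CK.ra_half A]; linarith [hb.1]
    · rw [show s + 3 * K + 1 = s + 1 + 3 * K by ring, CK.ra_half A]; linarith [hb.2]

end

/-- the direction of a partner: a tick or between two ticks -/
theorem exists_tick_dir (A : Tick K a) {V : ℂ} (hV : dist x V = 1) :
    ∃ s < 6 * K, V = x + dir (a s) ∨ ∃ b ∈ Ioo (a s) (a (s + 1)), V = x + dir b := by
  obtain ⟨u, hu⟩ := H892.exists_pt (z := x) (y := V) (by rw [dist_comm]; exact hV)
  set n := ⌊(u - a 0) / 6⌋ with hn
  have h1 := Int.floor_le ((u - a 0) / 6)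
  have h2 := Int.lt_floor_add_one ((u - a 0) / 6)
  rw [← hn] at h1 h2
  have e0 : ra a 0 = a 0 + 3 / 2 := rfl
  have hm : u + 3 / 2 - 6 * n ∈ Ico (ra a 0) (ra a 0 + 6) := ⟨by rw [e0]; linarith, by rw [e0]; linarith⟩
  have hV' : V = x + dir (u - 6 * n) := by
    rw [← hu]
    have := pt_int x (u - 6 * n) n
    rw [sub_add_cancel] at this
    exact this
  obtain ⟨s, -, hs, h3⟩ := CK.exists_tick A hm
  refine ⟨s, by omega, ?_⟩
  rcases h3 with h3 | h3
  · left
    rw [hV', show u - 6 * (n : ℝ) = a s by unfold ra at h3; linarith]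
  · right
    unfold ra at h3
    exact ⟨u - 6 * n, ⟨by linarith [h3.1], by linarith [h3.2]⟩, hV'⟩

/-! ### the ends of the sectors -/

/-- every direction is a limit direction of the pure points of some colour -/
theorem exists_dr (h : Irr U T) (x : ℂ) (θ : ℝ) : ∃ q, θ ∈ Dr T x q := by
  obtain ⟨q, hq⟩ := H357.exists_pure h (x := x) (θ := θ) (Z := univ) isOpen_univ
    (freq_curve (γ := fun r => (r, θ)) (((by fun_prop : Continuous fun r : ℝ => (r, θ)).tendsto 0).mono_left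
      nhdsWithin_le_nhds) (by
        filter_upwards [self_mem_nhdsWithin] with r hr
        exact ⟨trivial, hr⟩))
  refine ⟨q, ?_⟩
  rw [← ds_eq_dr h]
  exact hq.mono fun p hp => hp.1

theorem exists_acc (h : Irr U T) (x : ℂ) (l : Filter ℝ) [l.NeBot] (f : ℝ → ℝ) : ∃ q, ∃ᶠ v in l, f v ∈ Dr T x q := by
  refine H61.freq_exists (P := fun q v => f v ∈ Dr T x q) (Frequently.mono ?_ fun v hv => hv)
  exact Eventually.frequently (Eventually.of_forall fun v => exists_dr h x (f v))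

theorem sector_of_accR (h : Irr U T) (A : Tick K a) {j : ℕ} (hacc : ∃ᶠ v in 𝓝[>] (a j), v + 3 / 2 ∈ Dr T x q) :
    Cl (Sq T q) x a 0 j := by
  obtain ⟨v, h1, h2⟩ := (hacc.and_eventually (Ioo_mem_nhdsGT (A.mono (Nat.lt_succ_self j)))).exists
  rw [← ds_eq_dr h] at h1
  exact cl_zero.2 ⟨v + 3 / 2, ⟨by unfold ra; linarith [h2.1], by unfold ra; linarith [h2.2]⟩, h1⟩

theorem sector_of_accL (h : Irr U T) (A : Tick K a) {j : ℕ}
    (hacc : ∃ᶠ v in 𝓝[<] (a (j + 1)), v + 3 / 2 ∈ Dr T x q) : Cl (Sq T q) x a 0 j := by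
  obtain ⟨v, h1, h2⟩ := (hacc.and_eventually (Ioo_mem_nhdsLT (A.mono (Nat.lt_succ_self j)))).exists
  rw [← ds_eq_dr h] at h1
  exact cl_zero.2 ⟨v + 3 / 2, ⟨by unfold ra; linarith [h2.1], by unfold ra; linarith [h2.2]⟩, h1⟩

theorem z1b (h : Irr U T) (A : Tick K a) (σ : Equiv.Perm (Fin 6)) (x : ℂ) (j : ℕ) :
    ∃ q < 6, Cl (Sq T (co σ q)) x a 3 j ∧ Cl (Sq T (co σ q)) x a 0 j := by
  obtain ⟨i, hi⟩ := exists_acc h x (𝓝[>] (a j)) fun v => v + 3 / 2
  obtain ⟨q, hq, rfl⟩ := co_surj σ i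
  refine ⟨q, hq, ?_, sector_of_accR h A hi⟩
  rw [cl_pos (by norm_num)]
  exact (acc_three h hi).mono fun p hp => ⟨hp.1, zn_three.2 hp.2⟩

theorem z1a (h : Irr U T) (A : Tick K a) (σ : Equiv.Perm (Fin 6)) (x : ℂ) (j : ℕ) :
    ∃ q < 6, Cl (Sq T (co σ q)) x a 0 j ∧ Cl (Sq T (co σ q)) x a 1 (ad K j 1) := by
  obtain ⟨i, hi⟩ := exists_acc h x (𝓝[<] (a (j + 1))) fun v => v + 3 / 2
  obtain ⟨q, hq, rfl⟩ := co_surj σ i
  refine ⟨q, hq, sector_of_accL h A hi, ?_⟩
  rw [ad_eq, CK.cl_mod A, cl_pos (by norm_num)]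
  exact (acc_one h hi).mono fun p hp => ⟨hp.1, zn_one.2 hp.2⟩

theorem aro (h : Irr U T) (σ : Equiv.Perm (Fin 6)) (Y : ℕ → ℂ) (c : ℕ) (b : ℝ) :
    ∃ q < 6, AccR (shD T Y c (co σ q)) b := by
  obtain ⟨i, hi⟩ := exists_acc h (Y c) (𝓝[>] b) fun v => v + 3 / 2
  obtain ⟨q, hq, rfl⟩ := co_surj σ i
  exact ⟨q, hq, hi⟩

theorem alo (h : Irr U T) (σ : Equiv.Perm (Fin 6)) (Y : ℕ → ℂ) (c : ℕ) (b : ℝ) :
    ∃ q < 6, AccL (shD T Y c (co σ q)) b := by
  obtain ⟨i, hi⟩ := exists_acc h (Y c) (𝓝[<] b) fun v => v + 3 / 2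
  obtain ⟨q, hq, rfl⟩ := co_surj σ i
  exact ⟨q, hq, hi⟩

/-! ### the instance -/

/-- **the instance** -/
theorem mkMdP {U : Fin 6 → Set ℂ} {T : ℂ → Set (Fin 6)} (h : Irr U T) {K : ℕ} {a : ℕ → ℝ}
    (A : Tick K a) (σ : Equiv.Perm (Fin 6)) {NP NW : ℕ} {nb : ℕ → ℕ → ℕ} (hK : 6 * K ≤ 256) (hNP : NP ≤ 4096)
    (hNW : NW ≤ NP) (Y : ℕ → ℂ) (hY : Tab K a NP nb Y) {W : ℕ → Fin NW → ℕ → ℕ → ℕ → Set (Fin 6)}
    {w : ℕ → Fin NW → ℕ → ℕ → ℕ → Fin 6} (D : ∀ r, Sw U T K a (fun j : Fin NW => Y j.val) (W r) (w r))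
    {J : ℕ → ℕ → ℕ → ℕ} (hJ : JC U T K a σ NP nb Y J) (B : ℕ → ℕ → ℕ → ℕ → Prop) :
    MdP (mkMdW h A σ hK hNP hNW Y hY D hJ B) where
  part := fun {x q} hx hq hX => by
    obtain ⟨V, hV, hqV⟩ := h.partner_XX (x := Y x) hX (co σ q)
    obtain ⟨s, hs, e | ⟨b, hb, e⟩⟩ := exists_tick_dir (x := Y x) A hV
    · have hthin : (∃ r < 6, r ≠ q ∧ (Cl (Sq T (co σ r)) (Y x) a 1 s ∨ Cl (Sq T (co σ r)) (Y x) a 2 s)) ∧
          ∃ r < 6, r ≠ q ∧ (Cl (Sq T (co σ r)) (Y x) a 3 (ad K s (3 * K)) ∨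
            Cl (Sq T (co σ r)) (Y x) a 2 (ad K s (3 * K))) := by
        constructor
        · obtain ⟨i, hi, h1⟩ := thin_one h e hqV
          obtain ⟨r, hr, rfl⟩ := co_surj σ i
          exact ⟨r, hr, fun e => hi (by rw [e]), h1⟩
        · obtain ⟨i, hi, h1⟩ := thin_two A h e hqV
          obtain ⟨r, hr, rfl⟩ := co_surj σ i
          exact ⟨r, hr, fun e => hi (by rw [e]), h1.imp (cl_opp A).2 (cl_opp A).2⟩
      rcases in_or_ou (S := U (co σ q)) (c := Y x) ((freq_open h hqV).mono fun w hw => hw.1) with hio | hio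
      · refine Or.inr (Or.inl ⟨s, hs, fun k hk j hj hc => not_so (in_so h A hs e hio hk hj hc), fun hn => ?_,
          hthin.1, hthin.2⟩)
        have e2 : Y (nb x s) = V := by rw [hY x hx s hs hn, e]
        obtain ⟨k, hk, j, hj, hc, h1⟩ := in_cell A hs e hio
        refine ⟨?_, k, hk, j, hj, hc, ?_⟩
        · show co σ q ∈ Pal U (Y (nb x s))
          rw [e2]; exact hqV
        · show Cl (U (co σ q)) (Y (nb x s)) a k j
          rw [e2]; exact h1
      · refine Or.inl ⟨s, hs, fun k hk j hj hc => not_so (ou_so h A hs e hio hk hj hc), fun hn => ?_,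
          hthin.1, hthin.2⟩
        have e2 : Y (nb x s) = V := by rw [hY x hx s hs hn, e]
        obtain ⟨k, hk, j, hj, hc, h1⟩ := ou_cell h A hs e hio
        refine ⟨?_, k, hk, j, hj, hc, ?_⟩
        · show co σ q ∈ Pal U (Y (nb x s))
          rw [e2]; exact hqV
        · show Cl (U (co σ q)) (Y (nb x s)) a k j
          rw [e2]; exact h1
    · rw [e] at hqV
      obtain ⟨t1, t2⟩ := thin_between h A hs hb hqV
      rcases in_or_ou (S := U (co σ q)) (c := Y x) ((freq_open h hqV).mono fun w hw => hw.1) with hio | hio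
      · have hs' : ad K s (3 * K) < 6 * K := by rw [ad_eq]; exact Nat.mod_lt _ (by omega)
        refine Or.inr (Or.inr ⟨ad K s (3 * K), hs', fun k hk j hj hc => not_so (in_between h A hs hb hio hj hc),
          not_so t2, ?_⟩)
        have e3 : ad K (ad K s (3 * K)) (3 * K) = s := by
          rw [ad_eq, ad_eq, Nat.mod_add_mod, show s + 3 * K + 3 * K = s + 6 * K by ring, Nat.add_mod_right,
            Nat.mod_eq_of_lt hs]
        rw [e3]
        exact not_so t1
      · exact Or.inr (Or.inr ⟨s, hs, fun k hk j hj hc => not_so (ou_between h A hs hb hio hj hc), not_so t1,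
          not_so t2⟩)
  z1a := fun {x j} _ _ => z1a h A σ (Y x) j
  z1b := fun {x j} _ _ => z1b h A σ (Y x) j
  aro := fun {c m} _ _ _ => aro h σ Y c (a 0 + m)
  alo := fun {c m} _ _ _ => alo h σ Y c (a 0 + m + 1)

end Vale.Agent.P032.H993.MkW
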