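import Vale.Agent.P032.H993.MdR
import Vale.Agent.P032.H993.MkE
import Vale.Agent.P032.H254.MkWG
import Vale.Agent.P032.H660.Ray

/-!
# P032: rays of exact letters, the instance

Frame `Irr U T`, `Mn U T`.

* `wg_pos`, `wg_neg` : the wedge colours at `+90` / `-90` from the palettes of the points `H660.Wd`;
* `wg_rays` : the two wedges of an exact arc;
* `mkMdR` : the instance.
-/

open Set Filter Topology Metric

noncomputable section

namespace Vale.Agent.P032.H993.MkW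

open Vale.Agent.P032.Six Vale.Agent.P032.H892 Vale.Agent.P032.H913 Vale.Agent.P032.S5.H767 Vale.Agent.P032.H61
  Vale.Agent.P032.H357 Vale.Agent.P032.H357.MK Vale.Agent.P032.H556 Vale.Agent.P032.H515
open Vale.Agent.P032.H820.K (df ad hcell ecell fcell wcell gk gt)
open Vale.Agent.P032.H240.W (scell vcell MdW)
open Vale.Agent.P032.H254 (WG MX mx_iff mx_opp Lk)
open Vale.Agent.P032.H660 (Wd Wd_polar)

variable {U : Fin 6 → Set ℂ} {T : ℂ → Set (Fin 6)} {x : ℂ} {s ε : ℝ} {S : Set (Fin 6)}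

/-- the angle of the chord of length `ρ` -/
def ang (ρ : ℝ) : ℝ := 2 * Real.arcsin (ρ / 2)

theorem continuous_ang : Continuous ang := by
  unfold ang
  have := Real.continuous_arcsin
  fun_prop

theorem ang_zero : ang 0 = 0 := by unfold ang; simp

theorem sin_ang {ρ : ℝ} (h0 : 0 ≤ ρ) (h1 : ρ ≤ 2) : 2 * Real.sin (ang ρ / 2) = ρ := by
  unfold ang
  rw [mul_div_cancel_left₀ _ (by norm_num : (2 : ℝ) ≠ 0), Real.sin_arcsin (by linarith) (by linarith)]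
  ring

theorem ang_pos {ρ : ℝ} (h0 : 0 < ρ) : 0 < ang ρ := by
  unfold ang
  have := Real.arcsin_pos.2 (show 0 < ρ / 2 by linarith)
  linarith

/-- small chords -/
theorem ev_ang {ε : ℝ} (hε : 0 < ε) (θ : ℝ) :
    ∀ᶠ p : ℝ × ℝ in 𝓝 ((0 : ℝ), θ), |ang p.1| < ε ∧ p.1 < 2 := by
  have h1 : Continuous fun p : ℝ × ℝ => |ang p.1| := (continuous_ang.comp continuous_fst).abs
  have h2 := h1.continuousAt (x := ((0 : ℝ), θ)) |>.eventually_lt_const (show |ang ((0 : ℝ), θ).1| < ε by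
    simp only [ang_zero, abs_zero]; exact hε)
  exact h2.and (continuous_fst.continuousAt.eventually_lt_const (by norm_num))

theorem cis_sub_pi (θ : ℝ) : cis (θ - Real.pi) = -cis θ := by
  have := H660.cis_add_pi (θ - Real.pi)
  rw [sub_add_cancel] at this
  rw [this, neg_neg]

/-- the wedge at `+90` -/
theorem wg_pos (hε : 0 < ε) (h1 : ∀ α, |α - s * (Real.pi / 3)| < ε → ∀ τ, 0 < τ → τ < ε → T (Wd x α (-τ)) ⊆ S) :
    Wg T x s ⊆ S := by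
  intro q hq
  have hq : ∃ᶠ p in 𝓝 ((0 : ℝ), s + 3 / 2), p ∈ H357.PS (Sq T q) x := hq
  have h2 : ∀ᶠ p : ℝ × ℝ in 𝓝 ((0 : ℝ), s + 3 / 2),
      |p.2 * (Real.pi / 3) - Real.pi / 2 + ang p.1 / 2 - s * (Real.pi / 3)| < ε := by
    have h3 : Continuous fun p : ℝ × ℝ => |p.2 * (Real.pi / 3) - Real.pi / 2 + ang p.1 / 2 - s * (Real.pi / 3)| := by
      have := continuous_ang
      fun_prop
    refine h3.continuousAt.eventually_lt_const ?_
    simp only [ang_zero]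
    rw [show (s + 3 / 2) * (Real.pi / 3) - Real.pi / 2 + 0 / 2 - s * (Real.pi / 3) = 0 by ring, abs_zero]
    exact hε
  obtain ⟨p, hp, h3, h4, h5⟩ := (hq.and_eventually (h2.and (ev_ang hε (s + 3 / 2)))).exists
  have hp0 : 0 < p.1 := hp.1
  have hτ := ang_pos hp0
  have h6 := h1 _ h3 (ang p.1) hτ (by rwa [abs_of_pos hτ] at h4)
  rw [Wd_polar, show -ang p.1 / 2 = -(ang p.1 / 2) by ring, Real.sin_neg,
    show p.2 * (Real.pi / 3) - Real.pi / 2 + ang p.1 / 2 + -(ang p.1 / 2) - Real.pi / 2 =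
      p.2 * (Real.pi / 3) - Real.pi by ring, mul_neg, sin_ang hp0.le h5.le, cis_sub_pi] at h6
  have e : x + ((-p.1 : ℝ) : ℂ) * -cis (p.2 * (Real.pi / 3)) = po x p := by
    unfold po; push_cast; ring
  rw [e, show T (po x p) = {q} from hp.2] at h6
  exact h6 rfl

/-- the wedge at `-90` -/
theorem wg_neg (hε : 0 < ε) (h1 : ∀ α, |α - s * (Real.pi / 3)| < ε → ∀ τ, 0 < τ → τ < ε → T (Wd x α τ) ⊆ S) :
    Wg T x (s + 3) ⊆ S := by
  intro q hq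
  have hq : s - 3 / 2 ∈ DS (Sq T q) x := by
    have h2 : s + 3 + 3 / 2 ∈ DS (Sq T q) x := hq
    rw [show s + 3 + 3 / 2 = s - 3 / 2 + 6 by ring] at h2
    exact ds_six.1 h2
  have hq : ∃ᶠ p in 𝓝 ((0 : ℝ), s - 3 / 2), p ∈ H357.PS (Sq T q) x := hq
  have h2 : ∀ᶠ p : ℝ × ℝ in 𝓝 ((0 : ℝ), s - 3 / 2),
      |p.2 * (Real.pi / 3) + Real.pi / 2 - ang p.1 / 2 - s * (Real.pi / 3)| < ε := by
    have h3 : Continuous fun p : ℝ × ℝ => |p.2 * (Real.pi / 3) + Real.pi / 2 - ang p.1 / 2 - s * (Real.pi / 3)| := by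
      have := continuous_ang
      fun_prop
    refine h3.continuousAt.eventually_lt_const ?_
    simp only [ang_zero]
    rw [show (s - 3 / 2) * (Real.pi / 3) + Real.pi / 2 - 0 / 2 - s * (Real.pi / 3) = 0 by ring, abs_zero]
    exact hε
  obtain ⟨p, hp, h3, h4, h5⟩ := (hq.and_eventually (h2.and (ev_ang hε (s - 3 / 2)))).exists
  have hp0 : 0 < p.1 := hp.1
  have hτ := ang_pos hp0
  have h6 := h1 _ h3 (ang p.1) hτ (by rwa [abs_of_pos hτ] at h4)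
  rw [Wd_polar, show p.2 * (Real.pi / 3) + Real.pi / 2 - ang p.1 / 2 + ang p.1 / 2 - Real.pi / 2 =
      p.2 * (Real.pi / 3) by ring, sin_ang hp0.le h5.le] at h6
  have e : x + ((p.1 : ℝ) : ℂ) * cis (p.2 * (Real.pi / 3)) = po x p := rfl
  rw [e, show T (po x p) = {q} from hp.2] at h6
  exact h6 rfl

/-- **the two wedges of an exact arc** -/
theorem wg_rays (h : Irr U T) (hm : Mn U T) {P Q : Set (Fin 6)} {i j q : Fin 6} (I : IP U T x s P Q)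
    (hPQ : P ∪ Q = {i, j}) (hi : i ∈ T x) (hj : j ∈ T x) (hq : q ∈ T x) (hqi : q ≠ i) (hqj : q ≠ j)
    (h4 : 4 ≤ (T x).ncard) (hex : ∀ r ∈ T x, r ≠ i → r ≠ j → r ≠ q → ∃ y, dist y x = 1 ∧ T y = {q, r}) :
    (Wg T x s ⊆ {q} ∧ q ∉ Wg T x (s + 3)) ∨ (Wg T x (s + 3) ⊆ {q} ∧ q ∉ Wg T x s) := by
  have harc : ∀ᶠ y in 𝓝[sphere x 1] (x + cis (s * (Real.pi / 3))), T y = {i, j} := by
    have h1 := I.arc
    filter_upwards [h1] with y hy
    rw [hy, I.union h, hPQ]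
  have hmin : ∀ z, 4 ≤ (T z).ncard → ∀ s, s ⊆ T z → s ≠ T z →
      ¬ ∀ᶠ w in 𝓝 z, ∃ i ∈ s, w ∈ U i ∨ (w ∈ XX U ∧ i ∈ Pal U w) := hm
  obtain ⟨ε, hε, h1⟩ := H660.rays h hmin h4 hi hj hq hqi hqj hex harc
  rcases h1 with ⟨h1, h2⟩ | ⟨h1, h2⟩
  · right
    refine ⟨wg_neg hε fun α hα τ h0 hτ => (h1 α hα τ h0 hτ).subset, fun h3 => ?_⟩
    exact (wg_pos hε h2 h3).2 (Or.inr (Or.inr rfl))
  · left
    refine ⟨wg_pos hε fun α hα τ h0 hτ => (h2 α hα τ h0 hτ).subset, fun h3 => ?_⟩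
    exact (wg_neg hε h1 h3).2 (Or.inr (Or.inr rfl))

/-- **the instance** -/
theorem mkMdR {U : Fin 6 → Set ℂ} {T : ℂ → Set (Fin 6)} (h : Irr U T) (hm : Mn U T) {K : ℕ} {a : ℕ → ℝ}
    (A : Tick K a) {σ : Equiv.Perm (Fin 6)} {NP NW : ℕ} {nb : ℕ → ℕ → ℕ} {Y : ℕ → ℂ}
    {W : ℕ → Fin NW → ℕ → ℕ → ℕ → Set (Fin 6)} {Mw : ℕ → Fin NW → ℕ → ℕ → Set (Fin 6)}
    (D : ∀ r, Wm U T K a (fun j : Fin NW => Y j) (W r) (Mw r)) {M : MdW K NP NW nb}
    (L : Lk U T K a σ NP NW nb Y W M) {G : WG M} (hG : G.MW = MX σ K Mw)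
    (hB : ∀ x i j, M.B x i 4 j ↔ Eg T (Y x) (co σ i) (co σ j)) : MdR G where
  ray := fun {x t sd i j q} hx ht hsd hi hj hq hij hqi hqj hLi hLj hno hTi hTj hTq hTr hpair => by
    have lu : ∀ {r : ℕ}, M.LU x t sd r ↔ co σ r ∈ W (t % K) ⟨x, hx⟩ t sd 0 ∪ W (t % K) ⟨x, hx⟩ t sd 1 := by
      intro r
      unfold MdW.LU
      rw [L.lt, L.lt, lw_iff hx, lw_iff hx]; rfl
    obtain ⟨τ, hI, hW⟩ := (D (t % K)).at_some sd
    have I := hI (⟨x, hx⟩, t)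
    have w1 := hW (⟨x, hx⟩, t)
    have w2 := hW (⟨x, hx⟩, t + 3 * K)
    simp only at I w1 w2
    rw [CK.a_half A, show a t + 3 + τ = a t + τ + 3 by ring] at w2
    have hPQ : W (t % K) ⟨x, hx⟩ t sd 0 ∪ W (t % K) ⟨x, hx⟩ t sd 1 = {co σ i, co σ j} := by
      refine Subset.antisymm (sub_of_num fun r hr hri hrj hm => hno r hr hri hrj (lu.2 hm)) ?_
      rintro m (rfl | rfl)
      · exact lu.1 hLi
      · exact lu.1 hLj
    have h4 : 4 ≤ (T (Y x)).ncard := by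
      obtain ⟨r, hr, hri, hrj, hrq, hTr'⟩ := hTr
      exact card_of_four (σ := σ) hij (Ne.symm hqi) (Ne.symm hri) (Ne.symm hqj) (Ne.symm hrj) (Ne.symm hrq) hi hj hq hr
        (L.t.1 hTi) (L.t.1 hTj) (L.t.1 hTq) (L.t.1 hTr')
    have key := wg_rays h hm I hPQ (L.t.1 hTi) (L.t.1 hTj) (L.t.1 hTq)
      (fun e => hqi (co_inj σ hq hi e)) (fun e => hqj (co_inj σ hq hj e)) h4 (fun m hm hmi hmj hmq => by
        obtain ⟨r, hr, rfl⟩ := co_surj σ m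
        obtain ⟨-, y, hy, hT⟩ := (hB x q r).1 (hpair r hr (fun e => hmi (by rw [e])) (fun e => hmj (by rw [e]))
          (fun e => hmq (by rw [e])) (L.t.2 hm))
        exact ⟨y, hy, hT⟩)
    have g1 : ∀ {r : ℕ}, G.MW x t sd r ↔ co σ r ∈ Wg T (Y x) (a t + τ) := by
      intro r
      rw [hG, mx_iff hx, w1]
    have g2 : ∀ {r : ℕ}, G.MW x (ad K t (3 * K)) sd r ↔ co σ r ∈ Wg T (Y x) (a t + τ + 3) := by
      intro r
      rw [hG, mx_opp hx D, w2]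
    rcases key with ⟨k1, k2⟩ | ⟨k1, k2⟩
    · exact Or.inl ⟨fun r hr hrq hm => hrq (co_inj σ hr hq (k1 (g1.1 hm))), fun hm => k2 (g2.1 hm)⟩
    · exact Or.inr ⟨fun r hr hrq hm => hrq (co_inj σ hr hq (k1 (g2.1 hm))), fun hm => k2 (g1.1 hm)⟩

end Vale.Agent.P032.H993.MkW
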