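import Vale.Agent.P032.H993.MdT
import Vale.Agent.P032.H993.MkE

/-!
# P032: type clauses at two-pair centres, the wild instance

`TypG T` : at most four colours everywhere, and the global type clauses at the two-pair centres (`DPt`).
`mkMdT` : then `MdT` holds for the model `mkMdW`.
-/

open Set Filter Topology Metric

noncomputable section

namespace Vale.Agent.P032.H993.MkW

open Vale.Agent.P032.Six Vale.Agent.P032.H892 Vale.Agent.P032.H913 Vale.Agent.P032.S5.H767 Vale.Agent.P032.H61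
  Vale.Agent.P032.H357 Vale.Agent.P032.H357.MK Vale.Agent.P032.H556 Vale.Agent.P032.H515
open Vale.Agent.P032.H820.K (df ad hcell ecell fcell wcell gk gt)
open Vale.Agent.P032.H240.W (scell vcell MdW)

/-- type clauses of the covering -/
structure TypG (T : ℂ → Set (Fin 6)) : Prop where
  max4 : ∀ z, (T z).ncard ≤ 4
  adj : ∀ z a b c d, DPt T z a b c d → ∀ y y', dist y z = 1 → dist y' z = 1 → dist y y' = 1 →
    (T z)ᶜ ⊆ T y → (T z)ᶜ ⊆ T y' → (T y).ncard ≤ 3

section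
variable {U : Fin 6 → Set ℂ} {T : ℂ → Set (Fin 6)} {z : ℂ}

theorem four_eq {S : Set (Fin 6)} (h4 : S.ncard ≤ 4) {a b c d : Fin 6} (ac : a ≠ c) (ad : a ≠ d) (bc : b ≠ c)
    (bd : b ≠ d) (ab : a ≠ b) (cd : c ≠ d) (ha : a ∈ S) (hb : b ∈ S) (hc : c ∈ S) (hd : d ∈ S) :
    S = {a, b, c, d} := by
  have h1 : ({a, b, c, d} : Set (Fin 6)) ⊆ S := by
    rintro m (rfl | rfl | rfl | rfl) <;> assumption
  have h2 : ({a, b, c, d} : Set (Fin 6)).ncard = 4 := by
    rw [Set.ncard_insert_of_notMem, Set.ncard_insert_of_notMem, Set.ncard_pair cd]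
    · simp only [mem_insert_iff, mem_singleton_iff, not_or]
      exact ⟨bc, bd⟩
    · simp only [mem_insert_iff, mem_singleton_iff, not_or]
      exact ⟨ab, ac, ad⟩
  exact (Set.eq_of_subset_of_ncard_le h1 (by omega) (Set.toFinite _)).symm

/-- the two graphs at a centre with four colours give a two-pair centre -/
theorem dpt_of (h : Irr U T) (h4 : (T z).ncard ≤ 4) {a b c d : Fin 6} (ac : a ≠ c) (ad : a ≠ d) (bc : b ≠ c)
    (bd : b ≠ d) (ha : a ∈ T z) (hb : b ∈ T z) (hc : c ∈ T z) (hd : d ∈ T z) (e1 : Eg T z a b) (e2 : Eg T z c d) :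
    DPt T z a b c d := by
  have key : ∀ {i j : Fin 6}, i ∈ T z → j ∈ T z → Eg T z i j → ∃ p, Arc T z p {i, j} := by
    rintro i j hi hj ⟨hij, y, hy, hT⟩
    obtain ⟨p, -, hp, hpc, hps, hp2, -⟩ := h.arc_of_sub (x := z) (y := y) hy (by
      rw [hT]
      rintro m (rfl | rfl)
      exacts [hi, hj]) Filter.univ_mem
    have hTp : T p = {i, j} := by
      refine Set.eq_of_subset_of_ncard_le (hps.trans hT.subset) ?_ (Set.toFinite _)
      rw [Set.ncard_pair hij]; exact hp2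
    exact ⟨p, hp, hpc.mono fun q hq => hq.trans hTp⟩
  exact ⟨four_eq h4 ac ad bc bd e1.1 e2.1 ha hb hc hd, ac, ad, bc, bd, e1.1, e2.1, key ha hb e1, key hc hd e2⟩

/-- the complement of four colours inside -/
theorem compl_sub {S P : Set (Fin 6)} {m n : Fin 6} (h4 : S.ncard = 4) (hmn : m ≠ n) (hm : m ∉ S) (hn : n ∉ S)
    (hmP : m ∈ P) (hnP : n ∈ P) : Sᶜ ⊆ P := by
  have h1 : ({m, n} : Set (Fin 6)) ⊆ Sᶜ := by
    rintro i (rfl | rfl) <;> assumption
  have h2 := Set.ncard_add_ncard_compl S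
  rw [Nat.card_eq_fintype_card, Fintype.card_fin] at h2
  have h3 : ({m, n} : Set (Fin 6)) = Sᶜ := by
    refine Set.eq_of_subset_of_ncard_le h1 ?_ (Set.toFinite _)
    rw [Set.ncard_pair hmn]; omega
  rw [← h3]
  rintro i (rfl | rfl) <;> assumption

theorem card_four {a b c d : Fin 6} (D : DPt T z a b c d) : (T z).ncard = 4 := by
  rw [D.pal, Set.ncard_insert_of_notMem, Set.ncard_insert_of_notMem, Set.ncard_pair D.cd]
  · simp only [mem_insert_iff, mem_singleton_iff, not_or]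
    exact ⟨D.bc, D.bd⟩
  · simp only [mem_insert_iff, mem_singleton_iff, not_or]
    exact ⟨D.ab, D.ac, D.ad⟩

/-- **NBC** -/
theorem nbc (G : TypG T) {a b c d : Fin 6} (D : DPt T z a b c d) {y y' : ℂ} (hy : dist y z = 1)
    (hy' : dist y' z = 1) (hyy : dist y y' = 1) {m n : Fin 6} (hmn : m ≠ n) (hm : m ∉ T z) (hn : n ∉ T z)
    (hmy : m ∈ T y) (hny : n ∈ T y) (h4 : 4 ≤ (T y).ncard) (hmy' : m ∈ T y') : n ∉ T y' := fun hny' => by
  have h1 := G.adj z a b c d D y y' hy hy' hyy (compl_sub (card_four D) hmn hm hn hmy hny)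
    (compl_sub (card_four D) hmn hm hn hmy' hny')
  omega

end

/-- distance of two ticks at 60 degrees -/
theorem dist_sixty {K : ℕ} {a : ℕ → ℝ} (A : Tick K a) (t : ℕ) : dist (dir (a t)) (dir (a (ad K t K))) = 1 := by
  rw [show ad K t K = (t + K) % (6 * K) from rfl, A.dir_mod, A.per, dist_eq_norm,
    show dir (a t) - dir (a t + 1) = -(dir (a t + 1) - dir (a t)) by ring, norm_neg]
  have e : dir (a t + 1) - dir (a t) = dir (a t + 2) := by
    unfold dir
    have e1 : (a t + 2) * (Real.pi / 3) = (a t + 1) * (Real.pi / 3) + Real.pi / 3 := by ring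
    have e2 : a t * (Real.pi / 3) = (a t + 1) * (Real.pi / 3) - Real.pi / 3 := by ring
    rw [e1, e2]
    apply Complex.ext
    · simp only [Complex.sub_re, cis_re, Real.cos_add, Real.cos_sub, Real.cos_pi_div_three]; ring
    · simp only [Complex.sub_im, cis_im, Real.sin_add, Real.sin_sub, Real.cos_pi_div_three]; ring
  rw [e]; exact norm_dir _

theorem ad_five {K t : ℕ} (hK : 0 < K) (ht : t < 6 * K) : ad K (ad K t (5 * K)) K = t := by
  show ((t + 5 * K) % (6 * K) + K) % (6 * K) = t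
  rcases lt_or_ge (t + 5 * K) (6 * K) with h1 | h1
  · rw [Nat.mod_eq_of_lt h1, show t + 5 * K + K = t + 6 * K by ring, Nat.add_mod_right, Nat.mod_eq_of_lt ht]
  · rw [Nat.mod_eq_sub_mod h1, Nat.mod_eq_of_lt (show t + 5 * K - 6 * K < 6 * K by omega),
      show t + 5 * K - 6 * K + K = t by omega, Nat.mod_eq_of_lt ht]

/-- **the instance** -/
theorem mkMdT {U : Fin 6 → Set ℂ} {T : ℂ → Set (Fin 6)} (h : Irr U T) (G : TypG T) {K : ℕ} {a : ℕ → ℝ}
    (A : Tick K a) (σ : Equiv.Perm (Fin 6)) {NP NW : ℕ} {nb : ℕ → ℕ → ℕ} (hK : 6 * K ≤ 256) (hNP : NP ≤ 4096)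
    (hNW : NW ≤ NP) (Y : ℕ → ℂ) (hY : Tab K a NP nb Y) {W : ℕ → Fin NW → ℕ → ℕ → ℕ → Set (Fin 6)}
    {w : ℕ → Fin NW → ℕ → ℕ → ℕ → Fin 6} (D : ∀ r, Sw U T K a (fun j : Fin NW => Y j.val) (W r) (w r))
    {J : ℕ → ℕ → ℕ → ℕ} (hJ : JC U T K a σ NP nb Y J) {B : ℕ → ℕ → ℕ → ℕ → Prop}
    (hB : ∀ x i j, B x i 4 j ↔ Eg T (Y x) (co σ i) (co σ j)) :
    MdT (mkMdW h A σ hK hNP hNW Y hY D hJ B) := by
  have key : ∀ {x a' b' c' d' : ℕ}, TP (mkMdW h A σ hK hNP hNW Y hY D hJ B) x a' b' c' d' →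
      DPt T (Y x) (co σ a') (co σ b') (co σ c') (co σ d') := fun H => by
    have ne : ∀ {i j : ℕ}, i < 6 → j < 6 → i ≠ j → co σ i ≠ co σ j := fun hi hj hij e => hij (co_inj σ hi hj e)
    exact dpt_of h (G.max4 _) (ne H.a6 H.c6 H.ac) (ne H.a6 H.d6 H.ad) (ne H.b6 H.c6 H.bc) (ne H.b6 H.d6 H.bd)
      H.ta H.tb H.tc H.td ((hB _ _ _).1 H.e1) ((hB _ _ _).1 H.e2)
  have hd : ∀ {x t : ℕ}, x < NP → t < 6 * K → nb x t < NP → dist (Y (nb x t)) (Y x) = 1 := fun hx ht hn => by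
    rw [dist_comm]; exact hY.dist hx ht hn
  have h60 : ∀ {x t : ℕ}, x < NP → t < 6 * K → nb x t < NP → nb x (ad K t K) < NP →
      dist (Y (nb x t)) (Y (nb x (ad K t K))) = 1 := fun {x t} hx ht hn hn' => by
    have h1 : ad K t K < 6 * K := Nat.mod_lt _ (show 0 < 6 * K by omega)
    rw [hY x hx t ht hn, hY x hx _ h1 hn', dist_add_left]
    exact dist_sixty A t
  refine ⟨fun {x} S _ hS hT => ?_, ?_, ?_⟩
  · have h1 := G.max4 (Y x)
    have h2 := card_of_num (σ := σ) S hT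
    omega
  · intro x t a' b' c' d' m n S hx ht hn hn' H hm hn6 hmn hTm hTn hTm' hTn' hS hST hTm2
    have h1 : ad K t K < 6 * K := Nat.mod_lt _ (show 0 < 6 * K by omega)
    exact nbc G (key H) (hd hx ht hn) (hd hx h1 hn') (h60 hx ht hn hn') (fun e => hmn (co_inj σ hm hn6 e)) hTm hTn
      hTm' hTn' (hS.trans (card_of_num S hST)) hTm2
  · intro x t a' b' c' d' m n S hx ht hn hn' H hm hn6 hmn hTm hTn hTm' hTn' hS hST hTm2
    have h1 : ad K t (5 * K) < 6 * K := Nat.mod_lt _ (show 0 < 6 * K by omega)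
    have e := ad_five (by omega) ht
    have h2 : dist (Y (nb x t)) (Y (nb x (ad K t (5 * K)))) = 1 := by
      have h3 := h60 hx h1 hn' (by rw [e]; exact hn)
      rw [e] at h3
      rw [dist_comm]; exact h3
    exact nbc G (key H) (hd hx ht hn) (hd hx h1 hn') h2 (fun e => hmn (co_inj σ hm hn6 e)) hTm hTn
      hTm' hTn' (hS.trans (card_of_num S hST)) hTm2

end Vale.Agent.P032.H993.MkW
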