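import Vale.Agent.P032.H556.Wp3
import Vale.Agent.P032.H357.MdK

/-!
# P032: the wild instance, part 1: cells and pairs

Frame `Irr U T` only.  Points `Y x`, `x < NP`, with the table `nb` (`Y (nb x t) = Y x + dir (a t)`), `K` classes of
directions `a`, colours numbered by the permutation `σ`.  Index form of the clauses of the wild machine:

* `sol1`, `sol2`, `sol3`, `sol4` : a cell of one colour at `x` is a source against the neighbour `nb x s`,
* `thin1`, `thin2` : the two branches of the circle about the neighbour,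
* `w2` : `T (nb x s) ⊆ T x` implies `4 ≤ |T x|`.
-/

open Set Filter Topology Metric

noncomputable section

namespace Vale.Agent.P032.H993.MkW

open Vale.Agent.P032.Six Vale.Agent.P032.H892 Vale.Agent.P032.H913 Vale.Agent.P032.S5.H767 Vale.Agent.P032.H61
  Vale.Agent.P032.H357 Vale.Agent.P032.H357.MK Vale.Agent.P032.H556
open Vale.Agent.P032.H820.K (df ad hcell ecell fcell wcell gk gt)

variable {U : Fin 6 → Set ℂ} {T : ℂ → Set (Fin 6)} {K : ℕ} {a : ℕ → ℝ} {σ : Equiv.Perm (Fin 6)} {NP NW : ℕ}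
  {nb : ℕ → ℕ → ℕ} {Y : ℕ → ℂ}

/-- the table of the neighbours is right -/
def Tab (K : ℕ) (a : ℕ → ℝ) (NP : ℕ) (nb : ℕ → ℕ → ℕ) (Y : ℕ → ℂ) : Prop :=
  ∀ x < NP, ∀ t < 6 * K, nb x t < NP → Y (nb x t) = Y x + dir (a t)

theorem Tab.dist (hY : Tab K a NP nb Y) {x t : ℕ} (hx : x < NP) (ht : t < 6 * K) (hn : nb x t < NP) :
    dist (Y x) (Y (nb x t)) = 1 := by
  rw [hY x hx t ht hn, dist_eq_norm, sub_add_cancel_left, norm_neg, norm_dir]

/-- a cell which is not of one colour `q` -/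
theorem not_so {x : ℂ} {k j q : ℕ} (hn : ¬ So T x a k j (co σ q)) :
    ∃ r < 6, r ≠ q ∧ Cl (Sq T (co σ r)) x a k j := by
  unfold So at hn
  push Not at hn
  obtain ⟨i, hi, h1⟩ := hn
  obtain ⟨r, hr, rfl⟩ := co_surj σ i
  exact ⟨r, hr, fun e => hi (by rw [e]), h1⟩

section
variable (h : Irr U T) (A : Tick K a) (hY : Tab K a NP nb Y) {x s k j q : ℕ}
include h A hY

/-- solid cells inside: the inner half at the neighbour -/
theorem sol1 (hx : x < NP) (hs : s < 6 * K) (hj : j < 6 * K) (hk : k < 4) (hn : nb x s < NP)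
    (hc : hcell K k j s = true) (hp : HI (U (co σ q)) (Y (nb x s)) a s) :
    ∃ r < 6, r ≠ q ∧ Cl (Sq T (co σ r)) (Y x) a k j := by
  refine not_so fun hso => ?_
  have hso' : So T (Y x) a k (s + df K j s) (co σ q) := fun r hr hcl => hso r hr ((cl_df A hj hs).1 hcl)
  have c := ci_cell A h (by omega) (df_lt hj hs) (hcell_iff.1 hc) hso'
  rw [← hY x hx s hs hn] at c
  exact (c.kill h (hY x hx s hs hn)).1 hp

/-- solid cells inside: the outer zone of the ray `s` at the neighbour -/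
theorem sol2 (hx : x < NP) (hs : s < 6 * K) (hj : j < 6 * K) (hk : k < 4) (hn : nb x s < NP)
    (hc : hcell K k j s = true) (hp : Cl (U (co σ q)) (Y (nb x s)) a 2 s) :
    ∃ r < 6, r ≠ q ∧ Cl (Sq T (co σ r)) (Y x) a k j := by
  refine not_so fun hso => ?_
  have hso' : So T (Y x) a k (s + df K j s) (co σ q) := fun r hr hcl => hso r hr ((cl_df A hj hs).1 hcl)
  have c := ci_cell A h (by omega) (df_lt hj hs) (hcell_iff.1 hc) hso'
  rw [← hY x hx s hs hn] at c
  exact (c.kill h (hY x hx s hs hn)).2 hp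

/-- solid cells inside: the outer zone of the opposite ray at the neighbour -/
theorem sol3 (hx : x < NP) (hs : s < 6 * K) (hj : j < 6 * K) (hk : k < 4) (hn : nb x s < NP)
    (hc : hcell K k j s = true) (hp : Cl (U (co σ q)) (Y (nb x s)) a 2 (ad K s (3 * K))) :
    ∃ r < 6, r ≠ q ∧ Cl (Sq T (co σ r)) (Y x) a k j := by
  refine not_so fun hso => ?_
  have hso' : So T (Y x) a k (s + df K j s) (co σ q) := fun r hr hcl => hso r hr ((cl_df A hj hs).1 hcl)
  have c := ci_cell A h (by omega) (df_lt hj hs) (hcell_iff.1 hc) hso'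
  rw [← hY x hx s hs hn] at c
  exact (c.kill' A h (hY x hx s hs hn)) ((cl_opp A).1 hp)

/-- solid cells outside: the outer half at the neighbour -/
theorem sol4 (hx : x < NP) (hs : s < 6 * K) (hj : j < 6 * K) (hk : k < 4) (hn : nb x s < NP)
    (hc : hcell K k j s = false) (hp : HI (U (co σ q)) (Y (nb x s)) a (ad K s (3 * K))) :
    ∃ r < 6, r ≠ q ∧ Cl (Sq T (co σ r)) (Y x) a k j := by
  refine not_so fun hso => ?_
  have hso' : So T (Y x) a k (s + df K j s) (co σ q) := fun r hr hcl => hso r hr ((cl_df A hj hs).1 hcl)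
  have hout : ¬ InC K k (df K j s) := fun h1 => by
    rw [hcell_iff.2 h1] at hc; cases hc
  have c := co_cell A h (by omega) (df_lt hj hs) hout hso'
  rw [← hY x hx s hs hn] at c
  exact (c.kill A h (hY x hx s hs hn)) ((hi_opp A).1 hp)

/-- a cell of one colour inside and a cell of one colour outside: the colour is not at the neighbour -/
theorem sol5 {k' j' : ℕ} (hx : x < NP) (hs : s < 6 * K) (hj : j < 6 * K) (hk : k < 4) (hj' : j' < 6 * K)
    (hk' : k' < 4) (hn : nb x s < NP) (hc : hcell K k j s = true) (hc' : hcell K k' j' s = false)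
    (hp : co σ q ∈ Pal U (Y (nb x s))) :
    (∃ r < 6, r ≠ q ∧ Cl (Sq T (co σ r)) (Y x) a k j) ∨ ∃ r < 6, r ≠ q ∧ Cl (Sq T (co σ r)) (Y x) a k' j' := by
  by_contra hcon
  push Not at hcon
  have h1 : So T (Y x) a k j (co σ q) := by
    by_contra h2
    obtain ⟨r, hr, hrq, h3⟩ := not_so h2
    exact hcon.1 r hr hrq h3
  have h2 : So T (Y x) a k' j' (co σ q) := by
    by_contra h2
    obtain ⟨r, hr, hrq, h3⟩ := not_so h2
    exact hcon.2 r hr hrq h3
  have h1' : So T (Y x) a k (s + df K j s) (co σ q) := fun r hr hcl => h1 r hr ((cl_df A hj hs).1 hcl)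
  have h2' : So T (Y x) a k' (s + df K j' s) (co σ q) := fun r hr hcl => h2 r hr ((cl_df A hj' hs).1 hcl)
  have c := ci_cell A h (by omega) (df_lt hj hs) (hcell_iff.1 hc) h1'
  have hout : ¬ InC K k' (df K j' s) := fun h1 => by
    rw [hcell_iff.2 h1] at hc'; cases hc'
  have c' := co_cell A h (by omega) (df_lt hj' hs) hout h2'
  rw [← hY x hx s hs hn] at c c'
  exact c.co h c' hp

omit A in
/-- the branch of the circle about the neighbour at the ray `s` -/
theorem thin1 (hx : x < NP) (hs : s < 6 * K) (hn : nb x s < NP) (hq : co σ q ∈ Pal U (Y (nb x s))) :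
    ∃ r < 6, r ≠ q ∧ (Cl (Sq T (co σ r)) (Y x) a 1 s ∨ Cl (Sq T (co σ r)) (Y x) a 2 s) := by
  obtain ⟨i, hi, h1⟩ := thin_one h (hY x hx s hs hn) hq
  obtain ⟨r, hr, rfl⟩ := co_surj σ i
  exact ⟨r, hr, fun e => hi (by rw [e]), h1⟩

/-- the branch of the circle about the neighbour at the opposite ray -/
theorem thin2 (hx : x < NP) (hs : s < 6 * K) (hn : nb x s < NP) (hq : co σ q ∈ Pal U (Y (nb x s))) :
    ∃ r < 6, r ≠ q ∧ (Cl (Sq T (co σ r)) (Y x) a 3 (ad K s (3 * K)) ∨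
      Cl (Sq T (co σ r)) (Y x) a 2 (ad K s (3 * K))) := by
  obtain ⟨i, hi, h1⟩ := thin_two A h (hY x hx s hs hn) hq
  obtain ⟨r, hr, rfl⟩ := co_surj σ i
  refine ⟨r, hr, fun e => hi (by rw [e]), h1.imp (cl_opp A).2 (cl_opp A).2⟩

omit A in
/-- **W2** -/
theorem w2 (hx : x < NP) (hs : s < 6 * K) (hn : nb x s < NP)
    (hsub : ∀ q < 6, co σ q ∈ T (Y (nb x s)) → co σ q ∈ T (Y x)) : 4 ≤ (T (Y x)).ncard := by
  by_contra hcon
  have hd : dist (Y (nb x s)) (Y x) = 1 := by rw [dist_comm]; exact hY.dist hx hs hn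
  obtain ⟨c, hc, hc'⟩ := h.not_sub' hd (by omega)
  obtain ⟨r, hr, rfl⟩ := co_surj σ c
  exact hc' (hsub r hr hc)

omit A in
/-- unit pairs with a common colour are in `XX` -/
theorem xxp' (hx : x < NP) (hs : s < 6 * K) (hn : nb x s < NP) (hq : co σ q ∈ T (Y x))
    (hq' : co σ q ∈ Pal U (Y (nb x s))) : Y x ∈ XX U := by
  exact xxp h (y := Y (nb x s)) (hY.dist hx hs hn) hq hq'

end

/-! ### numbers of colours -/

/-- the set of numbers of the colours in `S` -/
def nums (σ : Equiv.Perm (Fin 6)) (S : Set (Fin 6)) : Set ℕ := {q | q < 6 ∧ co σ q ∈ S}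

theorem ncard_nums (S : Set (Fin 6)) : (nums σ S).ncard = S.ncard := by
  have h1 : co σ '' nums σ S = S := by
    ext i
    constructor
    · rintro ⟨q, hq, rfl⟩; exact hq.2
    · intro hi
      obtain ⟨q, hq, rfl⟩ := co_surj σ i
      exact ⟨q, ⟨hq, hi⟩, rfl⟩
  conv_rhs => rw [← h1]
  refine (Set.InjOn.ncard_image ?_).symm
  intro p hp q hq e
  exact co_inj σ hp.1 hq.1 e

theorem nums_finite (S : Set (Fin 6)) : (nums σ S).Finite :=
  (Set.finite_lt_nat 6).subset fun _ hq => hq.1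

/-- at least four colours, as four numbers -/
theorem four_of_card {S : Set (Fin 6)} (h4 : 4 ≤ S.ncard) :
    ∃ p0 p1 p2 p3 : ℕ, p0 < p1 ∧ p1 < p2 ∧ p2 < p3 ∧ p3 < 6 ∧ co σ p0 ∈ S ∧ co σ p1 ∈ S ∧ co σ p2 ∈ S ∧
      co σ p3 ∈ S := by
  classical
  rw [← ncard_nums (σ := σ), Set.ncard_eq_toFinset_card _ (nums_finite S)] at h4
  set F := (nums_finite (σ := σ) S).toFinset with hF
  have hmem : ∀ q, q ∈ F ↔ q < 6 ∧ co σ q ∈ S := fun q => by rw [hF, Set.Finite.mem_toFinset]; rfl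
  obtain ⟨G, hGF, hG⟩ := Finset.exists_subset_card_eq h4
  refine ⟨G.orderEmbOfFin hG 0, G.orderEmbOfFin hG 1, G.orderEmbOfFin hG 2, G.orderEmbOfFin hG 3, ?_, ?_, ?_, ?_,
    ?_, ?_, ?_, ?_⟩
  · exact (G.orderEmbOfFin hG).strictMono (by decide)
  · exact (G.orderEmbOfFin hG).strictMono (by decide)
  · exact (G.orderEmbOfFin hG).strictMono (by decide)
  · exact ((hmem _).1 (hGF (G.orderEmbOfFin_mem hG 3))).1
  · exact ((hmem _).1 (hGF (G.orderEmbOfFin_mem hG 0))).2
  · exact ((hmem _).1 (hGF (G.orderEmbOfFin_mem hG 1))).2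
  · exact ((hmem _).1 (hGF (G.orderEmbOfFin_mem hG 2))).2
  · exact ((hmem _).1 (hGF (G.orderEmbOfFin_mem hG 3))).2

/-- `S` has at most three colours if it misses ... : the other direction, four different numbers -/
theorem card_of_four {S : Set (Fin 6)} {p0 p1 p2 p3 : ℕ} (h01 : p0 ≠ p1) (h02 : p0 ≠ p2) (h03 : p0 ≠ p3)
    (h12 : p1 ≠ p2) (h13 : p1 ≠ p3) (h23 : p2 ≠ p3) (b0 : p0 < 6) (b1 : p1 < 6) (b2 : p2 < 6) (b3 : p3 < 6)
    (m0 : co σ p0 ∈ S) (m1 : co σ p1 ∈ S) (m2 : co σ p2 ∈ S) (m3 : co σ p3 ∈ S) : 4 ≤ S.ncard := by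
  classical
  rw [← ncard_nums (σ := σ)]
  have hsub : (({p0, p1, p2, p3} : Finset ℕ) : Set ℕ) ⊆ nums σ S := by
    intro q hq
    simp only [Finset.coe_insert, Finset.coe_singleton, Set.mem_insert_iff, Set.mem_singleton_iff] at hq
    rcases hq with rfl | rfl | rfl | rfl
    · exact ⟨b0, m0⟩
    · exact ⟨b1, m1⟩
    · exact ⟨b2, m2⟩
    · exact ⟨b3, m3⟩
  have h1 := Set.ncard_le_ncard hsub (nums_finite S)
  rw [Set.ncard_coe_finset] at h1
  refine le_trans ?_ h1
  rw [Finset.card_insert_of_notMem (by simp [h01, h02, h03]), Finset.card_insert_of_notMem (by simp [h12, h13]),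
    Finset.card_insert_of_notMem (by simp [h23]), Finset.card_singleton]

/-- two different numbers in a set with at least two elements -/
theorem two_of_card {S : Set (Fin 6)} (h2 : 2 ≤ S.ncard) :
    ∃ p q : ℕ, p < q ∧ q < 6 ∧ co σ p ∈ S ∧ co σ q ∈ S := by
  classical
  obtain ⟨i, hi, j, hj, hne⟩ := (Set.one_lt_ncard (Set.toFinite S)).1 (by omega : 1 < S.ncard)
  obtain ⟨p, hp, rfl⟩ := co_surj σ i
  obtain ⟨q, hq, rfl⟩ := co_surj σ j
  rcases lt_trichotomy p q with h3 | h3 | h3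
  · exact ⟨p, q, h3, hq, hi, hj⟩
  · exact absurd (by rw [h3]) hne
  · exact ⟨q, p, h3, hp, hj, hi⟩

end Vale.Agent.P032.H993.MkW
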