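import Vale.Agent.P032.H993.MkL
import Vale.Agent.P032.H515.Letters
import Vale.Agent.P032.H240.W.MdW
import Vale.Agent.P032.H892.Facts

/-!
# P032: the wild instance, part 3: the model `MdW` from the frame `Irr U T`

* `tick_eq`, `tick_opp` : directions and ticks,
* `lx`, `lb`, `w1`, `w2s` : lemma X, lemma B, W1, W2 in index form,
* `lsol` (`scell`), `lhalf` (`vcell`) : cells of one colour against the letters, one coloured letters against the cells,
* `JC`, `exists_J` : joint colourings for all cells,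
* `ar_three`, `al_one` : one sided accumulation,
* `mkMdW` : the model.
-/

open Set Filter Topology Metric

noncomputable section

namespace Vale.Agent.P032.H993.MkW

open Vale.Agent.P032.Six Vale.Agent.P032.H892 Vale.Agent.P032.H913 Vale.Agent.P032.S5.H767 Vale.Agent.P032.H61
  Vale.Agent.P032.H357 Vale.Agent.P032.H357.MK Vale.Agent.P032.H556 Vale.Agent.P032.H515
open Vale.Agent.P032.H820.K (df ad hcell ecell fcell wcell gk gt)
open Vale.Agent.P032.H240.W (scell vcell MdW)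

variable {U : Fin 6 → Set ℂ} {T : ℂ → Set (Fin 6)} {K : ℕ} {a : ℕ → ℝ} {σ : Equiv.Perm (Fin 6)} {NP NW : ℕ}
  {nb : ℕ → ℕ → ℕ} {Y : ℕ → ℂ}

/-! ### directions and ticks -/

theorem tick_eq (A : Tick K a) {r s : ℕ} (hr : r < 6 * K) (hs : s < 6 * K) (e : dir (a r) = dir (a s)) : r = s := by
  have e' : pt 0 (a r) = pt 0 (a s) := by
    show (0 : ℂ) + dir (a r) = 0 + dir (a s)
    rw [e]
  obtain ⟨n, hn⟩ := pt_inj e'
  have h1 : a 0 ≤ a r := A.mono.monotone (Nat.zero_le r)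
  have h2 : a r < a (0 + 6 * K) := A.mono (by omega)
  have h3 : a 0 ≤ a s := A.mono.monotone (Nat.zero_le s)
  have h4 : a s < a (0 + 6 * K) := A.mono (by omega)
  rw [CK.a_full A] at h2 h4
  have h5 : n = 0 := by
    have h6 : (n : ℝ) < 1 := by linarith
    have h7 : (-1 : ℝ) < n := by linarith
    have h8 : n < 1 := by exact_mod_cast h6
    have h9 : -1 < n := by exact_mod_cast h7
    omega
  rw [h5] at hn
  exact A.mono.injective (by simpa using hn)

theorem tick_opp (A : Tick K a) {r s : ℕ} (hr : r < 6 * K) (hs : s < 6 * K) (e : dir (a r) = -dir (a s)) :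
    r = ad K s (3 * K) := by
  refine tick_eq A hr ?_ ?_
  · rw [ad_eq]; exact Nat.mod_lt _ (by omega)
  · rw [ad_eq, CK.dir_mod A, CK.dir_half A, e]

/-- at most three colours, from a list of numbers -/
theorem card_le_of {M : Set (Fin 6)} {S : Finset ℕ} (hM : ∀ q < 6, co σ q ∈ M → q ∈ S) : M.ncard ≤ S.card := by
  rw [← ncard_nums (σ := σ), ← Set.ncard_coe_finset]
  exact Set.ncard_le_ncard (fun q hq => hM q hq.1 hq.2) S.finite_toSet

section
variable (h : Irr U T) (hY : Tab K a NP nb Y) {x s q : ℕ}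
include h hY

theorem w1 (hx : x < NP) (hs : s < 6 * K) (hn : nb x s < NP)
    (hT : ∀ r < 6, r ≠ q → co σ r ∉ T (Y x)) : co σ q ∉ Pal U (Y (nb x s)) := by
  have h1 : T (Y x) ⊆ {co σ q} := fun i hi => by
    obtain ⟨r, hr, rfl⟩ := co_surj σ i
    by_contra hne
    exact hT r hr (fun e => hne (by rw [e]; rfl)) hi
  exact h.mx.notMem' (h.mem_of_single h1) (hY.dist hx hs hn)

theorem w2s {S : Finset ℕ} (hx : x < NP) (hs : s < 6 * K) (hn : nb x s < NP) (hS : S.card ≤ 3)
    (hT : ∀ q < 6, co σ q ∈ T (Y x) → q ∈ S) : ∃ q < 6, co σ q ∈ T (Y (nb x s)) ∧ co σ q ∉ T (Y x) := by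
  by_contra hcon
  push Not at hcon
  have h1 := w2 (σ := σ) h hY hx hs hn fun q hq hqn => hcon q hq hqn
  have h2 := card_le_of hT
  omega

/-- **lemma X** -/
theorem lx (A : Tick K a) {r t : ℕ} {S : Finset ℕ} (hx : x < NP) (hs : s < 6 * K) (hr : r < 6 * K)
    (hn : nb x s < NP) (hn' : nb (nb x s) r < NP) (h1 : r ≠ s) (h2 : r ≠ ad K s (3 * K)) (hS : S.card ≤ 3)
    (hT : ∀ q < 6, co σ q ∈ T (Y x) → q ∈ S)
    (hsub : ∀ q < 6, co σ q ∈ T (Y (nb x s)) → co σ q ∈ T (Y x) ∨ q = t) :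
    co σ t ∉ Pal U (Y (nb (nb x s) r)) := by
  intro hp
  have e1 := hY x hx s hs hn
  have e2 := hY (nb x s) hn r hr hn'
  have h3 : (T (Y x)).ncard ≤ 3 := (card_le_of hT).trans hS
  have h4 : T (Y (nb x s)) ⊆ insert (co σ t) (T (Y x)) := fun i hi => by
    obtain ⟨q, hq, rfl⟩ := co_surj σ i
    rcases hsub q hq hi with h5 | rfl
    · exact Or.inr h5
    · exact Or.inl rfl
  rcases h.lemmaX (by rw [dist_comm]; exact hY.dist hx hs hn) h3 h4 (hY.dist hn hr hn') hp with h5 | h5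
  · refine h2 (tick_opp A hr hs ?_)
    rw [e2, e1] at h5
    linear_combination h5
  · refine h1 (tick_eq A hr hs ?_)
    rw [e2, e1] at h5
    linear_combination h5

/-- **lemma B** -/
theorem lb (A : Tick K a) {r i j : ℕ} (hx : x < NP) (hs : s < 6 * K) (hr : r < 6 * K) (hn : nb x s < NP)
    (hn' : nb x r < NP) (h1 : r ≠ s) (h2 : r ≠ ad K s (3 * K))
    (hT : ∀ q < 6, co σ q ∈ T (Y x) → q = i ∨ q = j) (hp : co σ i ∈ Pal U (Y (nb x s))) :
    co σ j ∉ Pal U (Y (nb x r)) := by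
  intro hp'
  have e1 := hY x hx s hs hn
  have e2 := hY x hx r hr hn'
  have h4 : T (Y x) ⊆ {co σ i, co σ j} := fun m hm => by
    obtain ⟨q, hq, rfl⟩ := co_surj σ m
    rcases hT q hq hm with rfl | rfl
    · exact Or.inl rfl
    · exact Or.inr rfl
  rcases h.lemmaB h4 (hY.dist hx hs hn) (hY.dist hx hr hn') hp hp' with h5 | h5
  · refine h1 (tick_eq A hr hs ?_)
    rw [e2, e1] at h5
    linear_combination h5
  · refine h2 (tick_opp A hr hs ?_)
    rw [e2, e1] at h5
    linear_combination h5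

end

/-- a cell of one colour, numbers -/
theorem so_of {x : ℂ} {k j q : ℕ} (hs : ∀ r < 6, r ≠ q → ¬ Cl (Sq T (co σ r)) x a k j) : So T x a k j (co σ q) := by
  by_contra hn
  obtain ⟨r, hr, hrq, h1⟩ := not_so hn
  exact hs r hr hrq h1

section
variable (h : Irr U T) (A : Tick K a) (hY : Tab K a NP nb Y) {x s k j q : ℕ}
include h A hY

/-- SOL, source inside -/
theorem si (hx : x < NP) (hs : s < 6 * K) (hj : j < 6 * K) (hk : k < 4) (hn : nb x s < NP)
    (hc : hcell K k j s = true) (hso : ∀ r < 6, r ≠ q → ¬ Cl (Sq T (co σ r)) (Y x) a k j) :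
    ¬ HI (U (co σ q)) (Y (nb x s)) a s ∧ ¬ Cl (U (co σ q)) (Y (nb x s)) a 2 s ∧
      ¬ Cl (U (co σ q)) (Y (nb x s)) a 2 (ad K s (3 * K)) :=
  ⟨fun h1 => (sol1 h A hY hx hs hj hk hn hc h1).elim fun r hr => hso r hr.1 hr.2.1 hr.2.2,
    fun h1 => (sol2 h A hY hx hs hj hk hn hc h1).elim fun r hr => hso r hr.1 hr.2.1 hr.2.2,
    fun h1 => (sol3 h A hY hx hs hj hk hn hc h1).elim fun r hr => hso r hr.1 hr.2.1 hr.2.2⟩

/-- SOL, source outside -/
theorem so (hx : x < NP) (hs : s < 6 * K) (hj : j < 6 * K) (hk : k < 4) (hn : nb x s < NP)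
    (hc : hcell K k j s = false) (hso : ∀ r < 6, r ≠ q → ¬ Cl (Sq T (co σ r)) (Y x) a k j) :
    ¬ HI (U (co σ q)) (Y (nb x s)) a (ad K s (3 * K)) := fun h1 =>
  (sol4 h A hY hx hs hj hk hn hc h1).elim fun r hr => hso r hr.1 hr.2.1 hr.2.2

end

/-! ### cells of one colour against the letters -/

section
variable {W : ℕ → Fin NW → ℕ → ℕ → ℕ → Set (Fin 6)}
variable (h : Irr U T) (D : ∀ r, Wp U T K a (fun j : Fin NW => Y j.val) (W r)) {x t sd q : ℕ}
include h D

/-- the sector before the tick, by differences -/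
theorem secL_df (A : Tick K a) {j : ℕ} (hx : x < NW) (ht : t < 6 * K) (hj : j < 6 * K)
    (hd : df K j t + 1 = 6 * K) (hq : LL σ K NW W x t 0 q) : ∃ r < 6, r ≠ q ∧ Cl (Sq T (co σ r)) (Y x) a 0 j := by
  have e : ad K j 1 = t := by
    rw [ad_eq]
    rcases df_cases hj ht with ⟨h1, h2⟩ | ⟨h1, h2⟩
    · have e1 : t = 0 ∧ j + 1 = 6 * K := by omega
      rw [e1.1, e1.2, Nat.mod_self]
    · have e1 : j + 1 = t := by omega
      rw [e1, Nat.mod_eq_of_lt ht]
  rw [← e] at hq
  exact secL h D A hx hq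

theorem secL'_df (A : Tick K a) {j : ℕ} (hx : x < NW) (ht : t < 6 * K) (hj : j < 6 * K)
    (hd : df K j t + 1 = 3 * K) (hq : LL σ K NW W x t 0 q) : ∃ r < 6, r ≠ q ∧ Cl (Sq T (co σ r)) (Y x) a 0 j := by
  -- the tick before `t`
  obtain ⟨t', ht', e, e'⟩ : ∃ t' < 6 * K, ad K t' 1 = t ∧ ad K t' (3 * K) = j := by
    have hK := A.pos
    rcases Nat.eq_zero_or_pos t with h0 | h0
    · refine ⟨6 * K - 1, by omega, ?_, ?_⟩
      · rw [ad_eq, show 6 * K - 1 + 1 = 6 * K by omega, Nat.mod_self, h0]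
      · rw [ad_eq, show 6 * K - 1 + 3 * K = 3 * K - 1 + 6 * K by omega, Nat.add_mod_right,
          Nat.mod_eq_of_lt (by omega)]
        rcases df_cases hj ht with ⟨h1, h2⟩ | ⟨h1, h2⟩ <;> omega
    · refine ⟨t - 1, by omega, ?_, ?_⟩
      · rw [ad_eq, show t - 1 + 1 = t by omega, Nat.mod_eq_of_lt ht]
      · rw [ad_eq]
        rcases df_cases hj ht with ⟨h1, h2⟩ | ⟨h1, h2⟩
        · rw [show t - 1 + 3 * K = j by omega, Nat.mod_eq_of_lt hj]
        · rw [show t - 1 + 3 * K = j + 6 * K by omega, Nat.add_mod_right, Nat.mod_eq_of_lt hj]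
  rw [← e] at hq
  rw [← e']
  exact secL' h D A hx hq

/-- **L8** -/
theorem lsol {io k j : ℕ} (A : Tick K a) (hx : x < NW) (ht : t < 6 * K) (hsd : sd < 2) (hio : io < 2) (hk : k < 4)
    (hj : j < 6 * K) (hc : scell K sd io k j t = true)
    (hso : ∀ r < 6, r ≠ q → ¬ Cl (Sq T (co σ r)) (Y x) a k j) : ¬ LW σ K NW W io x t sd q := by
  intro hq
  have hex : ¬ ∃ r < 6, r ≠ q ∧ Cl (Sq T (co σ r)) (Y x) a k j := fun ⟨r, hr, hrq, h1⟩ => hso r hr hrq h1
  have hL : LL σ K NW W x t sd q := lw_of hio hq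
  have hs1 : So T (Y x) a k (t + df K j t) (co σ q) := fun r hr hcl => so_of hso r hr ((cl_df A hj ht).1 hcl)
  have hlt := df_lt hj ht
  have hq' := (lw_iff hx).1 hq
  have hk3 : k ≤ 3 := by omega
  have e3 : Nat.mul 3 K = 3 * K := rfl
  have e6 : Nat.mul 6 K = 6 * K := rfl
  -- inside and outside
  have key1 : io = 1 → hcell K k j t = true → False := fun e h1 => by
    subst e
    exact (D _).ci_cell h A (j := ⟨x, hx⟩) hk3 hlt (hcell_iff.1 h1) hs1 hq'
  have key0 : io = 0 → hcell K k j t = false → False := fun e h1 => by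
    subst e
    refine (D _).co_cell h A (j := ⟨x, hx⟩) hk3 hlt (fun h2 => ?_) hs1 hq'
    rw [hcell_iff.2 h2] at h1; cases h1
  by_cases h0 : k = 0
  · subst h0
    have hc' : (if io = 1 then hcell K 0 j t = true else hcell K 0 j t = false) ∨
        (if sd = 1 then df K j t = 0 ∨ df K j t = 3 * K else df K j t + 1 = 6 * K ∨ df K j t + 1 = 3 * K) := by
      unfold scell at hc
      rw [e3, e6] at hc
      interval_cases io <;> interval_cases sd <;> simpa [nbeq] using hc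
    rcases hc' with h1 | h1
    · interval_cases io
      · exact key0 rfl (by simpa using h1)
      · exact key1 rfl (by simpa using h1)
    · interval_cases sd
      · rcases (by simpa using h1 : df K j t + 1 = 6 * K ∨ df K j t + 1 = 3 * K) with h2 | h2
        · exact hex (secL_df h D A hx ht hj h2 hL)
        · exact hex (secL'_df h D A hx ht hj h2 hL)
      · rcases (by simpa using h1 : df K j t = 0 ∨ df K j t = 3 * K) with h2 | h2
        · have e : j = t := by rcases df_cases hj ht with ⟨h3, h4⟩ | ⟨h3, h4⟩ <;> omega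
          subst e
          exact hex (secR h D A hx hL)
        · have e : j = ad K t (3 * K) := by
            rw [ad_eq]
            rcases df_cases hj ht with ⟨h3, h4⟩ | ⟨h3, h4⟩
            · rw [show t + 3 * K = j by omega, Nat.mod_eq_of_lt hj]
            · rw [show t + 3 * K = j + 6 * K by omega, Nat.add_mod_right, Nat.mod_eq_of_lt hj]
          subst e
          exact hex (secR' h D A hx hL)
  · have hc' : (if io = 1 then hcell K k j t = true else hcell K k j t = false) ∨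
        df K j t = (if io = sd then (if sd = 1 then 0 else 0) else 3 * K) := by
      unfold scell at hc
      rw [nbeq_zero h0, e3] at hc
      have e01 : Nat.beq 0 1 = false := rfl
      interval_cases io <;> interval_cases sd <;> simpa [nbeq, e01] using hc
    rcases hc' with h1 | h1
    · interval_cases io
      · exact key0 rfl (by simpa using h1)
      · exact key1 rfl (by simpa using h1)
    · rw [h1] at hs1
      interval_cases io <;> interval_cases sd
      · exact (D _).ray_L h (j := ⟨x, hx⟩) h0 (by simpa using hs1) hq'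
      · exact (D _).ray_R' h A (j := ⟨x, hx⟩) h0 (by simpa using hs1) hq'
      · exact (D _).ray_L' h A (j := ⟨x, hx⟩) h0 (by simpa using hs1) hq'
      · exact (D _).ray_R h (j := ⟨x, hx⟩) h0 (by simpa using hs1) hq'

end


/-! ### a one coloured letter against the cells -/

section
variable {J : Type*} {X : J → ℂ} {V : J → ℕ → ℕ → ℕ → Set (Fin 6)} {c : Fin 6}

theorem ev_abs {sd : ℕ} {ε : ℝ} (hε : 0 < ε) : ∀ᶠ τ : ℝ in sdf sd, -ε < τ ∧ τ < ε :=
  (sdf_side sd).le (Ioo_mem_nhds (by linarith) hε)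

theorem ev_neg {sd : ℕ} {θ t : ℝ} (h1 : t + 3 / 2 < θ) (h2 : θ < t + 9 / 2) :
    ∀ᶠ τ : ℝ in sdf sd, Real.cos ((θ - (t + τ)) * (Real.pi / 3)) < 0 := by
  filter_upwards [ev_abs (sd := sd) (ε := min (θ - t - 3 / 2) (t + 9 / 2 - θ)) (lt_min (by linarith) (by linarith))]
    with τ hτ
  have h3 := min_le_left (θ - t - 3 / 2) (t + 9 / 2 - θ)
  have h4 := min_le_right (θ - t - 3 / 2) (t + 9 / 2 - θ)
  exact cos_neg_of (by linarith [hτ.1, hτ.2]) (by linarith [hτ.1, hτ.2])

theorem ev_pos {sd : ℕ} {θ t : ℝ} (h1 : t + 9 / 2 < θ) (h2 : θ < t + 15 / 2) :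
    ∀ᶠ τ : ℝ in sdf sd, 0 < Real.cos ((θ - (t + τ)) * (Real.pi / 3)) := by
  filter_upwards [ev_abs (sd := sd) (ε := min (θ - t - 9 / 2) (t + 15 / 2 - θ)) (lt_min (by linarith) (by linarith))]
    with τ hτ
  have h3 := min_le_left (θ - t - 9 / 2) (t + 15 / 2 - θ)
  have h4 := min_le_right (θ - t - 9 / 2) (t + 15 / 2 - θ)
  exact CK.cos_pos_six (by linarith [hτ.1, hτ.2]) (by linarith [hτ.1, hτ.2])

theorem half_in (h : Irr U T) (D : Wp U T K a X V) {j : J} {t sd : ℕ} {θ : ℝ} (hθ : θ ∈ DS (U c) (X j))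
    (hc : ∀ᶠ τ : ℝ in sdf sd, Real.cos ((θ - (a t + τ)) * (Real.pi / 3)) < 0) : ¬ V j t sd 0 ⊆ {c} := by
  obtain ⟨τ, h1, h2⟩ := (D.fam sd).exists_at hc
  have h3 := hit_in h hθ h1
  rwa [(h2 (j, t)).eqP] at h3

theorem half_out (h : Irr U T) (D : Wp U T K a X V) {j : J} {t sd : ℕ} {θ : ℝ} (hθ : θ ∈ DS (U c) (X j))
    (hc : ∀ᶠ τ : ℝ in sdf sd, 0 < Real.cos ((θ - (a t + τ)) * (Real.pi / 3))) : ¬ V j t sd 1 ⊆ {c} := by
  obtain ⟨τ, h1, h2⟩ := (D.fam sd).exists_at hc
  have h3 := hit_out h hθ h1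
  rwa [(h2 (j, t)).eqQ] at h3

theorem half_cell (h : Irr U T) (A : Tick K a) (D : Wp U T K a X V) {j : J} {t sd io k i : ℕ} (ht : t < 6 * K)
    (hsd : sd < 2) (hio : io < 2) (hi : i < 6 * K) (hc : vcell K sd io k i t = true)
    (hW : V j t sd io ⊆ {c}) : ¬ Cl (U c) (X j) a k i := by
  intro hcl
  have hcl := (cl_df A hi ht).2 hcl
  have hlt := df_lt hi ht
  have e3 : Nat.mul 3 K = 3 * K := rfl
  have e01 : Nat.beq 0 1 = false := rfl
  have er : ra a t = a t + 3 / 2 := rfl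
  unfold vcell at hc
  rw [e3] at hc
  generalize df K i t = d at hcl hlt hc
  by_cases h0 : k = 0
  · subst h0
    obtain ⟨θ, h1, h2⟩ := cl_zero.1 hcl
    interval_cases io
    · have h3 : d + 1 ≤ 3 * K := by simpa using hc
      have h4 := CK.ra_le A (show t ≤ t + d by omega)
      have h5 := CK.ra_le A (show t + d + 1 ≤ t + 3 * K by omega)
      rw [CK.ra_half A] at h5
      exact half_in h D h2 (ev_neg (by linarith [h1.1]) (by linarith [h1.2])) hW
    · have h3 : 3 * K ≤ d := by simpa [e01] using hc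
      have h4 := CK.ra_le A (show t + 3 * K ≤ t + d by omega)
      have h5 := CK.ra_le A (show t + d + 1 ≤ t + 6 * K by omega)
      rw [CK.ra_half A] at h4
      rw [CK.ra_full A] at h5
      exact half_out h D h2 (ev_pos (by linarith [h1.1]) (by linarith [h1.2])) hW
  · have hθ := cl_ray h0 hcl
    rw [nbeq_zero h0] at hc
    interval_cases io
    · have h3 : (1 ≤ d ∧ d + 1 ≤ 3 * K) ∨ d = (if sd = 1 then 3 * K else 0) := by
        interval_cases sd <;> simpa [nbeq, e01] using hc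
      rcases h3 with ⟨h3, h4⟩ | h3
      · have h5 := CK.ra_lt A (show t < t + d by omega)
        have h6 := CK.ra_lt A (show t + d < t + 3 * K by omega)
        rw [CK.ra_half A] at h6
        exact half_in h D hθ (ev_neg (by linarith) (by linarith)) hW
      · interval_cases sd
        · have h3 : d = 0 := by simpa using h3
          subst h3
          refine half_in h D hθ ?_ hW
          rw [sdf_ne (by norm_num)]
          filter_upwards [Wp.ev_small'] with τ hτ
          rw [add_zero]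
          exact cos_neg_of (by linarith [hτ.2]) (by linarith [hτ.1])
        · have h3 : d = 3 * K := by simpa using h3
          subst h3
          refine half_in h D hθ ?_ hW
          rw [sdf_one]
          filter_upwards [Wp.ev_small] with τ hτ
          rw [CK.ra_half A]
          exact cos_neg_of (by linarith [hτ.2]) (by linarith [hτ.1])
    · have h3 : 3 * K + 1 ≤ d ∨ d = (if sd = 1 then 0 else 3 * K) := by
        interval_cases sd <;> simpa [nbeq, e01] using hc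
      rcases h3 with h3 | h3
      · have h5 := CK.ra_lt A (show t + 3 * K < t + d by omega)
        have h6 := CK.ra_lt A (show t + d < t + 6 * K by omega)
        rw [CK.ra_half A] at h5
        rw [CK.ra_full A] at h6
        exact half_out h D hθ (ev_pos (by linarith) (by linarith)) hW
      · interval_cases sd
        · have h3 : d = 3 * K := by simpa using h3
          subst h3
          refine half_out h D hθ ?_ hW
          rw [sdf_ne (by norm_num)]
          filter_upwards [Wp.ev_small'] with τ hτ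
          rw [CK.ra_half A]
          exact CK.cos_pos_six (by linarith [hτ.2]) (by linarith [hτ.1])
        · have h3 : d = 0 := by simpa using h3
          subst h3
          refine half_out h D hθ ?_ hW
          rw [sdf_one]
          filter_upwards [Wp.ev_small] with τ hτ
          rw [add_zero]
          have := ray_pos hτ.1 hτ.2
          rwa [show (ra a t - (a t + τ)) * (Real.pi / 3) = (3 / 2 - τ) * (Real.pi / 3) by rw [er]; ring]

end

section
variable {W : ℕ → Fin NW → ℕ → ℕ → ℕ → Set (Fin 6)}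
variable (h : Irr U T) (D : ∀ r, Wp U T K a (fun j : Fin NW => Y j.val) (W r)) {x t sd q : ℕ}
include h D

theorem lhalf {io k j : ℕ} (A : Tick K a) (hx : x < NW) (ht : t < 6 * K) (hsd : sd < 2) (hio : io < 2)
    (hj : j < 6 * K) (hc : vcell K sd io k j t = true) (hW : ∀ r < 6, r ≠ q → ¬ LW σ K NW W io x t sd r) :
    ¬ Cl (U (co σ q)) (Y x) a k j := by
  refine half_cell h A (D (t % K)) (j := ⟨x, hx⟩) ht hsd hio hj hc fun i hi => ?_
  obtain ⟨r, hr, rfl⟩ := co_surj σ i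
  by_contra hne
  exact hW r hr (fun e => hne (by rw [e]; rfl)) ((lw_iff hx).2 hi)

theorem lgap {r : ℕ} (hx : x < NW) (hX : Y x ∈ XX U) : ∃ q < 6, q ≠ r ∧ co σ q ∈ T (Y x) ∧
    ¬ LW σ K NW W 0 x t sd q ∧ ¬ LW σ K NW W 1 x t sd q := by
  obtain ⟨p, q, h1, h2, h3, h4, h5, h6⟩ := gap2 (σ := σ) h D (t := t) (sd := sd) hx hX
  by_cases e : q = r
  · exact ⟨p, by omega, by omega, h3, fun h7 => h5 (Or.inl h7), fun h7 => h5 (Or.inr h7)⟩
  · exact ⟨q, h2, e, h4, fun h7 => h6 (Or.inl h7), fun h7 => h6 (Or.inr h7)⟩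

end

/-! ### joint colourings -/

theorem po_zo {x : ℂ} {p : ℝ × ℝ} {u : ℂ} {k : ℕ} : po x p ∈ ZO x u k ↔ po 0 p ∈ ZO 0 u k := by
  have e1 : dist (po x p) (x + u) = dist (po 0 p) (0 + u) := by
    rw [po_add, dist_eq_norm, dist_eq_norm]; congr 1; ring
  have e2 : dist (po x p) (x - u) = dist (po 0 p) (0 - u) := by
    rw [po_add, dist_eq_norm, dist_eq_norm]; congr 1; ring
  unfold ZO
  split_ifs
  · show dist (po x p) (x + u) < 1 ↔ dist (po 0 p) (0 + u) < 1
    rw [e1]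
  · show dist (po x p) (x - u) < 1 ↔ dist (po 0 p) (0 - u) < 1
    rw [e2]
  · show (1 < dist (po x p) (x + u) ∧ 1 < dist (po x p) (x - u)) ↔
      (1 < dist (po 0 p) (0 + u) ∧ 1 < dist (po 0 p) (0 - u))
    rw [e1, e2]

/-- joint colourings of all cells -/
theorem joint_cell (h : Irr U T) {I : Type*} [Finite I] (A : Tick K a) (Z : I → ℂ) (k j : ℕ) :
    ∃ s : I → Fin 6, (∀ i, Cl (Sq T (s i)) (Z i) a k j) ∧ ∀ i i', dist (Z i) (Z i') = 1 → s i ≠ s i' := by
  by_cases hk : k = 0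
  · subst hk
    exact joint_sector h A Z j
  · have hO : IsOpen {p : ℝ × ℝ | po 0 p ∈ ZO 0 (dir (a j)) k} :=
      (isOpen_zo 0 (dir (a j)) k).preimage (continuous_po 0)
    have h1 := gam_zo 0 (a j) k
    have h2 : Tendsto (gam (ra a j) k) (𝓝[>] 0) (𝓝 ((0 : ℝ), ra a j)) := by
      have := (continuous_gam (ra a j) k).tendsto 0
      rw [gam_zero] at this
      exact this.mono_left nhdsWithin_le_nhds
    obtain ⟨s, h3, h4⟩ := joint h Z (θ := ra a j) hO (freq_curve h2 (by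
      filter_upwards [h1] with δ hδ
      exact ⟨hδ.2, hδ.1⟩))
    refine ⟨s, fun i => (cl_pos hk).2 (h3.mono fun p hp => ⟨⟨hp.1.2, hp.2 i⟩, zn_of_zo (po_zo.2 hp.1.1)⟩), h4⟩

/-- joint colourings of all cells, numbers -/
structure JC (U : Fin 6 → Set ℂ) (T : ℂ → Set (Fin 6)) (K : ℕ) (a : ℕ → ℝ) (σ : Equiv.Perm (Fin 6)) (NP : ℕ)
    (nb : ℕ → ℕ → ℕ) (Y : ℕ → ℂ) (J : ℕ → ℕ → ℕ → ℕ) : Prop where
  lt : ∀ k x j, J k x j < 6
  v : ∀ k x j, x < NP → Cl (Sq T (co σ (J k x j))) (Y x) a k j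
  ne : ∀ {k x j s}, x < NP → s < 6 * K → nb x s < NP → J k x j ≠ J k (nb x s) j

theorem exists_J (h : Irr U T) (A : Tick K a) (σ : Equiv.Perm (Fin 6)) (hY : Tab K a NP nb Y) :
    ∃ J, JC U T K a σ NP nb Y J := by
  choose s h1 h2 using fun k j => joint_cell h A (fun i : Fin NP => Y i.val) k j
  refine ⟨fun k x j => if hx : x < NP then no σ (s k j ⟨x, hx⟩) else 0, ⟨fun k x j => ?_, fun k x j hx => ?_,
    fun {k x j r} hx hr hn => ?_⟩⟩
  · show (if hx : x < NP then no σ (s k j ⟨x, hx⟩) else 0) < 6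
    split_ifs
    · exact no_lt σ _
    · norm_num
  · simp only [dif_pos hx, co_no]
    exact h1 k j ⟨x, hx⟩
  · simp only [dif_pos hx, dif_pos hn]
    intro e
    exact h2 k j ⟨x, hx⟩ ⟨nb x r, hn⟩ (hY.dist hx hr hn) (no_inj σ e)

/-! ### one sided accumulation -/

theorem acc_three (h : Irr U T) {x : ℂ} {q : Fin 6} {b : ℝ}
    (hacc : ∃ᶠ v in 𝓝[>] b, v + 3 / 2 ∈ Dr T x q) :
    ∃ᶠ p in 𝓝 ((0 : ℝ), b + 3 / 2), p ∈ H357.PS (Sq T q) x ∧ dist (po x p) (x - dir b) < 1 := by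
  have ht : Tendsto (fun v : ℝ => ((0 : ℝ), v + 3 / 2)) (𝓝[>] b) (𝓝 ((0 : ℝ), b + 3 / 2)) :=
    ((by fun_prop : Continuous fun v : ℝ => ((0 : ℝ), v + 3 / 2)).tendsto b).mono_left nhdsWithin_le_nhds
  have hsm : ∀ᶠ v in 𝓝[>] b, b < v ∧ v < b + 1 := by
    filter_upwards [Ioo_mem_nhdsGT (show b < b + 1 by linarith)] with v hv
    exact hv
  refine H61.freq_lim ht ((hacc.and_eventually hsm).mono fun v hv => ?_)
  have h1 : v + 3 / 2 ∈ DS (Sq T q) x := by rw [ds_eq_dr h]; exact hv.1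
  have h2 : 0 < Real.cos ((v + 3 / 2 - (b + 3)) * (Real.pi / 3)) := by
    have := ray_pos (d := v - b) (by linarith [hv.2.1]) (by linarith [hv.2.2])
    rwa [show (v + 3 / 2 - (b + 3)) * (Real.pi / 3) = -((3 / 2 - (v - b)) * (Real.pi / 3)) by ring,
      Real.cos_neg]
  have h3 := ev_in (x := x) (θ := v + 3 / 2) (u := b + 3) h2
  have e : x + dir (b + 3) = x - dir b := by rw [dir_three]; ring
  rw [e] at h3
  exact (Filter.Frequently.and_eventually (show ∃ᶠ p in 𝓝 ((0 : ℝ), v + 3 / 2), p ∈ H357.PS (Sq T q) x from h1) h3).mono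
    fun p hp => ⟨hp.1, hp.2 hp.1.1⟩

theorem acc_one (h : Irr U T) {x : ℂ} {q : Fin 6} {b : ℝ}
    (hacc : ∃ᶠ v in 𝓝[<] b, v + 3 / 2 ∈ Dr T x q) :
    ∃ᶠ p in 𝓝 ((0 : ℝ), b + 3 / 2), p ∈ H357.PS (Sq T q) x ∧ dist (po x p) (x + dir b) < 1 := by
  have ht : Tendsto (fun v : ℝ => ((0 : ℝ), v + 3 / 2)) (𝓝[<] b) (𝓝 ((0 : ℝ), b + 3 / 2)) :=
    ((by fun_prop : Continuous fun v : ℝ => ((0 : ℝ), v + 3 / 2)).tendsto b).mono_left nhdsWithin_le_nhds
  have hsm : ∀ᶠ v in 𝓝[<] b, b - 1 < v ∧ v < b := by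
    filter_upwards [Ioo_mem_nhdsLT (show b - 1 < b by linarith)] with v hv
    exact hv
  refine H61.freq_lim ht ((hacc.and_eventually hsm).mono fun v hv => ?_)
  have h1 : v + 3 / 2 ∈ DS (Sq T q) x := by rw [ds_eq_dr h]; exact hv.1
  have h2 : 0 < Real.cos ((v + 3 / 2 - b) * (Real.pi / 3)) := by
    have := ray_pos (d := b - v) (by linarith [hv.2.2]) (by linarith [hv.2.1])
    rwa [show (v + 3 / 2 - b) * (Real.pi / 3) = (3 / 2 - (b - v)) * (Real.pi / 3) by ring]
  have h3 := ev_in (x := x) (θ := v + 3 / 2) (u := b) h2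
  exact (Filter.Frequently.and_eventually (show ∃ᶠ p in 𝓝 ((0 : ℝ), v + 3 / 2), p ∈ H357.PS (Sq T q) x from h1) h3).mono
    fun p hp => ⟨hp.1, hp.2 hp.1.1⟩

theorem ar_three (h : Irr U T) {a : ℕ → ℝ} (A : Tick 2 a) {c m : ℕ} {q : Fin 6}
    (hacc : AccR (shD T Y c q) (a 0 + m)) : Cl (Sq T q) (Y c) a 3 (2 * m) := by
  rw [cl_pos (by norm_num)]
  have e : a 0 + m = a (2 * m) := (a_even A m).symm
  rw [e] at hacc
  exact (acc_three h (x := Y c) (b := a (2 * m)) hacc).mono fun p hp => ⟨hp.1, zn_three.2 hp.2⟩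

theorem al_one (h : Irr U T) {a : ℕ → ℝ} (A : Tick 2 a) {c m : ℕ} {q : Fin 6}
    (hacc : AccL (shD T Y c q) (a 0 + m + 1)) : Cl (Sq T q) (Y c) a 1 (ad 2 (2 * m) 2) := by
  have e : a 0 + m + 1 = a (2 * m + 2) := by
    have := a_even A (m + 1)
    rw [show 2 * (m + 1) = 2 * m + 2 by ring] at this
    rw [this]; push_cast; ring
  rw [e] at hacc
  rw [ad_eq, CK.cl_mod A, cl_pos (by norm_num)]
  exact (acc_one h (x := Y c) (b := a (2 * m + 2)) hacc).mono fun p hp => ⟨hp.1, zn_one.2 hp.2⟩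

end Vale.Agent.P032.H993.MkW
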