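import Vale.Agent.P032.H913.Geo

/-!
# P032: constant signs of sums of directions, any number of classes

`Tick K a`, directions `dir (a i)`, indices below `6 K`.

* `sg2 K i j`, `sg3 K i j k`, `sg4 K i j k l` : computable, `0` = the norm of the sum is below 1, `1` = it is 1,
  `2` = it is above 1 (`3` = unknown, only for `sg4`),
* `sg2_ok`, `sg3_ok`, `sg4_ok` : they are right for all positions of the classes,
* `cr2 K p q g`, `cr3 K p q r g` : the circle about `x + dir (a p) + dir (a q) (+ dir (a r))` crosses the open arc of the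
  circle about `x` between the ticks `g` and `g + 1`, with `cr2_ok`, `cr3_ok`.

The identity : `|u + v + w| ^ 2 - 1 = 8 cos cos cos` of the half differences.
-/

open Set Filter Topology Metric

noncomputable section

namespace Vale.Agent.P032.H993.Sgn

open Vale.Agent.P032.Six Vale.Agent.P032.H892 Vale.Agent.P032.H913 Vale.Agent.P032.S5.H767

/-! ### the functions -/

/-- absolute difference -/
def ab (i j : ℕ) : ℕ := (i - j) + (j - i)

/-- two directions -/
def sg2 (K i j : ℕ) : ℕ :=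
  bif Nat.beq (ab i j) (2 * K) || Nat.beq (ab i j) (4 * K) then 1 else
    bif Nat.ble (Nat.succ (ab i j)) (2 * K) || Nat.ble (Nat.succ (4 * K)) (ab i j) then 2 else 0

/-- three directions -/
def sg3 (K i j k : ℕ) : ℕ :=
  bif Nat.beq (ab i j) (3 * K) || Nat.beq (ab j k) (3 * K) || Nat.beq (ab k i) (3 * K) then 1 else
    bif Nat.ble (Nat.succ (ab i j)) (3 * K) == (Nat.ble (Nat.succ (ab j k)) (3 * K) ==
      Nat.ble (Nat.succ (ab k i)) (3 * K)) then 2 else 0

/-- the direction between two directions at 120 degrees -/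
def mg (K i j : ℕ) : ℕ :=
  bif Nat.ble j i then (bif Nat.beq (ab i j) (2 * K) then j + K else Nat.mod (i + K) (6 * K)) else
    (bif Nat.beq (ab i j) (2 * K) then i + K else Nat.mod (j + K) (6 * K))

/-- four directions, one pair used -/
def sg4s (K i j k l e : ℕ) : ℕ :=
  bif Nat.beq (ab i j) (3 * K) then sg2 K k l else
    bif Nat.beq (ab i j) (2 * K) || Nat.beq (ab i j) (4 * K) then sg3 K (mg K i j) k l else e

/-- four directions -/
def sg4 (K i j k l : ℕ) : ℕ :=
  sg4s K i j k l (sg4s K i k j l (sg4s K i l j k (sg4s K j k i l (sg4s K j l i k (sg4s K k l i j 3)))))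

/-- near at one end and far at the other end -/
def nf (m n : ℕ) : Bool := (Nat.beq m 0 && Nat.beq n 2) || (Nat.beq m 2 && Nat.beq n 0)

/-- index modulo `6 K` -/
def ix (K n : ℕ) : ℕ := Nat.mod n (6 * K)

/-- the circle about `x + u(p) + u(q)` crosses the arc of the circle about `x` from the tick `g` to the tick `g + n` -/
def cr2 (K p q g n : ℕ) : Bool := nf (sg3 K p q (ix K (g + 3 * K))) (sg3 K p q (ix K (g + n + 3 * K)))

/-- the circle about `x + u(p) + u(q) + u(r)` crosses the arc of the circle about `x` from the tick `g` to `g + n` -/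
def cr3 (K p q r g n : ℕ) : Bool := nf (sg4 K p q r (ix K (g + 3 * K))) (sg4 K p q r (ix K (g + n + 3 * K)))

/-! ### they are right -/

/-- sign of a norm minus one -/
def Sg (v : ℂ) (n : ℕ) : Prop := (n = 0 → ‖v‖ < 1) ∧ (n = 1 → ‖v‖ = 1) ∧ (n = 2 → 1 < ‖v‖)

theorem Sg.of_sq {v : ℂ} {n : ℕ} (h0 : n = 0 → ‖v‖ ^ 2 - 1 < 0) (h1 : n = 1 → ‖v‖ ^ 2 - 1 = 0)
    (h2 : n = 2 → 0 < ‖v‖ ^ 2 - 1) : Sg v n := by
  have hv := norm_nonneg v
  refine ⟨fun h => ?_, fun h => ?_, fun h => ?_⟩
  · have := h0 h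
    nlinarith
  · have := h1 h
    nlinarith
  · have := h2 h
    nlinarith

theorem sq2 (x y : ℝ) : ‖dir x + dir y‖ ^ 2 - 1 = 1 + 2 * Real.cos ((x - y) * (Real.pi / 3)) := by
  rw [← Complex.normSq_eq_norm_sq, Complex.normSq_apply, sub_mul, Real.cos_sub]
  unfold dir
  simp only [Complex.add_re, Complex.add_im, cis_re, cis_im]
  have h2 := Real.sin_sq_add_cos_sq (x * (Real.pi / 3))
  have h3 := Real.sin_sq_add_cos_sq (y * (Real.pi / 3))
  linear_combination h2 + h3

theorem sq3 (x y w : ℝ) : ‖dir x + dir y + dir w‖ ^ 2 - 1 =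
    8 * Real.cos ((x - y) * (Real.pi / 6)) * Real.cos ((y - w) * (Real.pi / 6)) *
      Real.cos ((w - x) * (Real.pi / 6)) := by
  have e : ‖dir x + dir y + dir w‖ ^ 2 = 3 + 2 * Real.cos ((x - y) * (Real.pi / 3)) +
      2 * Real.cos ((y - w) * (Real.pi / 3)) + 2 * Real.cos ((x - w) * (Real.pi / 3)) := by
    rw [← Complex.normSq_eq_norm_sq, Complex.normSq_apply, sub_mul, sub_mul, sub_mul, Real.cos_sub, Real.cos_sub,
      Real.cos_sub]
    unfold dir
    simp only [Complex.add_re, Complex.add_im, cis_re, cis_im]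
    have h1 := Real.sin_sq_add_cos_sq (x * (Real.pi / 3))
    have h2 := Real.sin_sq_add_cos_sq (y * (Real.pi / 3))
    have h3 := Real.sin_sq_add_cos_sq (w * (Real.pi / 3))
    linear_combination h1 + h2 + h3
  have e1 : (x - y) * (Real.pi / 3) = 2 * ((x - y) * (Real.pi / 6)) := by ring
  have e2 : (y - w) * (Real.pi / 3) = 2 * ((y - w) * (Real.pi / 6)) := by ring
  have e3 : (x - w) * (Real.pi / 3) = 2 * ((x - y) * (Real.pi / 6) + (y - w) * (Real.pi / 6)) := by ring
  have e4 : (w - x) * (Real.pi / 6) = -((x - y) * (Real.pi / 6) + (y - w) * (Real.pi / 6)) := by ring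
  rw [e, e1, e2, e3, e4, Real.cos_neg, Real.cos_two_mul, Real.cos_two_mul, Real.cos_two_mul, Real.cos_add]
  have h1 := Real.sin_sq_add_cos_sq ((x - y) * (Real.pi / 6))
  have h2 := Real.sin_sq_add_cos_sq ((y - w) * (Real.pi / 6))
  generalize Real.cos ((x - y) * (Real.pi / 6)) = c1 at *
  generalize Real.sin ((x - y) * (Real.pi / 6)) = s1 at *
  generalize Real.cos ((y - w) * (Real.pi / 6)) = c2 at *
  generalize Real.sin ((y - w) * (Real.pi / 6)) = s2 at *
  have h1' : s1 ^ 2 = 1 - c1 ^ 2 := by linarith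
  have h2' : s2 ^ 2 = 1 - c2 ^ 2 := by linarith
  have h3 : s1 ^ 2 * s2 ^ 2 = (1 - c1 ^ 2) * (1 - c2 ^ 2) := by rw [h1', h2']
  linear_combination 4 * h3

/-- the cosine of half a difference -/
theorem cos_half {d : ℝ} (h1 : d < 6) (h2 : -6 < d) :
    (|d| < 3 → 0 < Real.cos (d * (Real.pi / 6))) ∧ (|d| = 3 → Real.cos (d * (Real.pi / 6)) = 0) ∧
      (3 < |d| → Real.cos (d * (Real.pi / 6)) < 0) := by
  have hpi := Real.pi_pos
  have e : Real.cos (d * (Real.pi / 6)) = Real.cos (|d| * (Real.pi / 6)) := by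
    rw [← Real.cos_abs, abs_mul, abs_of_pos (show (0 : ℝ) < Real.pi / 6 by positivity)]
  rw [e]
  have h3 : |d| < 6 := abs_lt.2 ⟨h2, h1⟩
  have h0 := abs_nonneg d
  refine ⟨fun h => ?_, fun h => ?_, fun h => ?_⟩
  · exact Real.cos_pos_of_mem_Ioo ⟨by nlinarith, by nlinarith⟩
  · rw [h, show (3 : ℝ) * (Real.pi / 6) = Real.pi / 2 by ring, Real.cos_pi_div_two]
  · exact Real.cos_neg_of_pi_div_two_lt_of_lt (by nlinarith) (by nlinarith)

/-- one plus twice the cosine -/
theorem cos_two {d : ℝ} (h0 : 0 ≤ d) (h1 : d < 6) :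
    ((d < 2 ∨ 4 < d) → 0 < 1 + 2 * Real.cos (d * (Real.pi / 3))) ∧
      ((d = 2 ∨ d = 4) → 1 + 2 * Real.cos (d * (Real.pi / 3)) = 0) ∧
      ((2 < d ∧ d < 4) → 1 + 2 * Real.cos (d * (Real.pi / 3)) < 0) := by
  have hpi := Real.pi_pos
  have c2 : Real.cos (2 * (Real.pi / 3)) = -(1 / 2) := by
    rw [Real.cos_two_mul, Real.cos_pi_div_three]; norm_num
  have key : 1 + 2 * Real.cos (d * (Real.pi / 3)) =
      4 * (Real.cos (d * (Real.pi / 6)) - 1 / 2) * (Real.cos (d * (Real.pi / 6)) + 1 / 2) := by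
    rw [show d * (Real.pi / 3) = 2 * (d * (Real.pi / 6)) by ring, Real.cos_two_mul]; ring
  have c3 : Real.cos (2 * (Real.pi / 6)) = 1 / 2 := by
    rw [show 2 * (Real.pi / 6) = Real.pi / 3 by ring, Real.cos_pi_div_three]
  have c4 : Real.cos (4 * (Real.pi / 6)) = -(1 / 2) := by
    rw [show 4 * (Real.pi / 6) = 2 * (Real.pi / 3) by ring, c2]
  have mono : ∀ a b : ℝ, 0 ≤ a → a < b → b ≤ 6 → Real.cos (b * (Real.pi / 6)) < Real.cos (a * (Real.pi / 6)) :=
    fun a b ha hab hb => Real.strictAntiOn_cos ⟨by positivity, by nlinarith⟩ ⟨by nlinarith, by nlinarith⟩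
      (by nlinarith)
  rw [key]
  refine ⟨fun h => ?_, fun h => ?_, fun h => ?_⟩
  · rcases h with h | h
    · have := mono d 2 h0 h (by norm_num)
      rw [c3] at this
      nlinarith
    · have := mono 4 d (by norm_num) h h1.le
      rw [c4] at this
      nlinarith
  · rcases h with rfl | rfl
    · rw [c3]; ring
    · rw [c4]; ring
  · have h2 := mono 2 d (by norm_num) h.1 h1.le
    have h3 := mono d 4 h0 h.2 (by norm_num)
    rw [c3] at h2
    rw [c4] at h3
    nlinarith

section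
variable {K : ℕ} {a : ℕ → ℝ}

theorem ab_comm (i j : ℕ) : ab i j = ab j i := by unfold ab; omega

variable (A : Tick K a)
include A

/-- absolute differences against multiples of `K` -/
theorem ab_lt {i j n : ℕ} (h : ab i j < n * K) : |a i - a j| < n := by
  wlog hij : j ≤ i generalizing i j
  · rw [abs_sub_comm]
    exact this (by rwa [ab_comm]) (by omega)
  unfold ab at h
  have h1 := A.per_mul j n
  have h2 := A.mono (show i < j + n * K by omega)
  have h3 := A.mono.monotone hij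
  rw [abs_of_nonneg (by linarith)]
  linarith

theorem ab_eq {i j n : ℕ} (h : ab i j = n * K) : |a i - a j| = n := by
  wlog hij : j ≤ i generalizing i j
  · rw [abs_sub_comm]
    exact this (by rwa [ab_comm]) (by omega)
  unfold ab at h
  have h1 := A.per_mul j n
  have h2 : i = j + n * K := by omega
  have h3 := A.mono.monotone hij
  rw [abs_of_nonneg (by linarith), h2, h1]
  ring

theorem ab_gt {i j n : ℕ} (h : n * K < ab i j) : (n : ℝ) < |a i - a j| := by
  wlog hij : j ≤ i generalizing i j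
  · rw [abs_sub_comm]
    exact this (by rwa [ab_comm]) (by omega)
  unfold ab at h
  have h1 := A.per_mul j n
  have h2 := A.mono (show j + n * K < i by omega)
  have h3 := A.mono.monotone hij
  rw [abs_of_nonneg (by linarith)]
  linarith

theorem sg2_ok {i j : ℕ} (hi : i < 6 * K) (hj : j < 6 * K) : Sg (dir (a i) + dir (a j)) (sg2 K i j) := by
  have h0 := abs_nonneg (a i - a j)
  have h6 : |a i - a j| < (6 : ℕ) := ab_lt A (n := 6) (by unfold ab; omega)
  push_cast at h6
  obtain ⟨c1, c2, c3⟩ := cos_two h0 h6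
  have e : Real.cos ((a i - a j) * (Real.pi / 3)) = Real.cos (|a i - a j| * (Real.pi / 3)) := by
    rw [← Real.cos_abs, abs_mul, abs_of_pos (show (0 : ℝ) < Real.pi / 3 by positivity)]
  have h1 := sq2 (a i) (a j)
  rw [e] at h1
  unfold sg2
  simp only [cond_eq_ite, Bool.or_eq_true, Nat.beq_eq, Nat.ble_eq]
  split_ifs with k1 k2
  · refine Sg.of_sq (fun h => by omega) (fun _ => ?_) (fun h => by omega)
    rw [h1]
    refine c2 ?_
    rcases k1 with k1 | k1
    · left; have := ab_eq A k1; simpa using this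
    · right; have := ab_eq A k1; simpa using this
  · refine Sg.of_sq (fun h => by omega) (fun h => by omega) (fun _ => ?_)
    rw [h1]
    refine c1 ?_
    rcases k2 with k2 | k2
    · left; have := ab_lt A (n := 2) (by omega : ab i j < 2 * K); simpa using this
    · right; have := ab_gt A (n := 4) (by omega : 4 * K < ab i j); simpa using this
  · refine Sg.of_sq (fun _ => ?_) (fun h => by omega) (fun h => by omega)
    rw [h1]
    refine c3 ⟨?_, ?_⟩
    · have := ab_gt A (n := 2) (by omega : 2 * K < ab i j); simpa using this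
    · have := ab_lt A (n := 4) (by omega : ab i j < 4 * K); simpa using this

/-- one factor -/
theorem fac {i j : ℕ} (hi : i < 6 * K) (hj : j < 6 * K) :
    (Nat.beq (ab i j) (3 * K) = false ∧ Nat.ble (Nat.succ (ab i j)) (3 * K) = true ∧
      0 < Real.cos ((a i - a j) * (Real.pi / 6))) ∨
    (Nat.beq (ab i j) (3 * K) = true ∧ Real.cos ((a i - a j) * (Real.pi / 6)) = 0) ∨
    (Nat.beq (ab i j) (3 * K) = false ∧ Nat.ble (Nat.succ (ab i j)) (3 * K) = false ∧
      Real.cos ((a i - a j) * (Real.pi / 6)) < 0) := by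
  have h6 : |a i - a j| < (6 : ℕ) := ab_lt A (n := 6) (by unfold ab; omega)
  push_cast at h6
  obtain ⟨c1, c2, c3⟩ := cos_half (abs_lt.1 h6).2 (abs_lt.1 h6).1
  rcases lt_trichotomy (ab i j) (3 * K) with h | h | h
  · left
    refine ⟨?_, Nat.ble_eq_true_of_le h, c1 ?_⟩
    · rw [Bool.eq_false_iff]
      intro hb
      have := Nat.beq_eq.mp hb
      omega
    · have := ab_lt A (n := 3) h; simpa using this
  · right; left
    refine ⟨Nat.beq_eq.mpr h, c2 ?_⟩
    have := ab_eq A (n := 3) h; simpa using this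
  · right; right
    refine ⟨?_, ?_, c3 ?_⟩
    · rw [Bool.eq_false_iff]
      intro hb
      have := Nat.beq_eq.mp hb
      omega
    · rw [Bool.eq_false_iff]
      intro hb
      have := Nat.le_of_ble_eq_true hb
      omega
    · have := ab_gt A (n := 3) h; simpa using this

theorem sg3_ok {i j k : ℕ} (hi : i < 6 * K) (hj : j < 6 * K) (hk : k < 6 * K) :
    Sg (dir (a i) + dir (a j) + dir (a k)) (sg3 K i j k) := by
  have e := sq3 (a i) (a j) (a k)
  have z0 : ∀ {n : ℕ}, ‖dir (a i) + dir (a j) + dir (a k)‖ ^ 2 - 1 = 0 → n = 1 →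
      Sg (dir (a i) + dir (a j) + dir (a k)) n := fun h hn =>
    Sg.of_sq (fun h => by omega) (fun _ => h) (fun h => by omega)
  have z1 : ∀ {n : ℕ}, 0 < ‖dir (a i) + dir (a j) + dir (a k)‖ ^ 2 - 1 → n = 2 →
      Sg (dir (a i) + dir (a j) + dir (a k)) n := fun h hn =>
    Sg.of_sq (fun h => by omega) (fun h => by omega) (fun _ => h)
  have z2 : ∀ {n : ℕ}, ‖dir (a i) + dir (a j) + dir (a k)‖ ^ 2 - 1 < 0 → n = 0 →
      Sg (dir (a i) + dir (a j) + dir (a k)) n := fun h hn =>
    Sg.of_sq (fun _ => h) (fun h => by omega) (fun h => by omega)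
  unfold sg3
  rcases fac A hi hj with ⟨a1, a2, a3⟩ | ⟨a1, a3⟩ | ⟨a1, a2, a3⟩
  · rcases fac A hj hk with ⟨b1, b2, b3⟩ | ⟨b1, b3⟩ | ⟨b1, b2, b3⟩
    · rcases fac A hk hi with ⟨c1, c2, c3⟩ | ⟨c1, c3⟩ | ⟨c1, c2, c3⟩
      · exact z1 (by rw [e]; positivity) (by rw [a1, b1, c1, a2, b2, c2]; rfl)
      · exact z0 (by rw [e, c3, mul_zero]) (by rw [a1, b1, c1]; rfl)
      · exact z2 (by rw [e]; exact mul_neg_of_pos_of_neg (by positivity) c3) (by rw [a1, b1, c1, a2, b2, c2]; rfl)
    · exact z0 (by rw [e, b3]; ring) (by rw [a1, b1]; rfl)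
    · rcases fac A hk hi with ⟨c1, c2, c3⟩ | ⟨c1, c3⟩ | ⟨c1, c2, c3⟩
      · exact z2 (by rw [e]; exact mul_neg_of_neg_of_pos (mul_neg_of_pos_of_neg (by positivity) b3) c3)
          (by rw [a1, b1, c1, a2, b2, c2]; rfl)
      · exact z0 (by rw [e, c3, mul_zero]) (by rw [a1, b1, c1]; rfl)
      · exact z1 (by rw [e]; exact mul_pos_of_neg_of_neg (mul_neg_of_pos_of_neg (by positivity) b3) c3)
          (by rw [a1, b1, c1, a2, b2, c2]; rfl)
  · exact z0 (by rw [e, a3]; ring) (by rw [a1]; rfl)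
  · have a3' : 8 * Real.cos ((a i - a j) * (Real.pi / 6)) < 0 := by linarith
    rcases fac A hj hk with ⟨b1, b2, b3⟩ | ⟨b1, b3⟩ | ⟨b1, b2, b3⟩
    · rcases fac A hk hi with ⟨c1, c2, c3⟩ | ⟨c1, c3⟩ | ⟨c1, c2, c3⟩
      · exact z2 (by rw [e]; exact mul_neg_of_neg_of_pos (mul_neg_of_neg_of_pos a3' b3) c3)
          (by rw [a1, b1, c1, a2, b2, c2]; rfl)
      · exact z0 (by rw [e, c3, mul_zero]) (by rw [a1, b1, c1]; rfl)
      · exact z1 (by rw [e]; exact mul_pos_of_neg_of_neg (mul_neg_of_neg_of_pos a3' b3) c3)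
          (by rw [a1, b1, c1, a2, b2, c2]; rfl)
    · exact z0 (by rw [e, b3]; ring) (by rw [a1, b1]; rfl)
    · rcases fac A hk hi with ⟨c1, c2, c3⟩ | ⟨c1, c3⟩ | ⟨c1, c2, c3⟩
      · exact z1 (by rw [e]; exact mul_pos (mul_pos_of_neg_of_neg a3' b3) c3)
          (by rw [a1, b1, c1, a2, b2, c2]; rfl)
      · exact z0 (by rw [e, c3, mul_zero]) (by rw [a1, b1, c1]; rfl)
      · exact z2 (by rw [e]; exact mul_neg_of_pos_of_neg (mul_pos_of_neg_of_neg a3' b3) c3)
          (by rw [a1, b1, c1, a2, b2, c2]; rfl)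

/-- opposite directions -/
theorem opp_ok {i j : ℕ} (h : ab i j = 3 * K) : dir (a i) + dir (a j) = 0 := by
  wlog hij : j ≤ i generalizing i j
  · rw [add_comm]
    exact this (by rwa [ab_comm]) (by omega)
  unfold ab at h
  rw [show i = j + 3 * K by omega, A.dir_opp]
  ring

omit A in
theorem dir_two (x : ℝ) : dir x + dir (x + 2) = dir (x + 1) := by
  unfold dir
  have e1 : x * (Real.pi / 3) = (x + 1) * (Real.pi / 3) - Real.pi / 3 := by ring
  have e2 : (x + 2) * (Real.pi / 3) = (x + 1) * (Real.pi / 3) + Real.pi / 3 := by ring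
  rw [e1, e2]
  apply Complex.ext
  · simp only [Complex.add_re, cis_re, Real.cos_add, Real.cos_sub, Real.cos_pi_div_three]; ring
  · simp only [Complex.add_im, cis_im, Real.sin_add, Real.sin_sub, Real.cos_pi_div_three]; ring

theorem two_ok (i : ℕ) : dir (a i) + dir (a (i + 2 * K)) = dir (a (i + K)) := by
  rw [A.per_mul, A.per]
  exact_mod_cast dir_two (a i)

omit A in
theorem beq_ne {m n : ℕ} (h : m ≠ n) : Nat.beq m n = false := by
  rw [Bool.eq_false_iff]
  exact fun hb => h (Nat.beq_eq.mp hb)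

theorem mg_le {i j : ℕ} (hi : i < 6 * K) (hj : j ≤ i) (h : ab i j = 2 * K ∨ ab i j = 4 * K) :
    mg K i j < 6 * K ∧ dir (a i) + dir (a j) = dir (a (mg K i j)) := by
  have hK := A.pos
  unfold mg
  rw [show Nat.ble j i = true from Nat.ble_eq_true_of_le hj, cond_true]
  rcases h with h | h
  · rw [show Nat.beq (ab i j) (2 * K) = true from Nat.beq_eq.mpr h, cond_true]
    unfold ab at h
    refine ⟨by omega, ?_⟩
    rw [← two_ok A j, show i = j + 2 * K by omega, add_comm]
  · rw [beq_ne (by omega), cond_false]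
    refine ⟨Nat.mod_lt _ (by omega), ?_⟩
    unfold ab at h
    rw [show Nat.mod (i + K) (6 * K) = (i + K) % (6 * K) from rfl, A.dir_mod, ← two_ok A i,
      show i + 2 * K = j + 6 * K by omega, A.dir_full]

omit A in
theorem mg_comm (i j : ℕ) : mg K i j = mg K j i := by
  rcases lt_trichotomy i j with h | rfl | h
  · unfold mg
    rw [show Nat.ble i j = true from Nat.ble_eq_true_of_le h.le, show Nat.ble j i = false from ?_, cond_true,
      cond_false, ab_comm]
    rw [Bool.eq_false_iff]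
    intro hb
    have := Nat.le_of_ble_eq_true hb
    omega
  · rfl
  · unfold mg
    rw [show Nat.ble j i = true from Nat.ble_eq_true_of_le h.le, show Nat.ble i j = false from ?_, cond_true,
      cond_false, ab_comm]
    rw [Bool.eq_false_iff]
    intro hb
    have := Nat.le_of_ble_eq_true hb
    omega

theorem mg_ok {i j : ℕ} (hi : i < 6 * K) (hj : j < 6 * K) (h : ab i j = 2 * K ∨ ab i j = 4 * K) :
    mg K i j < 6 * K ∧ dir (a i) + dir (a j) = dir (a (mg K i j)) := by
  rcases Nat.le_total j i with hij | hij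
  · exact mg_le A hi hij h
  · rw [mg_comm, add_comm]
    exact mg_le A hj hij (by rwa [ab_comm])

theorem sg4s_ok {v : ℂ} {i j k l e : ℕ} (hi : i < 6 * K) (hj : j < 6 * K) (hk : k < 6 * K) (hl : l < 6 * K)
    (hv : v = dir (a i) + dir (a j) + (dir (a k) + dir (a l))) (he : Sg v e) : Sg v (sg4s K i j k l e) := by
  unfold sg4s
  simp only [cond_eq_ite, Bool.or_eq_true, Nat.beq_eq]
  split_ifs with k1 k2
  · rw [opp_ok A k1, zero_add] at hv
    rw [hv]
    exact sg2_ok A hk hl
  · obtain ⟨k3, k4⟩ := mg_ok A hi hj k2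
    rw [k4, ← add_assoc] at hv
    rw [hv]
    exact sg3_ok A k3 hk hl
  · exact he

theorem sg4_ok {i j k l : ℕ} (hi : i < 6 * K) (hj : j < 6 * K) (hk : k < 6 * K) (hl : l < 6 * K) :
    Sg (dir (a i) + dir (a j) + dir (a k) + dir (a l)) (sg4 K i j k l) := by
  unfold sg4
  refine sg4s_ok A hi hj hk hl (by ring) (sg4s_ok A hi hk hj hl (by ring) (sg4s_ok A hi hl hj hk (by ring)
    (sg4s_ok A hj hk hi hl (by ring) (sg4s_ok A hj hl hi hk (by ring) (sg4s_ok A hk hl hi hj (by ring) ?_)))))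
  exact ⟨fun h => by omega, fun h => by omega, fun h => by omega⟩

omit A in
theorem nf_iff {m n : ℕ} : nf m n = true ↔ (m = 0 ∧ n = 2) ∨ (m = 2 ∧ n = 0) := by
  unfold nf
  simp only [Bool.or_eq_true, Bool.and_eq_true, Nat.beq_eq]

/-- the norm of the difference -/
theorem dist_tick (x v : ℂ) (g : ℕ) : dist (x + dir (a g)) (x + v) = ‖v + dir (a (ix K (g + 3 * K)))‖ := by
  rw [dist_eq_norm, show ix K (g + 3 * K) = (g + 3 * K) % (6 * K) from rfl, A.dir_mod, A.dir_opp, ← norm_neg]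
  congr 1
  ring

theorem ix_lt (n : ℕ) : ix K n < 6 * K := Nat.mod_lt _ (by have := A.pos; omega)

/-- **the crossing table**, two steps -/
theorem cr2_ok {p q g n : ℕ} (x : ℂ) (hp : p < 6 * K) (hq : q < 6 * K) (hc : cr2 K p q g n = true) :
    (dist (x + dir (a g)) (x + dir (a p) + dir (a q)) < 1 ∧
      1 < dist (x + dir (a (g + n))) (x + dir (a p) + dir (a q))) ∨
    (1 < dist (x + dir (a g)) (x + dir (a p) + dir (a q)) ∧
      dist (x + dir (a (g + n))) (x + dir (a p) + dir (a q)) < 1) := by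
  have h1 := sg3_ok A hp hq (ix_lt A (g + 3 * K))
  have h2 := sg3_ok A hp hq (ix_lt A (g + n + 3 * K))
  rw [show x + dir (a p) + dir (a q) = x + (dir (a p) + dir (a q)) by ring, dist_tick A, dist_tick A]
  rcases nf_iff.1 hc with ⟨h3, h4⟩ | ⟨h3, h4⟩
  · exact Or.inl ⟨h1.1 h3, h2.2.2 h4⟩
  · exact Or.inr ⟨h1.2.2 h3, h2.1 h4⟩

/-- **the crossing table**, three steps -/
theorem cr3_ok {p q r g n : ℕ} (x : ℂ) (hp : p < 6 * K) (hq : q < 6 * K) (hr : r < 6 * K)
    (hc : cr3 K p q r g n = true) :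
    (dist (x + dir (a g)) (x + dir (a p) + dir (a q) + dir (a r)) < 1 ∧
      1 < dist (x + dir (a (g + n))) (x + dir (a p) + dir (a q) + dir (a r))) ∨
    (1 < dist (x + dir (a g)) (x + dir (a p) + dir (a q) + dir (a r)) ∧
      dist (x + dir (a (g + n))) (x + dir (a p) + dir (a q) + dir (a r)) < 1) := by
  have h1 := sg4_ok A hp hq hr (ix_lt A (g + 3 * K))
  have h2 := sg4_ok A hp hq hr (ix_lt A (g + n + 3 * K))
  rw [show x + dir (a p) + dir (a q) + dir (a r) = x + (dir (a p) + dir (a q) + dir (a r)) by ring, dist_tick A,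
    dist_tick A]
  rcases nf_iff.1 hc with ⟨h3, h4⟩ | ⟨h3, h4⟩
  · exact Or.inl ⟨h1.1 h3, h2.2.2 h4⟩
  · exact Or.inr ⟨h1.2.2 h3, h2.1 h4⟩

end

end Vale.Agent.P032.H993.Sgn
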